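import Crest.Agent.X212.Geo28.Lv
import Crest.Agent.X212.Rfl19.Th
import Crest.Agent.X212.Nvg56.Cn

/-!
# Row 212, layer GEO (helper28): homotopies, absorption of cylinders, commutation with `U`
-/

set_option autoImplicit false
set_option linter.unusedSectionVars false

open Set Filter Topology Function Module
open scoped ContDiff Manifold
open Crest.Agent.R208 Crest.Agent.R208.F
open Crest.Agent.X212.Dr59 (Cs Cl Ex HZ Lat ip pm df psh)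
open Crest.Agent.X212.Int54 (SameOn)
open Crest.Agent.X212.Orx52 (Pos pr oR)
open Crest.Agent.X212.Rod53 (E4 Z2 Loc)
open Crest.Agent.X212.Cyl58 (IsOE)
open Crest.Agent.X212.Lab56 (Cls)
open Crest.Agent.X212.Rfl19

noncomputable section

universe u

namespace Crest.Agent.X212

namespace Flo2.Sk
variable {K : Sk.{u}} {a b c : K.E} {τ τ' τ'' : K.F a b}

theorem Htp.pt' (h : K.Htp τ τ') : K.Pt τ' := by
  cases h with
  | refl h => exact h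
  | step _ _ _ _ h _ => exact h

theorem Htp.trans' (h : K.Htp τ τ') (h' : K.Htp τ' τ'') : K.Htp τ τ'' := by
  induction h' with
  | refl _ => exact h
  | step σ x y _ p q ih => exact .step σ x y ih p q

theorem Htp.symm' (h : K.Htp τ τ') : K.Htp τ' τ := by
  induction h with
  | refl h => exact .refl h
  | step σ x y k p q ih =>
    exact (Htp.step σ y x (.refl p) k.pt' ⟨q.fc.trans (.swap _ _ _), q.nk, q.cp⟩).trans' ih

theorem Cmp.congr {τ τ' : K.F a c} {τ₁ τ₁' : K.F a b} {τ₂ τ₂' : K.F b c} (h : K.Cmp τ' τ₁' τ₂')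
    (e : K.Htp τ τ') (e₁ : K.Htp τ₁ τ₁') (e₂ : K.Htp τ₂ τ₂') : K.Cmp τ τ₁ τ₂ :=
  let ⟨σ, x, y, z, h1, h2, h3, h4⟩ := h
  ⟨σ, x, y, z, e.trans' h1, e₁.trans' h2, e₂.trans' h3, h4⟩

end Flo2.Sk

namespace Geo28
open Bor5.T Flo2

namespace M4.Dif
variable {X X' X'' : M4}

/-- the identity -/
def refl (X : M4) : X.Dif X :=
  ⟨.refl _ _ _, Orx52.pos_id.2 (Orx52.oriOn X.ori _).same⟩

/-- the inverse -/
def symm (φ : X.Dif X') : X'.Dif X := ⟨φ.φ.symm, by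
  have := Orx52.Pos.symm (φ := φ.φ.toPartialDiffeomorph) φ.pos (subset_univ _)
  exact this.mono fun y _ => ⟨φ.φ.symm y, trivial, φ.φ.apply_symm_apply y⟩⟩

/-- the composite -/
def trans (φ : X.Dif X') (ψ : X'.Dif X'') : X.Dif X'' := ⟨φ.φ.trans ψ.φ,
  ψ.pos.comp φ.pos (fun y _ => ψ.φ.isLocalDiffeomorph y) (fun y _ => φ.φ.isLocalDiffeomorph y)
    (mapsTo_univ _ _)⟩

/-- the push-forward of a form -/
abbrev ps (φ : X.Dif X') (e : X.Fm) : X'.Fm := psh φ.φ.toPartialDiffeomorph e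

theorem ps_eq (φ : X.Dif X') (e : X.Fm) : φ.ps e = pm X'.I X.I φ.φ.symm e :=
  funext fun _ => indicator_of_mem (mem_univ _) _

theorem pm_ps (φ : X.Dif X') (e : X.Fm) : pm X.I X'.I φ.φ (φ.ps e) = e :=
  funext fun _ => Dr59.pm_psh φ.φ.toPartialDiffeomorph (mem_univ _) e

theorem cs (φ : X.Dif X') {S : Set X.M} {e : X.Fm} (h : Cs X.I 2 S e) : Cs X'.I 2 (φ.φ '' S) (φ.ps e) :=
  h.psh φ.φ.toPartialDiffeomorph (subset_univ _)

theorem ip_ps (φ : X.Dif X') {e : X.Fm} (h : Cs X.I 2 univ e) (c : X'.Fm) :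
    X'.ip c (φ.ps e) = X.ip (pm X.I X'.I φ.φ c) e :=
  h.ip_psh φ.φ.toPartialDiffeomorph (subset_univ _) X'.ori X.ori (SameOn.symm φ.pos) c

theorem ps_ps (φ : X.Dif X') {d : X.L} {d' : X'.L} (hd : Pb φ.φ univ d' d) {η : X.Fm}
    (hη : Cs X.I 2 univ η) (h : X.Ps d η) : X'.Ps d' (φ.ps η) := by
  obtain ⟨c, h1, h2, h3⟩ := h
  refine ⟨φ.ps c, (φ.cs h1).mono (subset_univ _), φ.ps_eq c ▸ Nvg56.cur_dif (pb_symm hd) h2, ?_⟩
  have e : φ.ps η - φ.ps c = φ.ps (η - c) := by rw [ps_eq, ps_eq, ps_eq, Dr59.pm_sub]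
  rwa [e, φ.ip_ps (hη.sub' h1), pm_ps]

theorem exists_pb (φ : X.Dif X') (d : X.L) : ∃ d' : X'.L, Pb φ.φ univ d' d :=
  ⟨_, pb_symm (φ := φ.φ.symm) (pb_pull fun y _ => φ.φ.symm.isLocalDiffeomorph y)⟩

end M4.Dif

theorem M4.Ps.seg {X : M4} {d : X.L} {η : X.Fm} (h : X.Ps d η) : X.Seg d η η := fun s _ => by
  rwa [← add_smul, sub_add_cancel, one_smul]

namespace Ec
variable {X X' X'' : M4} {J : Set ℝ} {l : Filter ℝ}

theorem Ag.refl : ∀ {a : Option O3} (k : Ec a X J), Ag l id k k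
  | none, _ => trivial
  | some _, _ => ag_refl

theorem Ag.trans (hl : Nd l) {f : X.M → X'.M} {g : X'.M → X''.M} : ∀ {a : Option O3} {k : Ec a X J}
    {k' : Ec a X' J} {k'' : Ec a X'' J}, Ag l f k k' → Ag l g k' k'' → Ag l (g ∘ f) k k''
  | none, _, _, _, _, _ => trivial
  | some _, _, _, _, h, h' => ag_trans hl (ag_comp h g) h'

theorem Ag.symm (hl : Nd l) (φ : X.Dif X') : ∀ {a : Option O3} {k : Ec a X J} {k' : Ec a X' J},
    Ag l φ.φ k k' → Ag l φ.symm.φ k' k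
  | none, _, _, _ => trivial
  | some _, _, _, h => ag_trans hl (ag_symm hl (ag_comp h φ.φ.symm))
      (ag_of_eq (.of_forall fun _ _ => φ.φ.symm_apply_apply _))

theorem ag_in {f : X.M → X.M} {K : Set X.M} (hK : IsCompact K) (hf : ∀ p ∉ K, f p = p) :
    ∀ {a : Option O3} (k : Ec a X (Iio 0)), Ag atBot f k k
  | none, _ => trivial
  | some _, k => by
    obtain ⟨T, hT⟩ := (hK.image (Nc.cont k)).bddBelow
    refine ag_of_eq ((eventually_lt_atBot (min T 0)).mono fun t ht y => hf _ fun h => ?_)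
    have := hT ⟨_, h, rfl⟩
    rw [Nc.tmk k (y, t) ((Nc.src k).ge ⟨trivial, (lt_min_iff.1 ht).2⟩)] at this
    exact (lt_min_iff.1 ht).1.not_ge this

theorem ag_out {f : X.M → X.M} {K : Set X.M} (hK : IsCompact K) (hf : ∀ p ∉ K, f p = p) :
    ∀ {a : Option O3} (k : Ec a X (Ioi 0)), Ag atTop f k k
  | none, _ => trivial
  | some _, k => by
    obtain ⟨T, hT⟩ := (hK.image (Nc.cont k)).bddAbove
    refine ag_of_eq ((eventually_gt_atTop (max T 0)).mono fun t ht y => hf _ fun h => ?_)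
    have := hT ⟨_, h, rfl⟩
    rw [Nc.tmk k (y, t) ((Nc.src k).ge ⟨trivial, (max_lt_iff.1 ht).2⟩)] at this
    exact (max_lt_iff.1 ht).1.not_ge this

end Ec

namespace Pm
variable {a b x : Option O3}

theorem Zr.fo {T : Pm a b x} {η : T.Fm} (h : T.Zr η) : T.Fo η :=
  h.mono fun _ k => ⟨by linarith [k.1], by linarith [k.2.1], by linarith [k.2.2]⟩

theorem zr_zero (T : Pm a b x) : T.Zr 0 := Dr59.Cs.zero

/-- a weak isomorphism of pieces without boxes -/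
def wk0 {T T' : Pm a b none} (φ : T.X.Dif T'.X) (h : Ec.Ag atBot φ.φ T.ki T'.ki)
    (h' : Ec.Ag atTop φ.φ T.ko T'.ko) (n : T.nb = 0) (n' : T'.nb = 0) : T.Wk T' :=
  ⟨φ, h, h', n.trans n'.symm, fun j => (j.cast n).elim0⟩

end Pm

theorem Cm.nb {a c : Option O3} {B : O3} {T₁ : Pm a (some B) none} {T₂ : Pm (some B) c none}
    {T : Pm a c none} (g : Cm T₁ T₂ T) : T.nb = T₁.nb + T₂.nb := by
  simpa using (Fintype.card_congr g.e).symm

variable {K : Sk.{u}} {Q : Prd} (E : Eng K Q) (H : Lvs)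
include H

namespace Eng

theorem htp_wk {a b σ σ' T T' d d' η η'} (h : E.Rep a b σ T d η) (h' : E.Rep a b σ' T' d' η')
    (φ : T.Wk T') (hd : Pb φ.φ univ d' d)
    (hs : a = none → T.Zr η ∧ T'.Zr η' ∧ T.X.Seg d η (pm T.X.I T'.X.I φ.φ η')) : K.Htp σ σ' :=
  let ⟨ψ, h1, h2⟩ := H.ag _ _ T T' φ
  E.uq h h' ψ (h1 _ _ hd) fun e => h2 _ _ _ (hs e).1 (hs e).2.1 (hs e).2.2

omit H in
theorem ex1' (a b) (T : Pm (vo a) (vo b) none) (d : T.L) (η : T.Fm) (h : T.Fo η)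
    (hp : a = none → T.X.Ps d η) : ∃ σ, E.Rep a b σ T d η :=
  let ⟨σ, k, _⟩ := E.ex a b T Unit (fun _ => d) (fun _ => η) (fun _ => h) (finite_range _)
    fun e _ => hp e
  ⟨σ (), k ()⟩

/-- composition with a cylinder at the outgoing end -/
theorem abs_o {a} {B : Q3} {σ ε T d η} {C : Pm (some B.toO3) (some B.toO3) none} {dC s}
    (h : E.Rep a (some B) σ T d η) (hε : E.Rep (some B) (some B) ε C dC 0) (hC : C.IsCyl)
    (hn : T.nb = 0 ∨ C.nb = 0) (hs : T.ko.Cl d s) (hs' : C.ki.Cl dC s)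
    (hp : a = none → T.Zr η ∧ T.X.Ps d η) :
    ∃ (T' : Pm (vo a) (some B.toO3) none) (g : Cm T C T') (φ : M4.Dif T.X T'.X) (d' : T'.L) (η' : T'.Fm),
      ∃ τ, E.Rep a (some B) τ T' d' η' ∧ K.Cmp τ σ ε ∧ Pb φ.φ univ d' d ∧
      (∀ p ∈ g.l.source, g.l p = φ.φ p) ∧ Ec.Ag atBot φ.φ T.ki T'.ki ∧ Ec.Ag atTop φ.φ T.ko T'.ko ∧
      (T.Bxs → C.Bxs → T'.Bxs) ∧ (a = none → T'.Zr η' ∧ pm T.X.I T'.X.I φ.φ η' = η) := by
  obtain ⟨T', g, φ, h1, h2, h3, h4, h5, h6⟩ := H.abs.o _ _ T C hC hn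
  obtain ⟨d', hd⟩ := φ.exists_pb d
  have ev : ∀ p ∈ g.l.source, g.l =ᶠ[𝓝 p] φ.φ := fun p hp =>
    eventually_of_mem (g.l.open_source.mem_nhds hp) h1
  have hl : g.Rl d' d := pb_congr (pb_mono hd (subset_univ _)) ev
  obtain ⟨d₂, hr, -⟩ := H.cls.r g.toGl3 d'
  obtain rfl : d₂ = dC := ((H.cyl.cl _ C hC).1 s).unique
    ((H.cls.nr g.toGl3 _ _ s hr).2 ((H.cls.nl g.toGl3 _ _ s hl).1 hs)) hs'
  obtain ⟨η', k1, k2⟩ : ∃ η' : T'.Fm, T'.Zr η' ∧ (a = none → pm T.X.I T'.X.I φ.φ η' = η ∧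
      g.Fm η' η 0 ∧ T'.X.Ps d' η') := by
    by_cases e : a = none
    · obtain ⟨z, p⟩ := hp e
      refine ⟨φ.ps η, (φ.cs z).mono (image_subset_iff.2 h6), fun _ => ⟨φ.pm_ps η, ⟨fun p hp => ?_,
        fun p hp => ?_⟩, φ.ps_ps hd (z.mono (subset_univ _)) p⟩⟩
      · exact (Dr59.pm_congr (ev p (g.ls.ge (hp.trans (by norm_num : (3 : ℝ) < 4)))) rfl).trans
          (congrFun (φ.pm_ps η) p)
      · rw [Dr59.pm_apply, φ.ps_eq, Dr59.pm_apply, image_eq_zero_of_notMem_tsupport fun k =>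
          h5 p (g.rs.ge ((by norm_num : (-4 : ℝ) < -3).trans hp)) (z.sub k), map_zero, map_zero]
        rfl
    · exact ⟨0, T'.zr_zero, fun k => (e k).elim⟩
  obtain ⟨τ, hτ⟩ := E.ex1' a (some B) T' d' η' k1.fo fun e => (k2 e).2.2
  exact ⟨T', g, φ, d', η', τ, hτ, E.cm hτ h hε g hl hr fun e => ⟨(k2 e).2.1, (hp e).2, (k2 e).2.2⟩,
    hd, h1, h2, h3, h4, fun e => ⟨k1, (k2 e).1⟩⟩

/-- composition with a cylinder at the incoming end -/
theorem abs_i {A : Q3} {b σ ε T d η} {C : Pm (some A.toO3) (some A.toO3) none} {dC s}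
    (h : E.Rep (some A) b σ T d η) (hε : E.Rep (some A) (some A) ε C dC 0) (hC : C.IsCyl)
    (hn : T.nb = 0 ∨ C.nb = 0) (hs : T.ki.Cl d s) (hs' : C.ki.Cl dC s) :
    ∃ (T' : Pm (some A.toO3) (vo b) none) (g : Cm C T T') (φ : M4.Dif T.X T'.X) (d' : T'.L),
      ∃ τ, E.Rep (some A) b τ T' d' 0 ∧ K.Cmp τ ε σ ∧ Pb φ.φ univ d' d ∧
      (∀ p ∈ g.r.source, g.r p = φ.φ p) ∧ Ec.Ag atBot φ.φ T.ki T'.ki ∧ Ec.Ag atTop φ.φ T.ko T'.ko ∧
      (T.Bxs → C.Bxs → T'.Bxs) := by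
  obtain ⟨T', g, φ, h1, h2, h3, h4⟩ := H.abs.i _ _ T C hC hn
  obtain ⟨d', hd⟩ := φ.exists_pb d
  have hr : g.Rr d' d := pb_congr (pb_mono hd (subset_univ _)) fun p hp =>
    eventually_of_mem (g.r.open_source.mem_nhds hp) h1
  obtain ⟨d₁, hl, -⟩ := H.cls.l g.toGl3 d'
  obtain rfl : d₁ = dC := ((H.cyl.cl _ C hC).1 s).unique (((H.cyl.cl _ C hC).2 _ s).2
    ((H.cls.nl g.toGl3 _ _ s hl).2 ((H.cls.nr g.toGl3 _ _ s hr).1 hs))) hs'
  obtain ⟨τ, hτ⟩ := E.ex1' (some A) b T' d' 0 T'.zr_zero.fo nofun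
  exact ⟨T', g, φ, d', τ, hτ, E.cm hτ hε h g hl hr nofun, hd, h1, h2, h3, h4⟩

/-- absorption at the outgoing end -/
theorem out {a} {B : Q3} {σ ε T d η} {C : Pm (some B.toO3) (some B.toO3) none} {dC s}
    (h : E.Rep a (some B) σ T d η) (hε : E.Rep (some B) (some B) ε C dC 0) (hC : C.IsCyl)
    (hn : C.nb = 0) (h1 : T.nb ≤ 1) (hs : T.ko.Cl d s) (hs' : C.ki.Cl dC s)
    (hp : a = none → T.Zr η ∧ T.X.Ps d η) : K.Cmp σ σ ε := by
  obtain ⟨T', g, φ, d', η', τ, k1, k2, k3, k4, k5, k6, -, k7⟩ := E.abs_o H h hε hC (.inr hn) hs hs' hp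
  have n : T.nb = T'.nb := by rw [g.nb, hn, add_zero]
  refine k2.congr (E.htp_wk H h k1 ⟨φ, k5, k6, n, fun j y => ?_⟩ k3 fun e => ⟨(hp e).1, (k7 e).1, ?_⟩)
    (.refl (E.pt h)) (.refl (E.pt hε))
  · rw [← k4 _ (g.ls.ge ((T.core j y).2.1.trans_lt four_pos)), g.b₁]
    have e : g.e (.inl j) = j.cast n :=
      Fin.ext (by have := (g.e (.inl j)).2; have := j.2; show (g.e (.inl j)).1 = j.1; omega)
    rw [e]
  · exact (k7 e).2.symm ▸ (hp e).2.seg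

/-- absorption at the incoming end -/
theorem inn {A : Q3} {b σ ε T d η} {C : Pm (some A.toO3) (some A.toO3) none} {dC s}
    (h : E.Rep (some A) b σ T d η) (hε : E.Rep (some A) (some A) ε C dC 0) (hC : C.IsCyl)
    (hn : C.nb = 0) (h1 : T.nb = 0) (hs : T.ki.Cl d s) (hs' : C.ki.Cl dC s) : K.Cmp σ ε σ := by
  obtain ⟨T', g, φ, d', τ, k1, k2, k3, -, k5, k6, -⟩ := E.abs_i H h hε hC (.inr hn) hs hs'
  exact k2.congr (E.htp_wk H h k1 (Pm.wk0 φ k5 k6 h1 (by rw [g.nb, hn, h1])) k3 nofun)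
    (.refl (E.pt hε)) (.refl (E.pt h))

/-- commutation with `U` -/
theorem com {A B : Q3} {σ ε ε' T d η} {C : Pm (some A.toO3) (some A.toO3) none}
    {C' : Pm (some B.toO3) (some B.toO3) none} {dC dC' s s'}
    (h : E.Rep (some A) (some B) σ T d η) (hε : E.Rep (some A) (some A) ε C dC 0)
    (hε' : E.Rep (some B) (some B) ε' C' dC' 0) (hC : C.IsCyl) (hC' : C'.IsCyl) (n : C.nb = 1)
    (n' : C'.nb = 1) (x : C.Bxs) (x' : C'.Bxs) (h0 : T.nb = 0) (hs : T.ki.Cl d s) (ht : T.ko.Cl d s')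
    (hc : C.ki.Cl dC s) (hc' : C'.ki.Cl dC' s') : ∃ τ, K.Cmp τ ε σ ∧ K.Cmp τ σ ε' := by
  obtain ⟨T₁, g₁, φ₁, d₁, τ₁, k1, k2, k3, -, k5, k6, k7⟩ := E.abs_i H h hε hC (.inl h0) hs hc
  obtain ⟨T₂, g₂, φ₂, d₂, η₂, τ₂, l1, l2, l3, -, l5, l6, l7, -⟩ :=
    E.abs_o H h hε' hC' (.inl h0) ht hc' nofun
  have b0 : T.Bxs := fun j => (j.cast h0).elim0
  have n₁ : T₁.nb = 1 := by rw [g₁.nb, n, h0]
  have n₂ : T₂.nb = 1 := by rw [g₂.nb, n', h0]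
  obtain ⟨f₁, a1, a2, -, a3⟩ := k7 b0 x ⟨0, by omega⟩
  obtain ⟨f₂, c1, c2, -, c3⟩ := l7 b0 x' ⟨0, by omega⟩
  let χ := φ₁.symm.trans φ₂
  obtain ⟨ψ, Z, z1, z2, z3, z4⟩ := H.dsc T₂.X (χ.φ ∘ f₁) f₂
    ⟨χ.φ.injective.comp a1.inj, fun y => (a1.loc y).comp _ _ (χ.φ.isLocalDiffeomorph _)⟩ c1
    (χ.pos.comp a2 (fun y _ => χ.φ.isLocalDiffeomorph y) (fun y _ => a1.loc y) (mapsTo_univ _ _)) c2
  refine ⟨τ₁, k2, l2.congr (E.htp_wk H k1 l1 ⟨χ.trans ψ, ?_, ?_, n₁.trans n₂.symm, fun j y => ?_⟩ ?_ nofun)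
    (.refl (E.pt h)) (.refl (E.pt hε'))⟩
  · exact ((k5.symm nd_bot).trans nd_bot l5).trans nd_bot (Ec.ag_in z1 z2 _)
  · exact ((k6.symm nd_top).trans nd_top l6).trans nd_top (Ec.ag_out z1 z2 _)
  · obtain rfl : j = ⟨0, by omega⟩ := Fin.ext (by have := j.2; simp only; omega)
    rw [a3]
    exact (z4 _ (Metric.ball_subset_closedBall
      (OpenPartialHomeomorph.univUnitBall.map_source (mem_univ y)))).trans (c3 y).symm
  · exact (Rfl19.pb_comp (z3 d₂) (Rfl19.pb_comp l3 (pb_symm k3) (mapsTo_univ _ _)) (mapsTo_univ _ _) :)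

end Eng

end Geo28

end Crest.Agent.X212
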