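import Crest.Agent.X212.Flo2.Cut

/-!
# Row 212, layer GEO (helper28): realisations with idempotent points instead of identities

A cylinder with two necks gives an idempotent `e`; the theory lives on the range of `e`.
-/

set_option autoImplicit false
set_option linter.unusedSectionVars false

open Set Filter Function Module
open scoped Manifold ContDiff
open Crest.Agent.R208 Crest.Agent.R208.F
open Crest.Agent.X212.Dr59 (Lat ip pm)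
open Crest.Agent.X212.Orx52 (Pos pr oR)
open Crest.Agent.X212.Rod53 (Z2 Loc)
open Crest.Agent.X212.Lab56 (Cls)

noncomputable section

universe u

namespace Crest.Agent.X212.Flo2

open Bor5.T

namespace Sk
variable (S : Sk.{u})

/-- the idempotent points of an end -/
structure ED (a : S.E) : Type u where
  e : S.L a → S.F a a
  pt : ∀ c, S.Pt (e c)
  s : ∀ c, S.s (e c) = c
  t : ∀ c, S.t (e c) = c
  ee : ∀ c, S.Cmp (e c) (e c) (e c)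

variable {S}

/-- `τ` absorbs `e` at the incoming end -/
def ED.In {a b : S.E} (E : S.ED a) (τ : S.F a b) : Prop := S.Cmp τ (E.e (S.s τ)) τ

/-- `τ` absorbs `e` at the outgoing end -/
def ED.Out {a b : S.E} (E : S.ED b) (τ : S.F a b) : Prop := S.Cmp τ τ (E.e (S.t τ))

/-- `σ` factors over a point that commutes with `U` and vanishes in high degrees -/
def Kil2 {a b x : S.E} (u : S.UD a) (u' : S.UD x) (σ : S.F a b) : Prop :=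
  ∃ (σ₁ τ τ₀ : S.F a x) (σ₂ : S.F x b), S.Cmp σ σ₁ σ₂ ∧ S.Cmp τ (u.U (S.s σ₁)) σ₁ ∧
    S.Cmp τ σ₁ (u'.U (S.t σ₁)) ∧ S.Htp σ₁ τ₀ ∧ S.hi0 τ₀

variable {a b c : S.E} {f : S.Arr a b} {g : S.Arr b c} {h : S.Arr c a} {D0 : Dbl f g}
  {D1 : Dbl g h} {N : S.Cap} {T : f.I → g.I → h.I → Prop}

/-- the filled piece is the product -/
structure Pen.Id2 (P : Pen D0 D1 N) (E : S.ED a) : Prop where
  htp : ∀ i, S.Htp (P.ι i) (E.e (S.s (P.ι i)))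
  bij : Bijective fun i => S.s (P.ι i)

/-- the wall crossing marks of a model pentagon -/
structure Pen.Mdl2 (P : Pen D0 D1 N T) where
  hi1 : ∀ i, S.hi1 (P.ι i)
  tp : ∀ i, S.tp (P.ι i) 0
  st : ∀ i, S.t (P.ι i) = S.s (P.ι i)
  bij : Bijective fun i => S.s (P.ι i)
  qhs : S.qhs a
  s0 : S.L a
  al : P.M → Prop
  al1 : ∀ k, al (P.r1 k) ↔ al k
  al2 : ∀ k, al (P.r2 k) ↔ al k
  dd1 : ∀ k c, S.dead (S.cp (P.R1 k) c).1 ↔ ¬al k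
  dd2 : ∀ k c, S.dead (S.cp (P.R2 k) c).1 ↔ ¬al k
  tp1 : ∀ k, al k → ∃ r ≤ 0, S.tp (P.Γ1 k) r
  tp2 : ∀ k, al k → ∃ r ≤ 0, S.tp (P.Γ2 k) r
  W1 : Finset P.M
  W2 : Finset P.M
  odd : Odd (W1.card + W2.card)
  w1 : ∀ k ∈ W1, D0.half (P.e0 k).1.1 ∧ al k ∧ S.hi1 (P.Γ1 k) ∧ S.tp (P.Γ1 k) 0 ∧
    S.s (P.Γ1 k) = s0 ∧ S.t (P.Γ1 k) = s0
  w2 : ∀ k ∈ W2, D1.half (P.e1 k).1.2 ∧ al k ∧ S.hi1 (P.Γ2 k) ∧ S.tp (P.Γ2 k) 0 ∧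
    S.s (P.Γ2 k) = s0 ∧ S.t (P.Γ2 k) = s0
  n1 : ∀ k ∉ W1, D0.half (P.e0 k).1.1 → al k → S.s (P.Γ1 k) = s0 →
    S.hi0 (P.Γ1 k) ∨ ∃ r < 0, S.tp (P.Γ1 k) r
  n2 : ∀ k ∉ W2, D1.half (P.e1 k).1.2 → al k → S.s (P.Γ2 k) = s0 →
    S.hi0 (P.Γ2 k) ∨ ∃ r < 0, S.tp (P.Γ2 k) r
  ne : Nonempty P.IL

/-- the caps occur in a model pentagon -/
def Cap.Has2 (N : S.Cap) : Prop :=
  ∃ (a b c : S.E) (f : S.Arr a b) (g : S.Arr b c) (h : S.Arr c a) (D0 : Dbl f g) (D1 : Dbl g h)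
    (T : f.I → g.I → h.I → Prop) (P : Pen D0 D1 N T), Nonempty P.Mdl2

end Sk

/-- the skeleton `K` contains the cells that the laws of the scene `S` need -/
structure Rl2 (S : Scene) (K : Sk.{u}) : Type (max u 1) where
  ob : S.ι → K.E
  qhs : ∀ i, K.qhs (ob i)
  lab : ∀ i, (S.ob i).L ≃ K.L (ob i)
  psc : ∀ i, Nonempty (Sph (S.ob i).toO3) → K.psc (ob i)
  sph : K.sph (ob S.i0)
  U : ∀ i, K.UD (ob i)
  E : ∀ i, K.ED (ob i)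
  eU : ∀ i c, (E i).Out ((U i).U c)
  pt : ∀ {i j} (c : S.κ i j), (S.cob c).L → K.F (ob i) (ob j)
  isPt : ∀ {i j} (c : S.κ i j) d, K.Pt (pt c d)
  prp : ∀ {i j} (c : S.κ i j), K.Prp (pt c)
  s : ∀ {i j} (c : S.κ i j) d s, (S.cob c).In d s → K.s (pt c d) = lab i s
  t : ∀ {i j} (c : S.κ i j) d t, (S.cob c).Out d t → K.t (pt c d) = lab j t
  ept : ∀ {i j} (c : S.κ i j) d, (E i).In (pt c d) ∧ (E j).Out (pt c d)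
  comU : ∀ {i j} (c : S.κ i j) d, ∃ τ, K.Cmp τ ((U i).U (K.s (pt c d))) (pt c d) ∧
    K.Cmp τ (pt c d) ((U j).U (K.t (pt c d)))
  nat : ∀ {i j} (c c' : S.κ i j) (φ : W4.Dif (S.cob c).toW4 (S.cob c').toW4) d d',
    Ag atBot (φ.φ ∘ (S.cob c).ki) (S.cob c').ki → Ag atTop (φ.φ ∘ (S.cob c).ko) (S.cob c').ko →
    Pb φ.φ univ d' d → K.Htp (pt c d) (pt c' d')
  comp : ∀ {i j k} (c₁ : S.κ i j) (c₂ : S.κ j k) (c : S.κ i k)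
    (g : Gl (S.cob c₁).toW4 (S.cob c₂).toW4 (S.cob c).toW4 (S.cob c₁).ko (S.cob c₂).ki) d d₁ d₂,
    Ag atBot (g.fl ∘ (S.cob c₁).ki) (S.cob c).ki → Ag atTop (g.fr ∘ (S.cob c₂).ko) (S.cob c).ko →
    g.Rs d d₁ d₂ → K.Cmp (pt c d) (pt c₁ d₁) (pt c₂ d₂)
  id : ∀ {i} (c : S.κ i i)
    (φ : (S.ob i).cyl.P.M ≃ₘ^∞⟮(S.ob i).cyl.P.I, (S.cob c).X.P.I⟯ (S.cob c).M) d s,
    Pos (S.ob i).cyl.P.I (S.cob c).X.P.I φ univ (pr (S.ob i).o oR) (S.cob c).o →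
    Ag atBot φ (S.cob c).ki → Ag atTop φ (S.cob c).ko → (S.cob c).In d s →
    K.Htp (pt c d) ((E i).e (lab i s))
  deg : ∀ {i j} (c : S.κ i j) d {n : Type} [Fintype n] [DecidableEq n] (e : n → (S.cob c).Fm)
    (g : n → ℝ) Z c₀ (x : ℚ), Lat (S.cob c).X.P.I (S.cob c).o univ Z e (Matrix.diagonal g) →
    Dr59.Cs (S.cob c).X.P.I 2 univ c₀ → Cur d c₀ →
    4 * (x : ℝ) = (S.cob c).sq c₀ / (4 * Real.pi ^ 2) - 2 * Fintype.card n -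
      3 * ∑ a, (SignType.sign (g a) : ℝ) → ∃ τ, K.Htp (pt c d) τ ∧ K.tp τ x
  tn : ∀ {i j} (c : S.κ i j) d {n : Type} [Fintype n] [DecidableEq n] (e : n → (S.cob c).Fm)
    (g : n → ℝ) Z, Lat (S.cob c).X.P.I (S.cob c).o univ Z e (Matrix.diagonal g) → (∀ a, g a < 0) →
    ∃ τ, K.Htp (pt c d) τ ∧ K.hi1 τ ∧ K.s τ = K.s (pt c d)
  tp : ∀ {i j} (c : S.κ i j) d e, Dr59.Cs (S.cob c).X.P.I 2 univ e → 0 < (S.cob c).sq e →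
    ∃ τ, K.Htp (pt c d) τ ∧ K.hi0 τ
  bu : ∀ {i k} (c c' : S.κ i k) {τ : Tub} {a b e : Z2} {v v' : ℝ → Z2} {x y z : ℝ} (hv : Loc v)
    (hv' : Loc v') (f : Fo τ (S.ob i).toO3 a) (g : Fo τ (S.ob k).toO3 e) (r : Rz (S.cob c) hv f g)
    (r' : Rz (S.cob c') hv' f g) d d' (d₀ : Cls (𝓡 4) (univ : Set (τ.X v'))), T3 τ a b e →
    V2 v a b e x y → V1 v' a e z → z ∈ Icc x y → (∀ t, t ∉ Icc x y → v' t = v t) →
    Pb r'.φ univ d' d₀ → Pb (r.φ ∘ τ.T.chgPD v' v) (τ.T.ag v' v) d d₀ →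
    ∃ (u : K.E) (σ σ' ρ ρ' : K.F (ob i) (ob k)) (L : K.F3 (ob i) (ob k) u) (Q Q' : K.F u K.one),
      K.Htp (pt c d) ρ ∧ K.Htp (pt c' d') ρ' ∧ K.thin u ∧ ¬K.dead u ∧ K.CapI σ ρ L Q ∧
        K.CapI σ' ρ' L Q' ∧ K.Nz Q ∧ K.Nz Q'
  triad : ∀ {i j k} (c₁ : S.κ i j) (c₂ : S.κ j k) (c₃ : S.κ k i) {τ : Tub} {a b e : Z2}
    (f : Fo τ (S.ob i).toO3 a) (g : Fo τ (S.ob j).toO3 b) (h : Fo τ (S.ob k).toO3 e), T3 τ a b e →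
    Hnd (S.cob c₁) f g → Hnd (S.cob c₂) g h → Hnd (S.cob c₃) h f →
    (∃ (A : K.Arr (ob i) (ob j)) (B : K.Arr (ob j) (ob k)) (_ : Sk.Dbl A B), A.Rp (pt c₁) ∧ B.Rp (pt c₂)) ∧
    ∃ (A : K.Arr (ob i) (ob j)) (B : K.Arr (ob j) (ob k)) (C : K.Arr (ob k) (ob i))
      (D1 : Sk.Dbl B C) (D2 : Sk.Dbl C A) (N : K.Cap) (P : Sk.Pen D1 D2 N),
      A.Rp (pt c₁) ∧ B.Rp (pt c₂) ∧ N.Has2 ∧ P.Id2 (E j)
  cp : ∀ {i} (c : S.γ i) d, (S.cap c).Ps d (S.cap c).η → K.F K.one (ob i)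
  ecp : ∀ {i} (c : S.γ i) d h, (E i).Out (cp c d h)
  natc : ∀ {i} (c c' : S.γ i) (φ : W4.Dif (S.cap c).toW4 (S.cap c').toW4) d d',
    Ag atTop (φ.φ ∘ (S.cap c).ko) (S.cap c').ko → Pb φ.φ univ d' d →
    (S.cap c).Seg d (S.cap c).η (pm (S.cap c).X.P.I (S.cap c').X.P.I φ.φ (S.cap c').η) →
    ∃ h h', K.Htp (cp c d h) (cp c' d' h')
  compc : ∀ {j k} (c₁ : S.γ j) (c₂ : S.κ j k) (c : S.γ k)
    (g : Gl (S.cap c₁).toW4 (S.cob c₂).toW4 (S.cap c).toW4 (S.cap c₁).ko (S.cob c₂).ki) d d₁ d₂,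
    Ag atTop (g.fr ∘ (S.cob c₂).ko) (S.cap c).ko → g.Rs d d₁ d₂ → g.Ext0 (S.cap c).η (S.cap c₁).η →
    ∀ h₁ h, K.Cmp (cp c d h) (cp c₁ d₁ h₁) (pt c₂ d₂)
  bnd : ∀ {i} (c : S.γ i) e, Dr59.Cs (S.cap c).X.P.I 2 univ e →
    ∃ (β : K.B) (hβ : ∀ d h, K.base (cp c d h) = β) (D : Finset (K.T β)), ∀ r : ℝ, ∃ R : ℝ,
      ∀ d h c₀, Cur d c₀ → (∀ e' ∈ D, |K.prB (cp c d h) (hβ d h) e'| ≤ r) →
        |ip (S.cap c).X.P.I (S.cap c).o c₀ e| ≤ R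

/-- the cells of the non-vanishing statement -/
def Rl2.NV {S : Scene} {K : Sk} (r : Rl2 S K) {Q : Prd} {R : ℝ} (P : Pent S Q R) : Prop :=
  ∃ (A : K.Arr K.one (r.ob P.i)) (B : K.Arr (r.ob P.i) (r.ob P.j)) (C : K.Arr (r.ob P.j) K.one)
    (D0 : Sk.Dbl A B) (D1 : Sk.Dbl B C) (N : K.Cap) (T : A.I → B.I → C.I → Prop) (Pn : Sk.Pen D0 D1 N T),
    N.Has2 ∧ (∀ i i' : Pn.I0, i = i') ∧ (∃ i τ, K.Htp (Pn.ι i) τ ∧ K.ex1 τ) ∧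
      (∀ k, Sk.Kil2 (r.U P.j) (r.U S.i0) (C.f k) ∧ (r.E P.j).In (C.f k)) ∧
      ∀ k, ∃ D h, Pb P.l (P.W.X.τ ⁻¹' Iio P.β) D P.d ∧ K.Htp (r.cp P.C D h) (A.f k)

/-- ALG-2': a model pentagon computes the value of the model piece -/
def Good2Stmt : Prop := ∀ (S : Sk.{u}) (Z : Flo2.Cs S) (a b c : S.E) (f : S.Arr a b) (g : S.Arr b c)
  (h : S.Arr c a) (D0 : Sk.Dbl f g) (D1 : Sk.Dbl g h) (N : S.Cap) (T : f.I → g.I → h.I → Prop)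
  (P : Sk.Pen D0 D1 N T), Nonempty P.Mdl2 → Z.Good N

/-- ALG-3': exactness at the vertex `b`, up to the idempotent `E` -/
def Tri2Stmt : Prop := ∀ (S : Sk.{u}) (Z : Flo2.Cs S) (a b c : S.E) (f : S.Arr a b) (g : S.Arr b c)
  (h : S.Arr c a) (D1 : Sk.Dbl g h) (D2 : Sk.Dbl h f) (N : S.Cap)
  (P : Sk.Pen D1 D2 N) (E : Z.H b → Z.H b), Z.Good N → (∀ i, Z.dg (P.ι i) = 0) →
  (∀ y, E y = ∑ i, Z.hm (P.ι i) y) → (∀ y, E (E y) = E y) → (∀ x, E (Z.tot f x) = Z.tot f x) →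
  (∀ y, Z.tot g (E y) = Z.tot g y) → (∀ x, Z.tot g (Z.tot f x) = 0) →
  ∀ y, Z.tot g y = 0 → ∃ x, Z.tot f x = E y

/-- ALG-6': counts and a realisation give the theory, on the ranges of the idempotents -/
def Asm2Stmt : Prop := ∀ (S : Scene) (K : Sk.{u}) (r : Rl2 S K), Nonempty (Flo2.Cs K) →
  ∃ θ : Th S, ∀ (Q : Prd) (R : ℝ) (P : Pent S Q R), r.NV P → θ.NV P

/-- ALG-7': a realisation uses countably many cells -/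
def Sub2Stmt : Prop := ∀ (S : Scene) (K : Sk.{u}) (r : Rl2 S K.clo) (Q : Prd) (R : ℝ)
  (P : Pent S Q R), r.NV P → (∀ a b (σ : K.F a b), Countable (K.C σ)) → Cnt →
  ∃ (A : K.Sub) (r' : Rl2 S (K.cut A).clo), r'.NV P

/-- the theory from a skeleton all of whose countable parts have counts -/
theorem th_of2 (h5 : CloStmt.{u}) (h6 : Asm2Stmt.{u}) (h7 : Sub2Stmt.{u}) (hc : Cnt)
    (K : Sk.{u}) (hC : ∀ a b (σ : K.F a b), Countable (K.C σ))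
    (an : ∀ A : K.Sub, Nonempty (Flo2.Cs (K.cut A))) (Q : Prd) (R : ℝ) (hT : Taub Q)
    (geo : ∀ (S : Scene) (P : Pent S Q R), ∃ r : Rl2 S K.clo, r.NV P) : ThStmt := by
  refine ⟨Q, R, hT, fun S P => ?_⟩
  obtain ⟨r, hr⟩ := geo S P
  obtain ⟨A, r', hr'⟩ := h7 S K r Q R P hr hC hc
  obtain ⟨θ, hθ⟩ := h6 S _ r' (h5 _ (an A))
  exact ⟨θ, hθ Q R P hr'⟩

end Crest.Agent.X212.Flo2
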