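import Crest.Agent.X212.Geo28.As4

/-!
# Row 212, GEO engine (helper28): test forms, proper families, existence of points
-/

set_option autoImplicit false
set_option linter.unusedSectionVars false
noncomputable section
open scoped Manifold ContDiff Topology InnerProductSpace
open MeasureTheory Set Function Filter

namespace Crest.Agent.X212.Sw87.Mo
open An Cyf70 Sw Flo2 Geo28 Met55 Pen22
open Bor5.T (O3 Q3 Pb Cur)
open Dr59 (Cs Cl pm mf)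

variable {X : M4} {k : ℕ} {τ : MT κ0 X} {β : MB τ k} {mk : Mk κ0 L0 ν0}

/-! ### test forms -/

theorem NB.Zf.congr {b : NB κ0 X} {f f' : X.Fm} {r} (h : b.Zf f r) (e : ∀ x ∈ b.U 0, f' x = f x) :
    b.Zf f' r := fun x hx a a' => by
  rw [← h x hx, Int54.cf, Int54.cf, Dr59.pm_apply, Dr59.pm_apply, e _ (NB.k_mem zero_le_one hx)]

theorem NB.zf_zero (b : NB κ0 X) : b.Zf 0 0 := fun x _ a a' => by
  simp [Int54.cf, Dr59.pm_apply]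

/-- `f` vanishes on the cores of the ends -/
def MT.Z (τ : MT κ0 X) (f : X.Fm) : Prop := ∀ i, (τ.nb i).s ≠ none → ∀ x ∈ (τ.nb i).U 0, f x = 0

theorem nrm_fin (H : Lf) (s : Finset τ.N) (h : ∀ i ∈ s, (τ.nb i).s = none ∧ (τ.nb i).e.H2) {e : X.Fm}
    (he : Cs X.I 2 univ e) (z : τ.Z e) : ∃ (f : X.Fm) (r : τ.N → ℝ), Cs X.I 2 univ f ∧ τ.Z f ∧
      (∀ i ∈ s, (τ.nb i).Zf f (r i)) ∧ ∀ y, Cl X.I 2 univ y → X.ip y f = X.ip y e := by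
  induction s using Finset.induction_on with
  | empty => exact ⟨e, 0, he, z, by simp, fun _ _ => rfl⟩
  | insert j s hj ih =>
    obtain ⟨f, r, h1, h2, h3, h4⟩ := ih fun i hi => h i (Finset.mem_insert_of_mem hi)
    obtain ⟨a, b⟩ := h j (Finset.mem_insert_self _ _)
    obtain ⟨f', r', -, k2, k3, -, k5⟩ := H.nrm (τ.nb j) f b h1.cl
    have o : ∀ i ≠ j, ∀ x ∈ (τ.nb i).U 0, f' x = f x := fun i ne x hx => k3 x fun m =>
      disjoint_left.1 (τ.dj ne) (NB.U_sub _ zero_le_one hx) (NB.U_sub _ half_le m)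
    refine ⟨f', update r j r', (k5 a h1).1, fun i e x hx => (o i (fun q => e (q ▸ a)) x hx).trans
      (h2 i e x hx), fun i hi => ?_, fun y hy => ((k5 a h1).2 y hy).trans (h4 y hy)⟩
    rcases eq_or_ne i j with rfl | ne
    · rwa [update_self]
    · rw [update_of_ne ne]
      exact (h3 i ((Finset.mem_insert.1 hi).resolve_left ne)).congr (o i ne)

/-- **test forms** -/
theorem tf_of (H : Lf) (β : MB τ k) (h2 : ∀ a, ∀ i ∈ β.wl a, (τ.nb i).e.H2)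
    (sm : ∀ i, Sm (τ.nb i).e.A.Y.I (τ.nb i).e.ζ) (ens : Ens μ0 τ) (C) {e : X.Fm} (he : Cs X.I 2 univ e)
    (z : τ.Z e) : ∃ e' : (β.bs ens C).Tf, ∀ r : ℝ, ∃ R : ℝ, ∀ (c : MC μ0 β) d y n, c.Cl d → Cur d y →
      (∀ i, Gau (τ.nb i).e.A.Y.I (c.ec i).u) → |(c.gc ens C).pr n e'| ≤ r → |X.ip y e| ≤ R := by
  classical
  obtain ⟨f, r, h1, h2, h3, h4⟩ := nrm_fin H (Finset.univ.filter fun i => ∃ a, β.wl a = some i)
    (fun i hi => let ⟨a, k⟩ := (Finset.mem_filter.1 hi).2; ⟨β.fin a i k, h2 a i k⟩) he z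
  obtain ⟨e', -, k⟩ := H.tf.ex β ens C f (fun i => if (τ.nb i).s = none then r i else 0) h1.cl sm (by
    rintro i (k | ⟨a, k⟩)
    · rw [if_neg k]
      exact (NB.zf_zero _).congr (h2 i k)
    · rw [if_pos (β.fin a i k)]
      exact h3 i (Finset.mem_filter.2 ⟨Finset.mem_univ _, a, k⟩))
  obtain ⟨a, a0, ha⟩ := H.tf.pr
  refine ⟨e', fun r => ⟨r / a, fun c d y n cl hy u b => ?_⟩⟩
  rw [ha c ens C e' f d y n k h1 cl hy u, h4 y (Nvg56.cur_cl hy)] at b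
  rw [le_div_iff₀' a0]
  exact (le_abs_self _).trans b

theorem prB_eq {A B : EE mk} (σ : C2 A B) {g : Gc κ0 L0 ν0} (e : σ.g = g) (x : g.Tf) :
    (KC mk).prB σ (congrArg Gc.toBs e) x = g.pr σ.n x := by
  subst e
  rfl

/-- **proper families** -/
theorem prp (H : Lf) {A B : EE mk} {I : Type} {σ : I → C2 A B} {c : I → MC μ0 β} {ens : Ens μ0 τ} {C}
    (e : ∀ i, (σ i).g = (c i).gc ens C) {d : I → X.L} (cl : ∀ i, (c i).Cl (d i))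
    (h2 : ∀ a, ∀ i ∈ β.wl a, (τ.nb i).e.H2) {D : Finset X.Fm} (hD : ∀ f ∈ D, Cs X.I 2 univ f ∧ τ.Z f)
    (fin : ∀ R : ℝ, {i | ∃ y, Cur (d i) y ∧ ∀ f ∈ D, |X.ip y f| ≤ R}.Finite) : (KC mk).Prp σ := by
  classical
  cases isEmpty_or_nonempty I with
  | inl _ => exact ⟨β.bs ens C, isEmptyElim, ∅, fun _ => toFinite _⟩
  | inr n =>
    choose T hT using fun f : D => tf_of H β h2 (fun i => ((c n.some).std i).ok.sζ) ens C (hD f f.2).1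
      (hD f f.2).2
    refine ⟨β.bs ens C, fun i => congrArg Gc.toBs (e i), Finset.univ.image T, fun r => ?_⟩
    choose R hR using fun f => hT f r
    obtain ⟨R₀, h0⟩ := Finite.exists_le R
    refine (fin R₀).subset fun i hi => ?_
    obtain ⟨y, hy⟩ := Nvg56.exists_cur (d i)
    refine ⟨y, hy, fun f hf => (hR ⟨f, hf⟩ (c i) _ y (σ i).n (cl i) hy (fun j => ?_) ?_).trans (h0 _)⟩
    · exact (((e i) ▸ (σ i).wf.all.1 : ∀ j, (((c i).gc ens C).en j).OK mk) j).u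
    · exact prB_eq (σ i) (e i) _ ▸ hi _ (Finset.mem_image_of_mem _ (Finset.mem_univ _))

theorem OnP.z {a b x} {T : Pm a b x} {τ : MT κ0 T.X} {ga gb gx} (o : OnP T τ ga gb gx) {η : T.Fm}
    (h : T.Fo η) : τ.Z η := fun i e p hp => image_eq_zero_of_notMem_tsupport fun m => by
  obtain ⟨m1, m2, m3⟩ := h.sub m
  rw [NB.U] at hp
  rcases τ.port e with e | e | e
  · obtain ⟨h1, h2, -⟩ := EO.mem (o.pin.symm.trans (congrArg _ e))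
    rw [h2, h1] at hp
    exact (jm_in.1 hp).not_ge ((add_zero _).trans_le m1)
  · obtain ⟨h1, h2, -⟩ := EO.mem (o.pout.symm.trans (congrArg _ e))
    rw [h2, h1] at hp
    exact (jm_out.1 hp).not_ge (m2.trans_eq (sub_zero _).symm)
  · obtain ⟨h1, h2, -⟩ := EO.mem (o.p3.symm.trans (congrArg _ e))
    rw [h2, h1] at hp
    exact (jm_out.1 hp).not_ge (m3.trans_eq (sub_zero _).symm)

/-! ### bands of rational homology spheres -/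

theorem q3_inj : ∀ {A B : Q3}, A.toO3 = B.toO3 → A = B
  | ⟨_, _, _, _⟩, ⟨_, _, _, _⟩, rfl => rfl

namespace Ends
variable (𝓔 : Ends mk)

/-- the band carries the end of a rational homology sphere -/
def QE (b : NB κ0 X) (ec : EC ν0 b.e.eg) : Prop := ∃ (A : Q3) (s : _) (n : Nc A.toO3 X (Jk s)),
  b = ⟨(𝓔.q A).g.et, s, n⟩ ∧ (⟨_, ec⟩ : End κ0 L0 ν0) = ⟨_, (𝓔.q A).ec⟩

/-- `T` is the type of the class `d` on the band -/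
def QL (b : NB κ0 X) (T : Ty κ0 L0 ν0) (d : X.L) : Prop := ∃ (A : Q3) (s : _) (n : Nc A.toO3 X (Jk s))
  (c : A.L), b = ⟨(𝓔.q A).g.et, s, n⟩ ∧ T = ⟨⟨_, (𝓔.q A).ec⟩, (𝓔.q A).lab c⟩ ∧ n.Cl d c

variable {𝓔} {b : NB κ0 X} {ec : EC ν0 b.e.eg} {T : Ty κ0 L0 ν0} {d : X.L}

theorem qe_of {s} : ∀ {a : Option Q3} {n}, (𝓔.go a).nb s n = some b → ∃ ec, 𝓔.QE b ec
  | some A, n, h => by cases h; exact ⟨_, A, _, n, rfl, rfl⟩

theorem QE.sp (h : 𝓔.QE b ec) : b.e.Sp ∧ b.e.H2 ∧ Gau b.e.A.Y.I ec.u ∧ ∃ K, ∀ c, EBd K ⟨⟨_, ec⟩, c⟩ := by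
  obtain ⟨A, s, n, rfl, e⟩ := h
  cases e
  exact ⟨(𝓔.q A).sp, (𝓔.q A).h2, (𝓔.q A).ok.u, (𝓔.q A).bd⟩

theorem QE.sm (h : 𝓔.QE b ec) : Sm b.e.A.Y.I b.e.ζ := by
  obtain ⟨A, s, n, rfl, -⟩ := h
  have : (𝓔.q A).g.et.ζ = 0 := ((𝓔.q A).ok.qhs (𝓔.q A).kd).2.2.1
  exact this ▸ contMDiff_const

theorem QE.cl (h : 𝓔.QE b ec) (d : X.L) : ∃ (c : ec.L) (s : b.e.A.L), StdT ⟨⟨_, ec⟩, c⟩ ∧
    ERp b.e (ec.m c) s ∧ b.n.Cl d s ∧ 𝓔.QL b ⟨⟨_, ec⟩, c⟩ d := by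
  obtain ⟨A, s, n, rfl, e⟩ := h
  cases e
  obtain ⟨c, hc⟩ := (jk_cl n d).exists
  exact ⟨_, c, (𝓔.q A).sty _, (𝓔.q A).rp c, hc, A, s, n, c, rfl, rfl, hc⟩

theorem QL.ok (h : 𝓔.QL b T d) : T.1.OK mk ∧ T.1.kd = .qhs := by
  obtain ⟨A, -, -, -, -, rfl, -⟩ := h
  exact ⟨(𝓔.q A).ok, (𝓔.q A).kd⟩

theorem QL.at {A : Q3} {s n} (h : 𝓔.QL ⟨(𝓔.q A).g.et, s, n⟩ T d) :
    ∃ c, T = ⟨⟨_, (𝓔.q A).ec⟩, (𝓔.q A).lab c⟩ ∧ n.Cl d c := by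
  obtain ⟨A', s', n', c, e, h⟩ := h
  obtain rfl : A = A' := q3_inj (congrArg (fun b : NB κ0 X => b.e.A) e)
  cases e
  exact ⟨c, h⟩

theorem port {N : Type} {nb : N → NB κ0 X} {ty : N → Ty κ0 L0 ν0} (h : ∀ i, 𝓔.QL (nb i) (ty i) d)
    {p : Option N} {s} : ∀ {a : Option Q3} {n}, p.map nb = (𝓔.go a).nb s n →
    ∃ l, p.map ty = (𝓔.en a).ty l ∧ ∀ c, n.Cl d c → 𝓔.Lab a c l
  | none, _, e => ⟨(), by rw [Option.map_eq_none_iff.1 e]; rfl, fun _ _ => trivial⟩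
  | some A, n, e => by
    obtain ⟨i, rfl, k⟩ := Option.map_eq_some_iff.1 e
    obtain ⟨c, h1, h2⟩ := (k ▸ h i).at
    exact ⟨_, congrArg some h1, fun c' h' => congrArg _ ((jk_cl n d).unique h2 h')⟩

/-- modules with a given class and constant data -/
theorem exC (H : Lf) {β : MB τ 0} (hβ : ∀ i, (τ.nb i).Rl (β.e 0) 2 (3 / 4))
    {ec : ∀ i, EC ν0 (τ.nb i).e.eg} (h : ∀ i, 𝓔.QE (τ.nb i) (ec i)) (d : X.L) {f : X.Fm}
    (hf : Cs X.I 2 univ f) (z : τ.Z f) : ∃ c : MC μ0 β, c.ec = ec ∧ c.Cl d ∧ c.fo 0 = f ∧ c.mc = 0 ∧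
      ∀ i, 𝓔.QL (τ.nb i) (c.ty i) d := by
  choose cl s h1 h2 h3 h4 using fun i => (h i).cl d
  obtain ⟨M, hM, -⟩ := H.em β ec cl s d hβ h1 h2 h3 (fun i => (h i).sp.2.2.1) none
  obtain ⟨c, k0, k1, k2, -⟩ := H.cst β (M 0) f (hM 0).2.2.on hf fun i a =>
    z i (a.resolve_right fun ⟨a, _⟩ => a.elim0)
  have hM := k0 ▸ hM 0
  exact ⟨c, hM.1, hM.2.2, k1 0, k2, fun i => hM.2.1 i ▸ h4 i⟩

theorem bd_of {ec : ∀ i, EC ν0 (τ.nb i).e.eg} (h : ∀ i, 𝓔.QE (τ.nb i) (ec i)) :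
    ∃ K, ∀ M : MM μ0 τ, M.ec = ec → ∀ i, EBd K (M.ty i) := by
  choose K hK using fun i => (h i).sp.2.2.2
  obtain ⟨K₀, h0⟩ := Finite.exists_le K
  exact ⟨K₀, by rintro M rfl i; exact (hK i _).mono (h0 i)⟩

/-- a site on a piece -/
theorem exS (H : Lf) {a b x : Option Q3} (T : Pm (vo a) (vo b) (vo x)) :
    ∃ (τ : MT κ0 T.X) (β : MB τ 0) (ec : ∀ i, EC ν0 (τ.nb i).e.eg), On T τ (𝓔.go a) (𝓔.go b) (𝓔.go x) ∧
      (∀ i, (τ.nb i).s ≠ none) ∧ (∀ i, (τ.nb i).Rl (β.e 0) 2 (3 / 4)) ∧ ∀ i, 𝓔.QE (τ.nb i) (ec i) := by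
  obtain ⟨τ, ι, o, -, sj⟩ := exists_mt T (𝓔.go a) (𝓔.go b) (𝓔.go x) (go_std a) (go_std b) (go_std x)
    (I := Empty) nofun nofun nofun nofun nofun nofun
  have e : ∀ i, (τ.nb i).s ≠ none := fun i k => (sj i k).choose.elim
  choose ec h using fun i => show ∃ ec, 𝓔.QE (τ.nb i) ec by
    rcases τ.port (e i) with k | k | k
    exacts [qe_of (o.pin.symm.trans (congrArg _ k)), qe_of (o.pout.symm.trans (congrArg _ k)),
      qe_of (o.p3.symm.trans (congrArg _ k))]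
  obtain ⟨β, hβ⟩ := H.site τ fun i => (h i).sp.1
  exact ⟨τ, β, ec, o, e, hβ, h⟩

theorem gd_ql {M : MM μ0 τ} (h : ∀ i, 𝓔.QL (τ.nb i) (M.ty i) d) (bd : ∃ K, ∀ i, EBd K (M.ty i))
    (w : Fin k → Option τ.N) : Gd mk M w := ⟨fun i => (h i).ok.1, fun i _ => (h i).ok.2, bd⟩

/-- the point of a model -/
theorem rep_of {a b : Option Q3} {T : Pm (vo a) (vo b) none} {τ : MT κ0 T.X} {β : MB τ 0} {c : MC μ0 β}
    {ens C} {d η} (o : On T τ (𝓔.go a) (𝓔.go b) ()) (ro : Ro mk (c.gc ens C)) (cl : c.Cl d)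
    (fo : c.fo 0 = (1 / 2 : ℝ) • η) (bd : ∃ K, ∀ i, EBd K (c.ty i))
    (h : ∀ i, 𝓔.QL (τ.nb i) (c.ty i) d) : ∃ σ, 𝓔.Rep a b σ T d η ∧ σ.g = c.gc ens C :=
  let ⟨s, h1, h2⟩ := port h o.pin
  let ⟨t, h3, h4⟩ := port h o.pout
  ⟨C3.pt ro rfl s t () h1 h3 (congrArg _ (Option.map_eq_none_iff.1 o.p3)),
    ⟨C3.pt_p0 .., ⟨τ, β, c, ens, C, o, cl, fo, bd, rfl⟩, h2, h4⟩, rfl⟩

/-- **points over one base** -/
theorem exF (H : Lf) {a b : Option Q3} (T : Pm (vo a) (vo b) none) {I : Type} (d : I → T.L)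
    (η : I → T.Fm) (fo : ∀ i, T.Fo (η i)) (fin : (range η).Finite)
    (ps : a = none → ∀ i, T.X.Ps (d i) (η i)) :
    ∃ (τ : MT κ0 T.X) (β : MB τ 0) (ec : ∀ i, EC ν0 (τ.nb i).e.eg) (C : ℕ → ℝ) (c : I → MC μ0 β)
      (σ : I → C2 (𝓔.en a) (𝓔.en b)), On T τ (𝓔.go a) (𝓔.go b) () ∧ (∀ j, (τ.nb j).s ≠ none) ∧
      (∀ j, 𝓔.QE (τ.nb j) (ec j)) ∧ ∀ i, 𝓔.Rep a b (σ i) T (d i) (η i) ∧
        (σ i).g = (c i).gc (fun j => {ec j}) C ∧ (c i).ec = ec ∧ (c i).Cl (d i) ∧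
        (c i).fo 0 = (1 / 2 : ℝ) • η i ∧ (c i).mc = 0 ∧ ∀ j, 𝓔.QL (τ.nb j) ((c i).ty j) (d i) := by
  obtain ⟨τ, β, ec, o, e, hβ, q⟩ := exS (𝓔 := 𝓔) H (x := none) T
  choose c h1 h2 h3 h4 h5 using fun i => exC H hβ q (d i) (((fo i).mono (subset_univ _)).smul (1 / 2))
    (o.toOnP.z ((fo i).smul _))
  obtain ⟨K, hK⟩ := bd_of q
  obtain ⟨C, hC⟩ := H.bd β I c ((fun f => (1 / 2 : ℝ) • f) '' range η) (fin.image _)
    (by rintro _ ⟨_, ⟨i, rfl⟩, rfl⟩; exact (h3 i).subst (motive := Cs _ 2 univ) ((c i).cs 0))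
    (fun i t _ => t0 t ▸ subset_convexHull _ _ ⟨_, ⟨i, rfl⟩, (h3 i).symm⟩)
    ⟨K, fun i => hK _ (h1 i)⟩ (.inl h4)
  have g := fun i => gd_ql (h5 i) ⟨K, hK _ (h1 i)⟩ β.wl
  choose σ k1 k2 using fun i => rep_of o ((g i).ro H zero_le_two nofun (fun _ => rfl)
    (ens := fun j => {ec j}) (fun j => ⟨congrFun (h1 i) j, finite_singleton _⟩) (hC i) fun e =>
      (g i).nored H (hl0 _) (h2 i) (fun f hf => by
        rw [convexHull_singleton] at hf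
        rw [hf, h3, two_half]
        exact ps (go_none ((congrArg _ e).symm.trans o.pin)) i) _ _) (h2 i) (h3 i) (g i).bd (h5 i)
  exact ⟨τ, β, ec, C, c, σ, o, e, q, fun i => ⟨k1 i, k2 i, h1 i, h2 i, h3 i, h4 i, h5 i⟩⟩

theorem ex (H : Lf) (a b : Option Q3) (T : Pm (vo a) (vo b) none) (I : Type) (d : I → T.L)
    (η : I → T.Fm) (fo : ∀ i, T.Fo (η i)) (fin : (range η).Finite)
    (ps : a = none → ∀ i, T.X.Ps (d i) (η i)) :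
    ∃ σ : I → C2 (𝓔.en a) (𝓔.en b), (∀ i, 𝓔.Rep a b (σ i) T (d i) (η i)) ∧
      ∃ (β : (KC mk).B) (h : ∀ i, (KC mk).base (σ i) = β), ∀ e, T.Fo e → ∃ e' : (KC mk).T β, ∀ r : ℝ,
        ∃ R : ℝ, ∀ i c, Cur (d i) c → |(KC mk).prB (σ i) (h i) e'| ≤ r → |T.X.ip c e| ≤ R := by
  obtain ⟨τ, β, ec, C, c, σ, o, -, q, h⟩ := exF (𝓔 := 𝓔) H T d η fo fin ps
  refine ⟨σ, fun i => (h i).1, β.bs (fun j => {ec j}) C, fun i => congrArg Gc.toBs (h i).2.1,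
    fun e he => ?_⟩
  obtain ⟨e', k⟩ := tf_of H β (fun a => a.elim0) (fun j => (q j).sm) _ C (he.mono (subset_univ _)) (o.toOnP.z he)
  refine ⟨e', fun r => (k r).imp fun R k i y hy b => k (c i) _ y (σ i).n (h i).2.2.2.1 hy
    (fun j => ((h i).2.2.2.2.2.2 j).ok.1.u) (prB_eq (σ i) (h i).2.1 _ ▸ b)⟩

theorem ex3 (H : Lf) (A B x : Q3) (T : Pm (some A.toO3) (some B.toO3) (some x.toO3)) (d : T.L) :
    ∃ σ, 𝓔.Rep3 A B x σ T d := by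
  obtain ⟨τ, β, ec, o, e, hβ, q⟩ := exS (𝓔 := 𝓔) H (a := some A) (b := some B) (x := some x) T
  obtain ⟨c, h1, h2, h3, -, h5⟩ := exC H hβ q d .zero fun _ _ _ _ => rfl
  have g := gd_ql h5 ((bd_of q).imp fun _ k => k _ h1) β.wl
  obtain ⟨C, ro⟩ := g.ro0 H h2 fun e => nomatch (congrArg _ e).symm.trans o.pin
  obtain ⟨s, a1, a2⟩ := port h5 o.pin
  obtain ⟨t, b1, b2⟩ := port h5 o.pout
  obtain ⟨u, c1, c2⟩ := port h5 o.p3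
  exact ⟨C3.pt ro rfl s t u a1 b1 c1, C3.pt_p0 ..,
    ⟨0, τ, β, c, _, C, o, h2, h3.trans (smul_zero _).symm, g.bd, rfl⟩, a2, b2, c2⟩

end Ends

end Crest.Agent.X212.Sw87.Mo
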