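import Crest.Agent.X212.Geo28.TrA
import Crest.Agent.X212.Flo2.Real

/-!
# Row 212, GEO engine (helper28): cells from the cells of their faces

Points, intervals `Itv`, neck walls `Wal`, cap walls `Cpw`, and the squares `SqI`, `SqL`, `SqR`,
`SqC`, `SqQ`.
-/

set_option autoImplicit false
set_option linter.unusedSectionVars false
noncomputable section
open Set Function

namespace Crest.Agent.X212.Flo2

variable {κ lam ν : Type} [Fintype κ] [Fintype lam] [Fintype ν] [DecidableEq ν] {mk : Mk κ lam ν}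
  {a b c x : EE mk}

/-- a point -/
def C3.pt {g : Gc κ lam ν} (ro : Ro mk g) (hk : g.k = 0) (s : a.L) (t : b.L) (u : x.L)
    (hs : g.pin.map g.ty = a.ty s) (ht : g.pout.map g.ty = b.ty t) (hu : g.p3.map g.ty = x.ty u) :
    C3 a b x :=
  haveI : IsEmpty (Fin g.k) := hk ▸ Fin.isEmpty'
  ⟨g, .of ro.ok isEmptyElim isEmptyElim, Tr.of_wf ro isEmptyElim isEmptyElim, s, t, u, 0, hs, ht, hu⟩

theorem C3.pt_p0 {g : Gc κ lam ν} (ro : Ro mk g) (hk : g.k = 0) (s : a.L) (t : b.L) (u : x.L) (hs ht hu) :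
    (C3.pt ro hk s t u hs ht hu).P0 :=
  haveI : IsEmpty (Fin g.k) := hk ▸ Fin.isEmpty'
  ⟨hk, rfl, Tr.of_irr (mk := mk) (h := isEmptyElim) (ok := ro.ok) ro.ir isEmptyElim⟩

theorem gd_of {g : Gc κ lam ν} {D : FD g} {a₀ b₀ x₀ a₁ b₁ x₁ a₂ b₂ x₂ : EE mk} (σ₀ : C3 a₀ b₀ x₀)
    (σ₁ : C3 a₁ b₁ x₁) (σ₂ : C3 a₂ b₂ x₂) (e₀ : D.p0 = σ₀.tr) (e₁ : D.p1 = σ₁.tr) (e₂ : D.p2 = σ₂.tr)
    (h₀ : σ₀.τ.Irr) (h₁ : σ₁.τ.Irr) (h₂ : σ₂.τ.Irr) (en : ∀ i, (D.g2'.en i).OK mk) : D.Gd mk :=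
  ⟨e₀ ▸ σ₀.wf, e₁ ▸ σ₁.wf, e₂ ▸ σ₂.wf, en, e₀ ▸ h₀, e₁ ▸ h₁, e₂ ▸ h₂⟩

variable (mk) in
/-- a family over an interval -/
structure R1 : Type 1 where
  g : Gc κ lam ν
  ro : Ro mk g
  c : Fin g.k
  hc : ∀ c', c' = c

variable (mk) in
/-- a family over a square -/
structure R2 : Type 1 where
  g : Gc κ lam ν
  ro : Ro mk g
  c0 : Fin g.k
  c1 : Fin g.k
  ne : c0 ≠ c1
  hc : ∀ c', c' = c0 ∨ c' = c1

namespace R1
variable (R : R1 mk) {D : FD R.g} (h : D.OK R.c)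

/-- the tree -/
def τ : Tr R.g := .of R.ro.ok (fun _ => D) fun c => (R.hc c).symm ▸ h

theorem wf (k : D.Gd mk) : (R.τ h).WF mk :=
  Tr.of_wf R.ro (fun c c' e => (e ((R.hc c).trans (R.hc c').symm)).elim) fun _ => k

theorem irr (k : D.Gd mk) : (R.τ h).Irr := Tr.of_irr R.ro.ir fun _ => k

theorem sub {g : Gc κ lam ν} (ι φ) (s : Bool) : Pi.sub (g := g) ⟨_, R.τ h, ι, φ⟩ s =
    (D.pcs R.c s).map (Pi.comp ⟨_, R.τ h, ι, φ⟩) := by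
  rw [Pi.sub, dif_pos R.c.pos, Tr.pcs_eq, R.hc ⟨0, _⟩]
  rfl

end R1

namespace R2
variable (R : R2 mk) {D D' : FD R.g} (h : D.OK R.c0) (h' : D'.OK R.c1)

/-- the faces -/
def ch (D D' : FD R.g) (c : Fin R.g.k) : FD R.g := if c = R.c0 then D else D'

theorem D0 : R.ch D D' R.c0 = D := if_pos rfl

theorem D1 : R.ch D D' R.c1 = D' := if_neg R.ne.symm

theorem all {p : Fin R.g.k → FD R.g → Prop} (h : p R.c0 D) (h' : p R.c1 D') (c) : p c (R.ch D D' c) := by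
  rcases R.hc c with rfl | rfl
  exacts [R.D0.symm ▸ h, R.D1.symm ▸ h']

/-- the tree -/
def τ : Tr R.g := .of R.ro.ok (R.ch D D') (R.all (p := fun c D => D.OK c) h h')

theorem irr (k : D.Gd mk) (k' : D'.Gd mk) : (R.τ h h').Irr :=
  Tr.of_irr R.ro.ir (R.all (p := fun _ D => D.Gd mk) k k')

theorem wf (k : D.Gd mk) (k' : D'.Gd mk) (H : ∀ s s', ∃ l, ((D'.pcs R.c1 s').flatMap (·.sub s)).Perm l ∧
    List.Forall₂ Pi.Eq ((D.pcs R.c0 s).flatMap (·.sub s')) l) : (R.τ h h').WF mk :=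
  Tr.of_wf R.ro (Tr.coh_two _ R.hc (by simpa only [Tr.fd_of, D0, D1] using H))
    (R.all (p := fun _ D => D.Gd mk) k k')

theorem i0 {p s} (F : Ft R.g R.c0 p s) (j) : F.ι j = R.c1 := (R.hc _).resolve_left (F.ne j)

theorem i1 {p s} (F : Ft R.g R.c1 p s) (j) : F.ι j = R.c0 := (R.hc _).resolve_right (F.ne j)

theorem lists {σ : C2 a b} {c0 c1 : Fin σ.g.k} (ne : c0 ≠ c1) (hc : ∀ c', c' = c0 ∨ c' = c1) (ha : a.Q) :
    ((KC mk).fc σ).Perm (σ.fcL c0 ++ σ.fcL c1) ∧ ((KC mk).nk σ).Perm (σ.nkL c0 ++ σ.nkL c1) := by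
  have h1 := (finRange_two ne hc).flatMap_right σ.fcL
  have h2 := (finRange_two ne hc).flatMap_right σ.nkL
  rw [List.flatMap_cons, List.flatMap_singleton] at h1 h2
  exact ⟨(σ.fc_eq ha).symm ▸ h1, h2⟩

end R2

theorem R1.lists {σ : C2 a b} {c : Fin σ.g.k} (hc : ∀ c', c' = c) (ha : a.Q) :
    (KC mk).fc σ = σ.fcL c ∧ (KC mk).nk σ = σ.nkL c :=
  ⟨(σ.fc_eq ha).trans (by rw [finRange_one hc]; exact List.flatMap_singleton _ _),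
    σ.nk_eq.trans (by rw [finRange_one hc]; exact List.flatMap_singleton _ _)⟩

theorem Gc.Wl.ne {g g₁ g₂ : Gc κ lam ν} {c i cap ι₁ ι₂ l r} (h : g.Wl g₁ g₂ c i cap ι₁ ι₂ l r) :
    (∀ j, ι₁ j ≠ c) ∧ ∀ j, ι₂ j ≠ c :=
  ⟨fun j e => (nomatch h.bij.1 (a₁ := .inl (.inl j)) (a₂ := .inr ()) e),
    fun j e => nomatch h.bij.1 (a₁ := .inl (.inr j)) (a₂ := .inr ()) e⟩

/-! ### one parameter -/

/-- an interval -/
structure Itv (p q : C2 a b) extends R1 mk where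
  F : FO g c p.tr q.tr
  hp : p.P0
  hq : q.P0

/-- a neck wall -/
structure Wal (p : C2 a b) (f : C2 a x) (h : C2 x b) extends R1 mk where
  F : FN g c p.tr f.tr h.tr
  hp : p.P0
  hf : f.P0
  hh : h.P0

/-- a cap wall -/
structure Cpw (p : C2 a b) (L : C3 a b x) (q : C2 x none) extends R1 mk where
  F : FC mk g c p.tr L.tr q.tr
  hp : p.P0
  hL : L.P0
  hq : q.P0

namespace Itv
variable {p q : C2 a b} (I : Itv p q)

theorem gd : I.F.fd.Gd mk := gd_of p q q rfl rfl rfl I.hp.ir I.hq.ir I.hq.ir q.wf.all.1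

/-- the cell -/
def cell : C2 a b := p.up (I.τ I.F.ok) (I.wf _ I.gd) I.F.F0.fc

theorem irr' : I.cell.τ.Irr := I.irr I.F.ok I.gd

theorem fc (h : a.Q) : (KC mk).fc I.cell = [p, q] ∧ (KC mk).nk I.cell = [] :=
  have e := C3.fo (σ := I.cell) (F := I.F) rfl I.hp.n I.hq.n
  have e' := R1.lists (σ := I.cell) I.hc h
  ⟨e'.1.trans e.1, e'.2.trans e.2.1⟩

theorem bd (h : a.Q) : (KC mk).Bd I.cell [p, q] [] :=
  ⟨.of_eq (I.fc h).1, .of_eq (I.fc h).2, C3.empty _ fun _ => rfl⟩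

theorem htp (I : Itv p q) (h : a.Q) : (KC mk).Htp p q := .step _ _ _ (.refl I.hp.pt) I.hq.pt (I.bd h)

end Itv

namespace Wal
variable {p : C2 a b} {f : C2 a x} {h : C2 x b} (W : Wal p f h)

theorem gd : W.F.fd.Gd mk := gd_of p f h rfl rfl rfl W.hp.ir W.hf.ir W.hh.ir h.wf.all.1

/-- the cell -/
def cell : C2 a b := p.up (W.τ W.F.ok) (W.wf _ W.gd) W.F.F0.fc

theorem irr' : W.cell.τ.Irr := W.irr W.F.ok W.gd

theorem bd (k : a.Q) : (KC mk).Bd W.cell [p] [⟨x, f, h⟩] :=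
  have e := C3.fn (σ := W.cell) (F := W.F) rfl W.hp.n W.hf.n W.hh.n
  have e' := R1.lists (σ := W.cell) W.hc k
  ⟨.of_eq (e'.1.trans e.1), .of_eq (e'.2.trans e.2.1), C3.empty _ fun _ => rfl⟩

theorem cmp (W : Wal p f h) (k : a.Q) : (KC mk).Cmp p f h :=
  ⟨_, _, _, _, .refl W.hp.pt, .refl W.hf.pt, .refl W.hh.pt, W.bd k⟩

end Wal

namespace Cpw
variable {p : C2 a b} {L : C3 a b x} {q : C2 x none} (W : Cpw p L q)

theorem gd : W.F.fd.Gd mk := gd_of p L q rfl rfl rfl W.hp.ir W.hL.ir W.hq.ir W.F.en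

/-- the cell -/
def cell : C2 a b := p.up (W.τ W.F.ok') (W.wf _ W.gd) W.F.F0.fc

theorem irr' : W.cell.τ.Irr := W.irr W.F.ok' W.gd

theorem fc (k : a.Q) : (KC mk).fc W.cell = [p] ∧ (KC mk).nk W.cell = [] :=
  have e := C3.fcp (σ := W.cell) (F := W.F) rfl W.hp.n
  have e' := R1.lists (σ := W.cell) W.hc k
  ⟨e'.1.trans e.1, e'.2.trans e.2⟩

theorem cp (θ : (KC mk).C W.cell) : (KC mk).cp W.cell θ =
    ⟨x, L.lift (W.cell.z θ), q.lift (bif W.F.fx then 0 else W.cell.z θ + W.F.n1)⟩ :=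
  C3.cp_eq (σ := W.cell) (F := W.F) rfl (fun c => .inl (W.hc c)) θ

theorem z_bij (k : EE.P (fun e => e.kd = .tor) x) : Bijective W.cell.z :=
  C3.z_bij (σ := W.cell) (F := W.F) rfl (fun c => .inl (W.hc c)) k

theorem z_one (k : EE.P (fun e => e.kd ≠ .tor) x) : ∃ θ, (∀ θ', θ' = θ) ∧ W.cell.z θ = 0 :=
  C3.z_one (σ := W.cell) (F := W.F) rfl (fun c => .inl (W.hc c)) k

theorem capI (k : a.Q) (k' : EE.P (fun e => e.kd ≠ .tor) x) (hn : W.F.n1 = 0) :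
    (KC mk).CapI W.cell p L q := by
  obtain ⟨θ, h1, h2⟩ := W.z_one k'
  refine ⟨(W.fc k).1, (W.fc k).2, θ, h1, ?_⟩
  rw [W.cp, h2, hn, add_zero, Bool.cond_self, ← W.hL.n, L.lift_n, W.hL.n, ← W.hq.n, q.lift_n]

end Cpw

/-! ### two parameters -/

/-- interval times interval -/
structure SqI {p₀₀ p₀₁ p₁₀ p₁₁ : C2 a b} (e₀ : Itv p₀₀ p₀₁) (e₁ : Itv p₁₀ p₁₁) (d₀ : Itv p₀₀ p₁₀)
    (d₁ : Itv p₀₁ p₁₁) extends R2 mk where
  E : FO g c0 e₀.cell.tr e₁.cell.tr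
  F : FO g c1 d₀.cell.tr d₁.cell.tr
  h₀₀ : Same (e₀.F.F0.φ.trans E.F0.φ) (d₀.F.F0.φ.trans F.F0.φ)
  h₀₁ : Same (e₀.F.F1.φ.trans E.F0.φ) (d₁.F.F0.φ.trans F.F1.φ)
  h₁₀ : Same (e₁.F.F0.φ.trans E.F1.φ) (d₀.F.F1.φ.trans F.F0.φ)
  h₁₁ : Same (e₁.F.F1.φ.trans E.F1.φ) (d₁.F.F1.φ.trans F.F1.φ)

/-- interval times neck wall; the left piece moves -/
structure SqL {P P' : C2 a b} {p p' : C2 a x} {h : C2 x b} (B : Wal P p h) (B' : Wal P' p' h)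
    (Γ : Itv P P') (γ : Itv p p') extends R2 mk where
  E : FO g c0 B.cell.tr B'.cell.tr
  F : FN g c1 Γ.cell.tr γ.cell.tr h.tr
  h0 : Same (B.F.F0.φ.trans E.F0.φ) (Γ.F.F0.φ.trans F.F0.φ)
  h1 : Same (B'.F.F0.φ.trans E.F1.φ) (Γ.F.F1.φ.trans F.F0.φ)
  l0 : ∀ v ≥ 3, Same ((B.F.l v).trans E.F0.φ) (γ.F.F0.φ.trans (F.l v))
  l1 : ∀ v ≥ 3, Same ((B'.F.l v).trans E.F1.φ) (γ.F.F1.φ.trans (F.l v))
  r0 : ∀ v ≥ 3, Same ((B.F.r v).trans E.F0.φ) (F.r v)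
  r1 : ∀ v ≥ 3, Same ((B'.F.r v).trans E.F1.φ) (F.r v)

/-- interval times neck wall; the right piece moves -/
structure SqR {P P' : C2 a b} {f : C2 a x} {p p' : C2 x b} (A : Wal P f p) (A' : Wal P' f p')
    (Γ : Itv P P') (γ : Itv p p') extends R2 mk where
  E : FO g c0 A.cell.tr A'.cell.tr
  F : FN g c1 Γ.cell.tr f.tr γ.cell.tr
  h0 : Same (A.F.F0.φ.trans E.F0.φ) (Γ.F.F0.φ.trans F.F0.φ)
  h1 : Same (A'.F.F0.φ.trans E.F1.φ) (Γ.F.F1.φ.trans F.F0.φ)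
  l0 : ∀ v ≥ 3, Same ((A.F.l v).trans E.F0.φ) (F.l v)
  l1 : ∀ v ≥ 3, Same ((A'.F.l v).trans E.F1.φ) (F.l v)
  r0 : ∀ v ≥ 3, Same ((A.F.r v).trans E.F0.φ) (γ.F.F0.φ.trans (F.r v))
  r1 : ∀ v ≥ 3, Same ((A'.F.r v).trans E.F1.φ) (γ.F.F1.φ.trans (F.r v))

/-- interval times cap wall -/
structure SqC {P P' : C2 a b} {L : C3 a b x} {q q' : C2 x none} (ρ : Cpw P L q) (ρ' : Cpw P' L q')
    (Γ : Itv P P') (γ : Itv q q') extends R2 mk where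
  E : FO g c0 ρ.cell.tr ρ'.cell.tr
  F : FC mk g c1 Γ.cell.tr L.tr γ.cell.tr
  h0 : Same (ρ.F.F0.φ.trans E.F0.φ) (Γ.F.F0.φ.trans F.F0.φ)
  h1 : Same (ρ'.F.F0.φ.trans E.F1.φ) (Γ.F.F1.φ.trans F.F0.φ)
  l0 : ∀ v ≥ 3, Same ((ρ.F.l v).trans E.F0.φ) (F.l v)
  l1 : ∀ v ≥ 3, Same ((ρ'.F.l v).trans E.F1.φ) (F.l v)
  r0 : ∀ v ≥ 3, Same ((ρ.F.φ2.trans (ρ.F.r v)).trans E.F0.φ) (γ.F.F0.φ.trans (F.φ2.trans (F.r v)))
  r1 : ∀ v ≥ 3, Same ((ρ'.F.φ2.trans (ρ'.F.r v)).trans E.F1.φ) (γ.F.F1.φ.trans (F.φ2.trans (F.r v)))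

/-- neck wall times neck wall -/
structure SqQ {d : EE mk} {P : C2 a d} {f : C2 a b} {g' : C2 b c} {h : C2 c d} {p : C2 a c} {p' : C2 b d}
    (A : Wal P f p') (B : Wal P p h) (H : Wal p f g') (H' : Wal p' g' h) extends R2 mk where
  E : FN g c0 B.cell.tr f.tr H'.cell.tr
  F : FN g c1 A.cell.tr H.cell.tr h.tr
  h0 : Same (B.F.F0.φ.trans E.F0.φ) (A.F.F0.φ.trans F.F0.φ)
  lB : ∀ w ≥ 3, Same ((B.F.l w).trans E.F0.φ) (H.F.F0.φ.trans (F.l w))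
  rB : ∀ w ≥ 3, Same ((B.F.r w).trans E.F0.φ) (F.r w)
  lA : ∀ v ≥ 3, Same (E.l v) ((A.F.l v).trans F.F0.φ)
  rA : ∀ v ≥ 3, Same (H'.F.F0.φ.trans (E.r v)) ((A.F.r v).trans F.F0.φ)
  ll : ∀ v ≥ 3, ∀ w ≥ 3, Same (E.l v) ((H.F.l v).trans (F.l w))
  lr : ∀ v ≥ 3, ∀ w ≥ 3, Same ((H'.F.l w).trans (E.r v)) ((H.F.r v).trans (F.l w))
  rr : ∀ v ≥ 3, ∀ w ≥ 3, Same ((H'.F.r w).trans (E.r v)) (F.r w)

section cor
variable {g : Gc κ lam ν} {c : Fin g.k} {p0 p1 p2 : TR κ lam ν} (s : Bool)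

theorem one {p q : Pi g} {l l' : List (Pi g)} (e : l = [q]) (e' : l' = [p]) (h : p.Eq q) :
    ∃ m, l.Perm m ∧ List.Forall₂ Pi.Eq l' m := ⟨_, .of_eq e, e' ▸ .cons h .nil⟩

theorem two {p q p' q' : Pi g} {l l' : List (Pi g)} (e : l = [q] ++ [q']) (e' : l' = [p] ++ [p'])
    (h : p.Eq q) (h' : p'.Eq q') : ∃ m, l.Perm m ∧ List.Forall₂ Pi.Eq l' m :=
  ⟨_, .of_eq e, e' ▸ .cons h (.cons h' .nil)⟩

theorem FD.fm (D : FD g) : (D.pcs c false).flatMap (·.sub s) =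
    Pi.sub ⟨_, D.p0.2, D.ι0, fun _ => D.φ0⟩ s := List.flatMap_singleton _ _

theorem FO.fm (F : FO g c p0 p1) : (F.fd.pcs c true).flatMap (·.sub s) =
    Pi.sub ⟨_, p1.2, F.F1.ι, fun _ => F.F1.φ⟩ s := by rw [F.pcs, List.flatMap_singleton]

theorem FN.fm (F : FN g c p0 p1 p2) : (F.fd.pcs c true).flatMap (·.sub s) =
    Pi.sub ⟨_, p1.2, F.ι1, fun t => F.l (t c)⟩ s ++
      Pi.sub ⟨_, p2.2, F.ι2, fun t => (OpenPartialHomeomorph.refl _).trans (F.r (t c))⟩ s := by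
  rw [F.pcs, List.flatMap_cons, List.flatMap_singleton]

theorem FC.fm (F : FC mk g c p0 p1 p2) : (F.fd.pcs c true).flatMap (·.sub s) =
    Pi.sub ⟨_, p1.2, F.ι1, fun t => F.l (t c)⟩ s ++
      Pi.sub ⟨_, p2.2, F.ι2 ∘ F.ι3, fun t => F.φ2.trans (F.r (t c))⟩ s := by
  rw [F.pcs, List.flatMap_cons, List.flatMap_singleton]

theorem app {α : Type*} {l₁ l₂ l₃ l₄ l : List α} (e : l = l₁ ++ l₂) (h : l₁ = l₃) (h' : l₂ = l₄) :
    l = l₃ ++ l₄ := h ▸ h' ▸ e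

variable {p q : C2 a b}

theorem C3.P0.sub {L : C3 a b x} (h : L.P0) (ι φ) : Pi.sub (g := g) ⟨_, L.τ, ι, φ⟩ s = [⟨_, L.τ, ι, φ⟩] :=
  Pi.sub_pt _ _ h.k

theorem Itv.sub0 (I : Itv p q) (ι φ) : Pi.sub (g := g) ⟨_, I.cell.τ, ι, φ⟩ false =
    [⟨_, p.τ, ι ∘ I.F.F0.ι, fun t => I.F.F0.φ.trans (φ t)⟩] := I.sub I.F.ok ι φ false

theorem Itv.sub1 (I : Itv p q) (ι φ) : Pi.sub (g := g) ⟨_, I.cell.τ, ι, φ⟩ true =
    [⟨_, q.τ, ι ∘ I.F.F1.ι, fun t => I.F.F1.φ.trans (φ t)⟩] :=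
  (I.sub I.F.ok ι φ true).trans (congrArg _ I.F.pcs)

variable {f : C2 a x} {h : C2 x b} {L : C3 a b x} {y : C2 x none}

theorem Wal.sub0 (I : Wal p f h) (ι φ) : Pi.sub (g := g) ⟨_, I.cell.τ, ι, φ⟩ false =
    [⟨_, p.τ, ι ∘ I.F.F0.ι, fun t => I.F.F0.φ.trans (φ t)⟩] := I.sub I.F.ok ι φ false

theorem Wal.sub1 (I : Wal p f h) (ι φ) : Pi.sub (g := g) ⟨_, I.cell.τ, ι, φ⟩ true =
    [⟨_, f.τ, ι ∘ I.F.ι1, fun t => (I.F.l (t (ι I.c))).trans (φ t)⟩] ++ [⟨_, h.τ, ι ∘ I.F.ι2,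
      fun t => ((OpenPartialHomeomorph.refl _).trans (I.F.r (t (ι I.c)))).trans (φ t)⟩] :=
  (I.sub I.F.ok ι φ true).trans (congrArg _ I.F.pcs)

theorem Cpw.sub0 (I : Cpw p L y) (ι φ) : Pi.sub (g := g) ⟨_, I.cell.τ, ι, φ⟩ false =
    [⟨_, p.τ, ι ∘ I.F.F0.ι, fun t => I.F.F0.φ.trans (φ t)⟩] := I.sub I.F.ok' ι φ false

theorem Cpw.sub1 (I : Cpw p L y) (ι φ) : Pi.sub (g := g) ⟨_, I.cell.τ, ι, φ⟩ true =
    [⟨_, L.τ, ι ∘ I.F.ι1, fun t => (I.F.l (t (ι I.c))).trans (φ t)⟩] ++ [⟨_, y.τ, ι ∘ I.F.ι2 ∘ I.F.ι3,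
      fun t => (I.F.φ2.trans (I.F.r (t (ι I.c)))).trans (φ t)⟩] :=
  (I.sub I.F.ok' ι φ true).trans (congrArg _ I.F.pcs)

end cor

open OpenPartialHomeomorph (refl_trans)

namespace SqI
variable {p₀₀ p₀₁ p₁₀ p₁₁ : C2 a b} {e₀ : Itv p₀₀ p₀₁} {e₁ : Itv p₁₀ p₁₁} {d₀ : Itv p₀₀ p₁₀}
  {d₁ : Itv p₀₁ p₁₁} (S : SqI e₀ e₁ d₀ d₁)

theorem g0 : S.E.fd.Gd mk := gd_of _ _ _ rfl rfl rfl e₀.irr' e₁.irr' e₁.irr' e₁.ro.en

theorem g1 : S.F.fd.Gd mk := gd_of _ _ _ rfl rfl rfl d₀.irr' d₁.irr' d₁.irr' d₁.ro.en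

theorem wf' : (S.τ S.E.ok S.F.ok).WF mk := S.wf _ _ S.g0 S.g1 fun
  | false, false => one ((FD.fm _ _).trans (d₀.sub0 _ _)) ((FD.fm _ _).trans (e₀.sub0 _ _))
      (Pi.eq_of fun _ _ => S.h₀₀)
  | false, true => one ((FO.fm _ _).trans (d₁.sub0 _ _)) ((FD.fm _ _).trans (e₀.sub1 _ _))
      (Pi.eq_of fun _ _ => S.h₀₁)
  | true, false => one ((FD.fm _ _).trans (d₀.sub1 _ _)) ((FO.fm _ _).trans (e₁.sub0 _ _))
      (Pi.eq_of fun _ _ => S.h₁₀)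
  | true, true => one ((FO.fm _ _).trans (d₁.sub1 _ _)) ((FO.fm _ _).trans (e₁.sub1 _ _))
      (Pi.eq_of fun _ _ => S.h₁₁)

/-- the cell -/
def cell : C2 a b := e₀.cell.up (S.τ S.E.ok S.F.ok) S.wf' S.E.F0.fc

theorem bd (k : a.Q) : (KC mk).Bd S.cell [e₀.cell, e₁.cell, d₀.cell, d₁.cell] [] := by
  have h0 := C3.fo (σ := S.cell) (F := S.E) S.D0 rfl rfl
  have h1 := C3.fo (σ := S.cell) (F := S.F) S.D1 rfl rfl
  have := R2.lists (σ := S.cell) S.ne S.hc k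
  rw [h0.1, h1.1, h0.2.1, h1.2.1] at this
  exact ⟨this.1, this.2, C3.empty _ fun c => (S.hc c).elim (· ▸ h0.2.2) (· ▸ h1.2.2)⟩

end SqI

namespace SqL
variable {P P' : C2 a b} {p p' : C2 a x} {h : C2 x b} {B : Wal P p h} {B' : Wal P' p' h}
  {Γ : Itv P P'} {γ : Itv p p'} (S : SqL B B' Γ γ)

theorem g0 : S.E.fd.Gd mk := gd_of _ _ _ rfl rfl rfl B.irr' B'.irr' B'.irr' B'.ro.en

theorem g1 : S.F.fd.Gd mk := gd_of _ _ _ rfl rfl rfl Γ.irr' γ.irr' B.hh.ir h.wf.all.1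

theorem wf' : (S.τ S.E.ok S.F.ok).WF mk := S.wf _ _ S.g0 S.g1 fun
  | false, false => one ((FD.fm _ _).trans (Γ.sub0 _ _)) ((FD.fm _ _).trans (B.sub0 _ _))
      (Pi.eq_of fun _ _ => S.h0)
  | false, true => two (app (FN.fm _ _) (γ.sub0 _ _) (B.hh.sub _ _ _)) ((FD.fm _ _).trans (B.sub1 _ _))
      (Pi.eq_of fun t ht => by
        erw [show S.E.fd.ι0 B.c = S.c1 from S.i0 S.E.F0 _]; exact S.l0 _ (ht _))
      (Pi.eq_of fun t ht => by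
        erw [refl_trans, refl_trans, show S.E.fd.ι0 B.c = S.c1 from S.i0 S.E.F0 _]; exact S.r0 _ (ht _))
  | true, false => one ((FD.fm _ _).trans (Γ.sub1 _ _)) ((FO.fm _ _).trans (B'.sub0 _ _))
      (Pi.eq_of fun _ _ => S.h1)
  | true, true => two (app (FN.fm _ _) (γ.sub1 _ _) (B.hh.sub _ _ _)) ((FO.fm _ _).trans (B'.sub1 _ _))
      (Pi.eq_of fun t ht => by erw [S.i0 S.E.F1 B'.c]; exact S.l1 _ (ht _))
      (Pi.eq_of fun t ht => by erw [refl_trans, refl_trans, S.i0 S.E.F1 B'.c]; exact S.r1 _ (ht _))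

/-- the cell -/
def cell : C2 a b := B.cell.up (S.τ S.E.ok S.F.ok) S.wf' S.E.F0.fc

theorem bd (k : a.Q) : (KC mk).Bd S.cell [B.cell, B'.cell, Γ.cell] [⟨x, γ.cell, h⟩] := by
  have h0 := C3.fo (σ := S.cell) (F := S.E) S.D0 rfl rfl
  have h1 := C3.fn (σ := S.cell) (F := S.F) S.D1 rfl rfl B.hh.n
  have := R2.lists (σ := S.cell) S.ne S.hc k
  rw [h0.1, h1.1, h0.2.1, h1.2.1] at this
  exact ⟨this.1, this.2, C3.empty _ fun c => (S.hc c).elim (· ▸ h0.2.2) (· ▸ h1.2.2)⟩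

end SqL

namespace SqR
variable {P P' : C2 a b} {f : C2 a x} {p p' : C2 x b} {A : Wal P f p} {A' : Wal P' f p'}
  {Γ : Itv P P'} {γ : Itv p p'} (S : SqR A A' Γ γ)

theorem g0 : S.E.fd.Gd mk := gd_of _ _ _ rfl rfl rfl A.irr' A'.irr' A'.irr' A'.ro.en

theorem g1 : S.F.fd.Gd mk := gd_of _ _ _ rfl rfl rfl Γ.irr' A.hf.ir γ.irr' γ.ro.en

theorem wf' : (S.τ S.E.ok S.F.ok).WF mk := S.wf _ _ S.g0 S.g1 fun
  | false, false => one ((FD.fm _ _).trans (Γ.sub0 _ _)) ((FD.fm _ _).trans (A.sub0 _ _))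
      (Pi.eq_of fun _ _ => S.h0)
  | false, true => two (app (FN.fm _ _) (A.hf.sub _ _ _) (γ.sub0 _ _)) ((FD.fm _ _).trans (A.sub1 _ _))
      (Pi.eq_of fun t ht => by
        erw [show S.E.fd.ι0 A.c = S.c1 from S.i0 S.E.F0 _]; exact S.l0 _ (ht _))
      (Pi.eq_of fun t ht => by
        erw [refl_trans, refl_trans, show S.E.fd.ι0 A.c = S.c1 from S.i0 S.E.F0 _]; exact S.r0 _ (ht _))
  | true, false => one ((FD.fm _ _).trans (Γ.sub1 _ _)) ((FO.fm _ _).trans (A'.sub0 _ _))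
      (Pi.eq_of fun _ _ => S.h1)
  | true, true => two (app (FN.fm _ _) (A.hf.sub _ _ _) (γ.sub1 _ _)) ((FO.fm _ _).trans (A'.sub1 _ _))
      (Pi.eq_of fun t ht => by erw [S.i0 S.E.F1 A'.c]; exact S.l1 _ (ht _))
      (Pi.eq_of fun t ht => by erw [refl_trans, refl_trans, S.i0 S.E.F1 A'.c]; exact S.r1 _ (ht _))

/-- the cell -/
def cell : C2 a b := A.cell.up (S.τ S.E.ok S.F.ok) S.wf' S.E.F0.fc

theorem bd (k : a.Q) : (KC mk).Bd S.cell [A.cell, A'.cell, Γ.cell] [⟨x, f, γ.cell⟩] := by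
  have h0 := C3.fo (σ := S.cell) (F := S.E) S.D0 rfl rfl
  have h1 := C3.fn (σ := S.cell) (F := S.F) S.D1 rfl A.hf.n rfl
  have := R2.lists (σ := S.cell) S.ne S.hc k
  rw [h0.1, h1.1, h0.2.1, h1.2.1] at this
  exact ⟨this.1, this.2, C3.empty _ fun c => (S.hc c).elim (· ▸ h0.2.2) (· ▸ h1.2.2)⟩

end SqR

namespace SqC
variable {P P' : C2 a b} {L : C3 a b x} {q q' : C2 x none} {ρ : Cpw P L q} {ρ' : Cpw P' L q'}
  {Γ : Itv P P'} {γ : Itv q q'} (S : SqC ρ ρ' Γ γ)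

theorem g0 : S.E.fd.Gd mk := gd_of _ _ _ rfl rfl rfl ρ.irr' ρ'.irr' ρ'.irr' ρ'.ro.en

theorem g1 : S.F.fd.Gd mk := gd_of _ _ _ rfl rfl rfl Γ.irr' ρ.hL.ir γ.irr' S.F.en

theorem wf' : (S.τ S.E.ok S.F.ok').WF mk := S.wf _ _ S.g0 S.g1 fun
  | false, false => one ((FD.fm _ _).trans (Γ.sub0 _ _)) ((FD.fm _ _).trans (ρ.sub0 _ _))
      (Pi.eq_of fun _ _ => S.h0)
  | false, true => two (app (FC.fm _ _) (ρ.hL.sub _ _ _) (γ.sub0 _ _)) ((FD.fm _ _).trans (ρ.sub1 _ _))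
      (Pi.eq_of fun t ht => by
        erw [show S.E.fd.ι0 ρ.c = S.c1 from S.i0 S.E.F0 _]; exact S.l0 _ (ht _))
      (Pi.eq_of fun t ht => by
        erw [show S.E.fd.ι0 ρ.c = S.c1 from S.i0 S.E.F0 _]; exact S.r0 _ (ht _))
  | true, false => one ((FD.fm _ _).trans (Γ.sub1 _ _)) ((FO.fm _ _).trans (ρ'.sub0 _ _))
      (Pi.eq_of fun _ _ => S.h1)
  | true, true => two (app (FC.fm _ _) (ρ.hL.sub _ _ _) (γ.sub1 _ _)) ((FO.fm _ _).trans (ρ'.sub1 _ _))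
      (Pi.eq_of fun t ht => by erw [S.i0 S.E.F1 ρ'.c]; exact S.l1 _ (ht _))
      (Pi.eq_of fun t ht => by erw [S.i0 S.E.F1 ρ'.c]; exact S.r1 _ (ht _))

/-- the cell -/
def cell : C2 a b := ρ.cell.up (S.τ S.E.ok S.F.ok') S.wf' S.E.F0.fc

theorem h' (c : Fin S.cell.g.k) : c = S.c1 ∨ S.cell.τ.nd.cap c = false :=
  (S.hc c).elim (fun e => .inr (e ▸ (C3.fo (σ := S.cell) (F := S.E) S.D0 rfl rfl).2.2)) .inl

theorem fc (k : a.Q) : ((KC mk).fc S.cell).Perm [Γ.cell, ρ.cell, ρ'.cell] ∧ (KC mk).nk S.cell = [] := by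
  have h0 := C3.fo (σ := S.cell) (F := S.E) S.D0 rfl rfl
  have h1 := C3.fcp (σ := S.cell) (F := S.F) S.D1 rfl
  have := R2.lists (σ := S.cell) S.ne S.hc k
  rw [h0.1, h1.1, h0.2.1, h1.2] at this
  exact ⟨this.1.trans List.perm_append_comm, this.2.eq_nil⟩

theorem cp (θ : (KC mk).C S.cell) : (KC mk).cp S.cell θ =
    ⟨x, L.lift (S.cell.z θ), γ.cell.lift (bif S.F.fx then 0 else S.cell.z θ + S.F.n1)⟩ :=
  C3.cp_eq (σ := S.cell) (F := S.F) S.D1 S.h' θ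

theorem z_bij (k : EE.P (fun e => e.kd = .tor) x) : Bijective S.cell.z :=
  C3.z_bij (σ := S.cell) (F := S.F) S.D1 S.h' k

theorem z_one (k : EE.P (fun e => e.kd ≠ .tor) x) : ∃ θ, (∀ θ', θ' = θ) ∧ S.cell.z θ = 0 :=
  C3.z_one (σ := S.cell) (F := S.F) S.D1 S.h' k

end SqC

namespace SqQ
variable {d : EE mk} {P : C2 a d} {f : C2 a b} {g' : C2 b c} {h : C2 c d} {p : C2 a c} {p' : C2 b d}
  {A : Wal P f p'} {B : Wal P p h} {H : Wal p f g'} {H' : Wal p' g' h} (S : SqQ A B H H')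

theorem g0 : S.E.fd.Gd mk := gd_of _ _ _ rfl rfl rfl B.irr' A.hf.ir H'.irr' H'.ro.en

theorem g1 : S.F.fd.Gd mk := gd_of _ _ _ rfl rfl rfl A.irr' H.irr' B.hh.ir h.wf.all.1

theorem wf' : (S.τ S.E.ok S.F.ok).WF mk := S.wf _ _ S.g0 S.g1 fun
  | false, false => one ((FD.fm _ _).trans (A.sub0 _ _)) ((FD.fm _ _).trans (B.sub0 _ _))
      (Pi.eq_of fun _ _ => S.h0)
  | false, true => two (app (FN.fm _ _) (H.sub0 _ _) (B.hh.sub _ _ _)) ((FD.fm _ _).trans (B.sub1 _ _))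
      (Pi.eq_of fun t ht => by
        erw [show S.E.fd.ι0 B.c = S.c1 from S.i0 S.E.F0 _]; exact S.lB _ (ht _))
      (Pi.eq_of fun t ht => by
        erw [refl_trans, refl_trans, show S.E.fd.ι0 B.c = S.c1 from S.i0 S.E.F0 _]; exact S.rB _ (ht _))
  | true, false => two ((FD.fm _ _).trans (A.sub1 _ _)) (app (FN.fm _ _) (A.hf.sub _ _ _) (H'.sub0 _ _))
      (Pi.eq_of fun t ht => by
        erw [show S.F.fd.ι0 A.c = S.c0 from S.i1 S.F.F0 _]; exact S.lA _ (ht _))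
      (Pi.eq_of fun t ht => by
        erw [refl_trans, refl_trans, show S.F.fd.ι0 A.c = S.c0 from S.i1 S.F.F0 _]; exact S.rA _ (ht _))
  | true, true => ⟨_, .of_eq (app (FN.fm _ _) (H.sub1 _ _) (B.hh.sub _ _ _)),
      app (FN.fm _ S.E) (A.hf.sub _ _ _) (H'.sub1 _ _) ▸
      have e : S.F.ι1 H.c = S.c0 := (S.hc _).resolve_right (S.F.w.ne.1 _)
      have e' : S.E.ι2 H'.c = S.c1 := (S.hc _).resolve_left (S.E.w.ne.2 _)
      .cons (Pi.eq_of fun t ht => by rw [e]; exact S.ll _ (ht _) _ (ht _))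
        (.cons (Pi.eq_of fun t ht => by
          rw [refl_trans, refl_trans, e, e']; exact S.lr _ (ht _) _ (ht _))
        (.cons (Pi.eq_of fun t ht => by
          rw [refl_trans, refl_trans, refl_trans, e']; exact S.rr _ (ht _) _ (ht _)) .nil))⟩

/-- the cell -/
def cell : C2 a d := B.cell.up (S.τ S.E.ok S.F.ok) S.wf' S.E.F0.fc

theorem bd (k : a.Q) : (KC mk).Bd S.cell [A.cell, B.cell] [⟨b, f, H'.cell⟩, ⟨c, H.cell, h⟩] := by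
  have h0 := C3.fn (σ := S.cell) (F := S.E) S.D0 rfl A.hf.n rfl
  have h1 := C3.fn (σ := S.cell) (F := S.F) S.D1 rfl rfl B.hh.n
  have := R2.lists (σ := S.cell) S.ne S.hc k
  rw [h0.1, h1.1, h0.2.1, h1.2.1] at this
  exact ⟨this.1.trans List.perm_append_comm, this.2,
    C3.empty _ fun c => (S.hc c).elim (· ▸ h0.2.2) (· ▸ h1.2.2)⟩

end SqQ

end Crest.Agent.X212.Flo2
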