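import Crest.Agent.X212.Geo28.Eng

/-!
# Row 212, layer GEO (helper28): the topological leaves
-/

set_option autoImplicit false
set_option linter.unusedSectionVars false

open Set Filter Topology Function Module
open scoped ContDiff Manifold
open Crest.Agent.R208 Crest.Agent.R208.F
open Crest.Agent.X212.Dr59 (Cs Cl Ex HZ Lat ip pm df)
open Crest.Agent.X212.Orx52 (Pos pr oR)
open Crest.Agent.X212.Rod53 (E4 Z2 Loc)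
open Crest.Agent.X212.Cyl58 (IsOE)
open Crest.Agent.X212.Lab56 (Cls)

noncomputable section

universe u

namespace Crest.Agent.X212.Geo28

open Bor5.T Flo2

/-- the orientation of `ℝ⁴` -/
def o4 : E4 → Ext E4 :=
  df (𝓡 4) (fun y : E4 => y 0) * df (𝓡 4) (fun y : E4 => y 1) * df (𝓡 4) (fun y : E4 => y 2) *
    df (𝓡 4) fun y : E4 => y 3

namespace Pm
variable {a b x : Option O3}

/-- isomorphisms that match the ends only eventually, up to translations -/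
structure Wk (T T' : Pm a b none) extends M4.Dif T.X T'.X where
  ki : Ec.Ag atBot φ T.ki T'.ki
  ko : Ec.Ag atTop φ T.ko T'.ko
  nb : T.nb = T'.nb
  bx : ∀ j y, φ (T.bx j y) = T'.bx (j.cast nb) y

/-- closed forms with support in the core -/
def Zr (T : Pm a b x) (η : T.Fm) : Prop := Cs T.X.I 2 T.Core η

/-- the boxes are unit balls of positive charts -/
def Bxs (T : Pm a b x) : Prop := ∀ j, ∃ f : E4 → T.M, IsOE (𝓡 4) T.X.I f ∧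
  Pos (𝓡 4) T.X.I f univ o4 T.X.o ∧ (∀ y, f y ∈ T.Core) ∧
    ∀ y, T.bx j y = f (OpenPartialHomeomorph.univUnitBall y)

/-- the cap occurs in a negative definite cobordism -/
def Nz {S : Q3} (Q : Pm (some S.toO3) none none) : Prop := ∀ d₂ : Q.L, ∃ (A B : Q3)
  (L : Pm (some A.toO3) (some B.toO3) (some S.toO3)) (T : Pm (some A.toO3) (some B.toO3) none)
  (g : Cp3 (A := S.toO3) L Q T) (d : T.L), g.Rr d d₂ ∧ HZ T.X.I 1 (univ : Set T.M) ∧ T.X.Bp 0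

end Pm

/-- the ends `e` are the ends of the cobordism -/
def OnC {A B : Q3} (C : Cob A B) (e : En2 (some A.toO3) (some B.toO3) (m4 C.toW4)) : Prop :=
  Ag atBot (Nc.k (A := A.toO3) e.ki) C.ki ∧ Ag atTop (Nc.k (A := B.toO3) e.ko) C.ko

/-- the end `e` is the end of the cap -/
def OnP {B : Q3} (C : Cp B) (e : En2 none (some B.toO3) (m4 C.toW4)) : Prop :=
  Ag atTop (Nc.k (A := B.toO3) e.ko) C.ko ∧ e.pm.Zr C.η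

/-- GEO-AG -/
def AgStmt : Prop := ∀ (a b : Option O3) (T T' : Pm a b none) (φ : T.Wk T'), ∃ ψ : T.Iso T',
  (∀ (d : T.L) (d' : T'.L), Pb φ.φ univ d' d → Pb ψ.φ univ d' d) ∧ ∀ d η η', T.Zr η → T'.Zr η' →
    T.X.Seg d η (pm T.X.I T'.X.I φ.φ η') → T.X.Seg d η (pm T.X.I T'.X.I ψ.φ η')

/-- GEO-CLS: restriction and gluing of classes -/
structure ClsStmt : Prop where
  nk : ∀ (A : O3) (X : M4) (J : Set ℝ) (k : Nc A X J), IsOpen J → J.OrdConnected → J.Nonempty →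
    ∀ d, ∃! s, k.Cl d s
  l : ∀ {A : O3} {X₁ X₂ X : M4} {k₁ : Nc A X₁ (Ioi 0)} {k₂ : Nc A X₂ (Iio 0)} (g : Gl3 k₁ k₂ X) d,
    ∃! d₁, g.Rl d d₁
  r : ∀ {A : O3} {X₁ X₂ X : M4} {k₁ : Nc A X₁ (Ioi 0)} {k₂ : Nc A X₂ (Iio 0)} (g : Gl3 k₁ k₂ X) d,
    ∃! d₂, g.Rr d d₂
  nl : ∀ {A : O3} {X₁ X₂ X : M4} {k₁ : Nc A X₁ (Ioi 0)} {k₂ : Nc A X₂ (Iio 0)} (g : Gl3 k₁ k₂ X) d d₁ s,
    g.Rl d d₁ → (k₁.Cl d₁ s ↔ g.n.Cl d s)
  nr : ∀ {A : O3} {X₁ X₂ X : M4} {k₁ : Nc A X₁ (Ioi 0)} {k₂ : Nc A X₂ (Iio 0)} (g : Gl3 k₁ k₂ X) d d₂ s,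
    g.Rr d d₂ → (k₂.Cl d₂ s ↔ g.n.Cl d s)
  /-- a map that is a local diffeomorphism on the open set `O`, which contains the far part -/
  agi : ∀ (a : Option O3) {X X' : M4} (k : Ec a X (Iio 0)) (k' : Ec a X' (Iio 0)) (f : X.M → X'.M)
    (O : Set X.M) (d : X.L) (d' : X'.L) s, IsOpen O → (∃ T, ∀ p, k.tm p < T → p ∈ O) → Ec.Ag atBot f k k' →
    Pb f O d' d → (k.Cl d s ↔ k'.Cl d' s)
  ago : ∀ (a : Option O3) {X X' : M4} (k : Ec a X (Ioi 0)) (k' : Ec a X' (Ioi 0)) (f : X.M → X'.M)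
    (O : Set X.M) (d : X.L) (d' : X'.L) s, IsOpen O → (∃ T, ∀ p, T < k.tm p → p ∈ O) → Ec.Ag atTop f k k' →
    Pb f O d' d → (k.Cl d s ↔ k'.Cl d' s)
  mv : ∀ {A : O3} {X₁ X₂ X : M4} {k₁ : Nc A X₁ (Ioi 0)} {k₂ : Nc A X₂ (Iio 0)} (g : Gl3 k₁ k₂ X)
    d₁ d₂ s, k₁.Cl d₁ s → k₂.Cl d₂ s → ∃ d, g.Rl d d₁ ∧ g.Rr d d₂
  mvu : ∀ {A : Q3} {X₁ X₂ X : M4} {k₁ : Nc A.toO3 X₁ (Ioi 0)} {k₂ : Nc A.toO3 X₂ (Iio 0)}
    (g : Gl3 k₁ k₂ X) d d' d₁ d₂, g.Rl d d₁ → g.Rr d d₂ → g.Rl d' d₁ → g.Rr d' d₂ → d = d'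
  mvb : ∀ (G : CG) {X₁ X : M4} {k₁ : Nc G.R.toO3 X₁ (Ioi 0)} (g : Gl3 (A := G.R.toO3) k₁ G.B.ki X)
    d d' d₁, g.Rl d d₁ → g.Rl d' d₁ → d = d'
  cur : ∀ (a b : Option Q3) (T : Pm (vo a) (vo b) none) (d : T.L), ∃ c, Cur d c ∧ T.Fo c
  inn : ∀ {A B : Q3} (C : Cob A B) e d s, OnC C e → (C.In d s ↔ e.ki.Cl d s)
  out : ∀ {A B : Q3} (C : Cob A B) e d s, OnC C e → (C.Out d s ↔ e.ko.Cl d s)

/-- GEO-COB: normalised ends -/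
def CobStmt : Prop := (∀ (A B : Q3) (C : Cob A B), ∃ e, OnC C e) ∧ ∀ (B : Q3) (C : Cp B), ∃ e, OnP C e

/-- GEO-GLN: normalised gluings -/
structure GlnStmt : Prop where
  c : ∀ {A B C : Q3} (c₁ : Cob A B) (c₂ : Cob B C) (c : Cob A C)
    (g : Gl c₁.toW4 c₂.toW4 c.toW4 c₁.ko c₂.ki), Ag atBot (g.fl ∘ c₁.ki) c.ki →
    Ag atTop (g.fr ∘ c₂.ko) c.ko → ∃ e₁ e₂ e, ∃ g' : Cm (B := B.toO3) (En2.pm e₁) (En2.pm e₂) (En2.pm e),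
      OnC c₁ e₁ ∧ OnC c₂ e₂ ∧ OnC c e ∧ ∀ d d₁ d₂, g.Rs d d₁ d₂ → g'.Rl d d₁ ∧ g'.Rr d d₂
  p : ∀ {B C : Q3} (c₁ : Cp B) (c₂ : Cob B C) (c : Cp C)
    (g : Gl c₁.toW4 c₂.toW4 c.toW4 c₁.ko c₂.ki), Ag atTop (g.fr ∘ c₂.ko) c.ko → g.Ext0 c.η c₁.η →
    ∃ e₁ e₂ e, ∃ g' : Cm (B := B.toO3) (En2.pm e₁) (En2.pm e₂) (En2.pm e),
      OnP c₁ e₁ ∧ OnC c₂ e₂ ∧ OnP c e ∧ g'.Fm c.η c₁.η 0 ∧
        ∀ d d₁ d₂, g.Rs d d₁ d₂ → g'.Rl d d₁ ∧ g'.Rr d d₂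

/-- GEO-ABS: a piece absorbs a cylinder -/
structure AbsStmt : Prop where
  o : ∀ (a : Option O3) (B : O3) (T : Pm a (some B) none) (C : Pm (some B) (some B) none), C.IsCyl →
    T.nb = 0 ∨ C.nb = 0 → ∃ (T' : Pm a (some B) none) (g : Cm T C T') (φ : M4.Dif T.X T'.X),
      (∀ p ∈ g.l.source, g.l p = φ.φ p) ∧ Ec.Ag atBot φ.φ T.ki T'.ki ∧ Ec.Ag atTop φ.φ T.ko T'.ko ∧
      (T.Bxs → C.Bxs → T'.Bxs) ∧ (∀ p ∈ g.r.source, φ.φ.symm (g.r p) ∉ T.Core) ∧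
      ∀ p ∈ T.Core, φ.φ p ∈ T'.Core
  i : ∀ (A : O3) (b : Option O3) (T : Pm (some A) b none) (C : Pm (some A) (some A) none), C.IsCyl →
    T.nb = 0 ∨ C.nb = 0 → ∃ (T' : Pm (some A) b none) (g : Cm C T T') (φ : M4.Dif T.X T'.X),
      (∀ p ∈ g.r.source, g.r p = φ.φ p) ∧ Ec.Ag atBot φ.φ T.ki T'.ki ∧ Ec.Ag atTop φ.φ T.ko T'.ko ∧
      (T.Bxs → C.Bxs → T'.Bxs)

/-- GEO-DSC: the disc theorem for one box -/
def DscStmt : Prop := ∀ (X : M4) (f f' : E4 → X.M), IsOE (𝓡 4) X.I f → IsOE (𝓡 4) X.I f' →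
  Pos (𝓡 4) X.I f univ o4 X.o → Pos (𝓡 4) X.I f' univ o4 X.o → ∃ (ψ : M4.Dif X X) (K : Set X.M),
    IsCompact K ∧ (∀ p ∉ K, ψ.φ p = p) ∧ (∀ d : X.L, Pb ψ.φ univ d d) ∧
      ∀ y ∈ Metric.closedBall (0 : E4) 1, ψ.φ (f y) = f' y

/-- GEO-CYL: cylinders -/
structure CylStmt : Prop where
  ex : ∀ (A : O3) (n : Fin 2), ∃ C : Pm (some A) (some A) none, C.IsCyl ∧ C.nb = n ∧ C.Bxs
  top : ∀ (A : Q3) (C : Pm (some A.toO3) (some A.toO3) none), C.IsCyl →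
    HZ C.X.I 1 (univ : Set C.M) ∧ C.X.Bp 0 ∧ ∀ d, C.X.Deg d 0
  cl : ∀ (A : O3) (C : Pm (some A) (some A) none), C.IsCyl → (∀ s, ∃! d, C.ki.Cl d s) ∧
    ∀ d s, C.ki.Cl d s ↔ C.ko.Cl d s

/-- GEO-PIN: test forms are moved into the core -/
def PinStmt : Prop := ∀ (a b x : Option O3) (T : Pm a b x) (e : T.Fm), Cs T.X.I 2 univ e →
  ∃ e', T.Fo e' ∧ Ex T.X.I univ (e' - e) ∧ ∀ y, Cl T.X.I 2 univ y → T.X.ip y e' = T.X.ip y e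

/-- GEO-FIN -/
def FinStmt : Prop := ∀ (a b : Option Q3) (T : Pm (vo a) (vo b) none), T.X.Fin univ

/-- GEO-S3 -/
def S3Stmt : Prop := ∀ (A : Q3) (s : Sph A.toO3), Injective s.π → Subsingleton A.L

/-- GEO-PUN: puncture a cap -/
def PunStmt : Prop := ∀ (C S : Q3) (s : Sph S.toO3), Injective s.π →
  ∀ T : Pm (some C.toO3) none none, T.nb = 0 → (∃ e, Cs T.X.I 2 univ e ∧ 0 < T.X.ip e e) →
  ∃ (T₁ : Pm (some C.toO3) (some S.toO3) none) (T₂ : Pm (some S.toO3) none none)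
    (T' : Pm (some C.toO3) none none) (_ : Cm T₁ T₂ T') (_ : T.Wk T'),
    ∃ e, Cs T₁.X.I 2 univ e ∧ 0 < T₁.X.ip e e

/-- GEO-BU: the cut along the sphere round the exceptional curve -/
def BuStmt : Prop := ∀ (S : Q3) (s : Sph S.toO3), Injective s.π → ∀ {A B : Q3} (c c' : Cob A B)
  {τ : Tub} {a b e : Z2} {v v' : ℝ → Z2} {x y z : ℝ} (hv : Loc v) (hv' : Loc v')
  (f : Fo τ A.toO3 a) (g : Fo τ B.toO3 e) (r : Rz c hv f g) (r' : Rz c' hv' f g), T3 τ a b e →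
  V2 v a b e x y → V1 v' a e z → z ∈ Icc x y → (∀ t, t ∉ Icc x y → v' t = v t) →
  ∃ (L : Pm (some A.toO3) (some B.toO3) (some S.toO3)) (Q Q' : Pm (some S.toO3) none none), ∃ w w',
    ∃ (k : Cp3 (A := S.toO3) L Q (En2.pm w)) (k' : Cp3 (A := S.toO3) L Q' (En2.pm w')),
      OnC c w ∧ OnC c' w' ∧ Q.Nz ∧ Q'.Nz ∧ ∀ d d' (d₀ : Cls (𝓡 4) (univ : Set (τ.X v'))),
        Pb r'.φ univ d' d₀ → Pb (r.φ ∘ τ.T.chgPD v' v) (τ.T.ag v' v) d d₀ →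
        ∃ l, k.Rl d l ∧ k'.Rl d' l

/-- all leaves outside the pentagons -/
structure Lvs : Prop where
  ag : AgStmt
  cls : ClsStmt
  cob : CobStmt
  gln : GlnStmt
  abs : AbsStmt
  dsc : DscStmt
  cyl : CylStmt
  pin : PinStmt
  fin : FinStmt
  s3 : S3Stmt
  pun : PunStmt
  bu : BuStmt

end Crest.Agent.X212.Geo28
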