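import Crest.Agent.X212.Geo28.AsR
import Crest.Agent.X212.Sw87.MoL

/-!
# Row 212, GEO engine (helper28): restrictions of models are facets
-/

set_option autoImplicit false
set_option linter.unusedSectionVars false
noncomputable section
open scoped Manifold ContDiff Topology InnerProductSpace
open MeasureTheory Set Function Filter

namespace Crest.Agent.X212.Sw87.Mo
open An Cyf70 Sw Flo2 Geo28 Met55
open Int54 (oc volF)

variable {κ : Type} [Fintype κ] [DecidableEq κ] {μ : Type} [Fintype μ] [DecidableEq μ]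
  {X X' : M4} {k k' : ℕ} {τ : MT κ X} {τ' : MT κ X'} {β : MB τ k} {β' : MB τ k'} {t : Tk k} {t' : Tk k'}

theorem MB.F_eq (h : β'.e t' = β.e t) : β'.F t' = β.F t := by
  unfold MB.F
  congr 1

theorem MB.B_eq (h : β'.e t' = β.e t) : β'.B = β.B := by
  have h1 : (β'.F 0).P = (β.F 0).P := by
    funext a b x
    exact congrFun₂ (((β'.P t' x).symm.trans (h ▸ β.P t x) :) : fP (β'.e 0) x = fP (β.e 0) x) a b
  have h2 := (β'.o t').symm.trans (h ▸ β.o t)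
  unfold MB.B Int54.base
  rw [h1]
  exact congrArg (fun o => Base.mk _ o _ _) h2

/-- `c'` at `t'` is `c` at `t` -/
structure Sa (c' : MC μ β') (c : MC μ β) (t' : Tk k') (t : Tk k) : Prop where
  e : β'.e t' = β.e t
  v : β'.v t' = β.v t
  fo : c'.fo t' = c.fo t
  mc : c'.mc t' = c.mc t
  η : c'.η t' = c.η t

open Classical in
/-- the piece of a background -/
def pz0 (M : MM μ τ) {n : ℕ} (b : Bg X.I X.M κ L0 (μ ⊕ μ) n) (v : τ.N → ℝ) :
    Pz X.X n fun i => (M.ty i).en :=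
  ⟨b, fun i => if h : 3 / 2 < v i ∧ ∃ K : Nk (X := X.X) (M.ty i).en b, K.ng = (τ.nb i).ng (v i) then
    some h.2.choose else none⟩

theorem pz0_iso {M M' : MM μ τ} (h : M' = M) {n : ℕ} {b b' : Bg X.I X.M κ L0 (μ ⊕ μ) n} (hb : b' = b)
    {v v'} (hv : v' = v) (ok : b.OK) : ∃ U u α, BIso (en := Ty.en) (ty := M'.ty) (ty' := M.ty)
      (pz0 M' b' v') (pz0 M b v) (.refl _) Eq (fun _ _ => 1) U u α := by
  subst h hb hv
  exact ⟨_, _, _, .refl ok⟩

theorem Sa.bg {c' : MC μ β'} {c : MC μ β} (h : Sa c' c t' t) (hM : c'.toMM = c.toMM) :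
    (c'.P t').bg = (c.P t).bg := by
  have e1 : c'.ms = c.ms := by unfold MC.ms; rw [hM]
  have e2 : c'.ct t' = c.ct t := by unfold MC.ct; rw [h.e, h.η]
  have e3 : c'.al = c.al := by unfold MC.al; rw [hM]
  simp only [MC.pz, MC.bg, MB.G, MB.bg0, Bg.p2, MB.B_eq h.e, MB.F_eq h.e, h.e, h.v, h.fo, h.mc, e1, e2, e3,
    hM]

theorem fc_sa {c' : MC μ β'} {c : MC μ β} (hM : c'.toMM = c.toMM) {D : Set (Tk k)} {ι : Fin k' → Fin k}
    (hι : Injective ι) (hw : ∀ a, β'.wl a = β.wl (ι a)) (h : ∀ t ∈ D, Sa c' c (t ∘ ι) t)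
    (ok : ∀ t, (c.P t).bg.OK) (ens ens' C C') :
    (c.gc ens C).Fc (c'.gc ens' C') D ι (.refl _) 0 :=
  ⟨hι, rfl, Eq, fun i _ e => e ▸ congrArg (MM.ty · i) hM, fun a => wl_refl (hw a), rel_refl _,
    rel_refl _, rel_refl _, fun t ht =>
      let ⟨U, u, α, k⟩ := pz0_iso hM ((h t ht).bg hM) (h t ht).v (ok t)
      ⟨_, U, u, α, fun i _ => (Gc.gau_zero _ _ i).symm, k⟩⟩

theorem MB.v_wl (β : MB τ k) {a : Fin k} {i : τ.N} (h : β.wl a = some i) (t : Tk k) : β.v t i = t a := by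
  rw [MB.v, MT.sw, if_pos (β.fin a i h), Finset.sum_eq_single a (fun c _ hc => if_neg fun e =>
    hc (β.inj _ _ _ e h)) (by simp), if_pos h]

theorem MB.v_no (β : MB τ k) {i : τ.N} (h : ∀ a, β.wl a ≠ some i) (t : Tk k) :
    β.v t i = if (τ.nb i).s = none then 0 else 2 := by
  rw [MB.v, MT.sw, Finset.sum_eq_zero fun c _ => if_neg (h c)]

theorem MB.v_end (β : MB τ k) {i : τ.N} (h : (τ.nb i).s ≠ none) (t : Tk k) : β.v t i = 2 := if_neg h

theorem MB.act (β : MB τ k) {i : τ.N} (h : 1 < β.v t i) : β.Act i := by_contra fun e => by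
  rw [MB.Act, not_or, not_not, not_exists] at e
  rw [β.v_no e.2, if_pos e.1] at h
  exact h.not_gt one_pos

/-- admissible substitutions -/
structure Sb {N : Type} (w : Fin k → Option N) (π : Fin k → Fin k' ⊕ ℝ) (w' : Fin k' → Option N) : Prop where
  l : ∀ c c', π c = .inl c' → w' c' = w c
  ex : ∀ c', w' c' ≠ none → ∃ c, π c = .inl c'
  r : ∀ c a, π c = .inr a → (w c ≠ none → a = 0) ∧ a ∈ Icc (0 : ℝ) 1

theorem Sb.v {π : Fin k → Fin k' ⊕ ℝ} (h : Sb β.wl π β'.wl) (t : Tk k') : β'.v t = β.v (sb π t) := by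
  funext i
  by_cases e : ∃ c', β'.wl c' = some i
  · obtain ⟨c', e⟩ := e
    obtain ⟨c, e'⟩ := h.ex c' (e ▸ nofun)
    rw [β'.v_wl e, β.v_wl ((h.l c c' e').symm.trans e), sb, e']
    rfl
  · rw [β'.v_no (not_exists.1 e), MB.v, MT.sw, Finset.sum_eq_zero fun c _ => ite_eq_right_iff.2 fun k => ?_]
    rcases e' : π c with c' | a
    · exact (e ⟨c', (h.l c c' e').trans k⟩).elim
    · rw [sb, e']
      exact (h.r c a e').1 (k ▸ nofun)

theorem Sb.dom {N : Type} {w : Fin k → Option N} {π : Fin k → Fin k' ⊕ ℝ} {w' : Fin k' → Option N}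
    (h : Sb w π w') {t : Tk k'} (ht : t ∈ dom w') : sb π t ∈ dom w := fun c => by
  rw [sb]
  rcases e : π c with c' | a
  · exact ⟨(ht c').1, fun k => (ht c').2 ((h.l c c' e).trans k)⟩
  · exact ⟨(h.r c a e).2.1, fun _ => (h.r c a e).2.2⟩

theorem res (H : ResStmt κ μ) (β : MB τ k) {π : Fin k → Fin k' ⊕ ℝ} {w : Fin k' → Option τ.N}
    (h : Sb β.wl π w) : ∃ β' : MB τ k', β'.wl = w ∧ (∀ t, β'.e t = β.e (sb π t)) ∧ ∀ c : MC μ β,
      ∃ c' : MC μ β', c'.toMM = c.toMM ∧ (∀ d, c.Cl d → c'.Cl d) ∧ ∀ t, Sa c' c t (sb π t) := by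
  obtain ⟨β', rfl, h2, h3⟩ := H β π w h.l h.ex h.r
  exact ⟨β', rfl, h2, fun c => let ⟨c', k1, k2, k3⟩ := h3 c
    ⟨c', k1, k2, fun t => ⟨h2 t, h.v t, (k3 t).1, (k3 t).2.1, (k3 t).2.2⟩⟩⟩

theorem pz0_thick {M M' : MM μ τ} (h : M' = M) {n : ℕ} {b b' : Bg X.I X.M κ L0 (μ ⊕ μ) n} (hb : b' = b)
    {v v'} (hv : v' = v) (r : ℝ) : (pz0 M' b' v').thick r = (pz0 M b v).thick r := by
  subst h hb hv
  rfl

theorem bnd_sa {c' : MC μ β'} {c : MC μ β} (hM : c'.toMM = c.toMM) {C} (hC : c.Bnd C)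
    (h : ∀ t' ∈ dom β'.wl, ∃ t ∈ dom β.wl, Sa c' c t' t) : c'.Bnd C := fun t' ht' => by
  obtain ⟨t, ht, k⟩ := h t' ht'
  rw [show (c'.P t').thick 3 = (c.P t).thick 3 from pz0_thick hM (k.bg hM) k.v 3, k.bg hM]
  exact hC t ht

end Crest.Agent.X212.Sw87.Mo
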