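import Crest.Agent.X212.Geo28.As1
import Crest.Agent.X212.Geo28.Bas
import Crest.Agent.X212.Sw87.MoE
import Crest.Agent.X212.Emo56.Iso

/-!
# Row 212, GEO engine (helper28): facets of models, the blend along a diffeomorphism
-/

set_option autoImplicit false
set_option linter.unusedSectionVars false
noncomputable section
open scoped Manifold ContDiff Topology InnerProductSpace
open MeasureTheory Set Function Filter

namespace Crest.Agent.X212.Sw87.Mo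
open An Cyf70 Sw Flo2 Geo28 Met55
open Bor5.T (O3 Q3 Pb Cur)
open Dr59 (Cs pm mf)
open Prm93 (JS JAt)
open Lab56 (CI)
open Line51 (iL rl)

variable {κ : Type} [Fintype κ] [DecidableEq κ] {μ : Type} [Fintype μ] [DecidableEq μ]
  {X X' : M4} {k k' : ℕ} {τ : MT κ X} {τ' : MT κ X'} {β : MB τ k} {β' : MB τ' k'}

theorem NB.Cor.s {b : NB κ X} {b' : NB κ X'} {φ} (h : b.Cor b' φ) : b'.s = b.s := by
  obtain ⟨_, rfl, -⟩ := h
  rfl

theorem NB.Cor.symm {b : NB κ X} {b' : NB κ X'} {φ ψ} (h : b.Cor b' φ) (e : LeftInverse ψ φ) :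
    b'.Cor b ψ := by
  obtain ⟨_, rfl, h⟩ := h
  exact ⟨b.n, rfl, fun y σ hσ => by rw [h y σ hσ, e]⟩

theorem NB.cor_refl (b : NB κ X) : b.Cor b id := ⟨b.n, rfl, fun _ _ _ => rfl⟩

theorem rel_l {N N' : Type} {r : N → N' → Prop} {p : Option N} {q : Option N'} (h : Option.Rel r p q)
    {i} (e : p = some i) : ∃ j, q = some j ∧ r i j := by
  cases h with
  | some k => cases e; exact ⟨_, rfl, k⟩
  | none => cases e

theorem rel_r {N N' : Type} {r : N → N' → Prop} {p : Option N} {q : Option N'} (h : Option.Rel r p q)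
    {j} (e : q = some j) : ∃ i, p = some i ∧ r i j := by
  cases h with
  | some k => cases e; exact ⟨_, rfl, k⟩
  | none => cases e

theorem MT.port (τ : MT κ X) {i} (h : (τ.nb i).s ≠ none) :
    τ.pin = some i ∨ τ.pout = some i ∨ τ.p3 = some i := by
  rcases e : (τ.nb i).s with _ | _ | _
  exacts [(h e).elim, .inl ((τ.inn i).1 e), .inr ((τ.out i).1 e)]

theorem MT.of_port (τ : MT κ X) {i} (h : τ.pin = some i ∨ τ.pout = some i ∨ τ.p3 = some i) :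
    (τ.nb i).s ≠ none := fun e => h.elim (fun h => nomatch e.symm.trans ((τ.inn i).2 h))
      fun h => nomatch e.symm.trans ((τ.out i).2 h)

/-- bands, ports and boxes correspond under `φ` -/
structure EI (τ' : MT κ X') (τ : MT κ X) (φ : X'.M → X.M) (r : τ'.N → τ.N → Prop) : Prop where
  cor : ∀ i' i, r i' i → (τ'.nb i').Cor (τ.nb i) φ
  inj : ∀ i i' j j', r i i' → r j j' → (i = j ↔ i' = j')
  pin : Option.Rel r τ'.pin τ.pin
  pout : Option.Rel r τ'.pout τ.pout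
  p3 : Option.Rel r τ'.p3 τ.p3
  nc : τ.nc = τ'.nc
  bx : ∀ j y, τ.bx (j.cast nc.symm) y = φ (τ'.bx j y)

/-- the walls correspond -/
def EW (β' : MB τ' k') (β : MB τ k) (r : τ'.N → τ.N → Prop) (ι : Fin k' → Fin k) : Prop :=
  ∀ a, (β'.wl a = none ∧ β.wl (ι a) = none) ∨ ∃ i ∈ β'.wl a, ∃ i' ∈ β.wl (ι a), r i i'

/-- the other walls are short -/
def EZ (β : MB τ k) (ι : Fin k' → Fin k) (t : Tk k) : Prop := ∀ a ∉ range ι, β.wl a ≠ none → t a = 0

theorem EI.refl (τ : MT κ X) : EI τ τ id Eq :=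
  ⟨fun _ _ e => e ▸ NB.cor_refl _, fun _ _ _ _ e e' => e ▸ e' ▸ .rfl, rel_refl _, rel_refl _,
    rel_refl _, rfl, fun _ _ => rfl⟩

namespace EI
variable {r : τ'.N → τ.N → Prop} {ι : Fin k' → Fin k} {t : Tk k}

theorem l {φ} (h : EI τ' τ φ r) {i'} (e : (τ'.nb i').s ≠ none) : ∃ i, r i' i :=
  (τ'.port e).elim (fun e => (rel_l h.pin e).imp fun _ => And.right) fun e =>
    e.elim (fun e => (rel_l h.pout e).imp fun _ => And.right) fun e => (rel_l h.p3 e).imp fun _ => And.right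

theorem r' {φ} (h : EI τ' τ φ r) {i} (e : (τ.nb i).s ≠ none) : ∃ i', r i' i :=
  (τ.port e).elim (fun e => (rel_r h.pin e).imp fun _ => And.right) fun e =>
    e.elim (fun e => (rel_r h.pout e).imp fun _ => And.right) fun e => (rel_r h.p3 e).imp fun _ => And.right

theorem v {φ} (h : EI τ' τ φ r) (w : EW β' β r ι) (z : EZ β ι t) {i' i} (q : r i' i) :
    β'.v (t ∘ ι) i' = β.v t i := by
  by_cases e : ∃ a, β'.wl a = some i'
  · obtain ⟨a, e⟩ := e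
    obtain ⟨e', -⟩ | ⟨j, e1, j', e2, q'⟩ := w a
    · cases e.symm.trans e'
    · cases e.symm.trans e1
      cases (h.inj _ _ _ _ q q').1 rfl
      rw [β'.v_wl e, β.v_wl e2]; rfl
  rw [β'.v_no (not_exists.1 e), ← (h.cor _ _ q).s]
  by_cases e' : ∃ a, β.wl a = some i
  · obtain ⟨a, e'⟩ := e'
    rw [β.v_wl e', if_pos (β.fin a i e')]
    refine (z a ?_ (e' ▸ nofun)).symm
    rintro ⟨a, rfl⟩
    obtain ⟨-, e1⟩ | ⟨j, e1, j', e2, q'⟩ := w a
    · cases e'.symm.trans e1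
    · cases e'.symm.trans e2
      exact e ⟨a, (h.inj _ _ _ _ q q').2 rfl ▸ e1⟩
  · rw [β.v_no (not_exists.1 e')]

theorem act {φ} (h : EI τ' τ φ r) (w : EW β' β r ι) (z : EZ β ι t) {i} (a : 1 < β.v t i) :
    ∃ i', r i' i := by
  rcases β.act a with e | ⟨c, e⟩
  · exact h.r' e
  · rw [β.v_wl e] at a
    obtain ⟨c, rfl⟩ : c ∈ range ι := by_contra fun k => by
      rw [z c k (e ▸ nofun)] at a; exact a.not_gt one_pos
    obtain ⟨-, e1⟩ | ⟨j, -, j', e2, q'⟩ := w c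
    · cases e.symm.trans e1
    · cases e.symm.trans e2
      exact ⟨j, q'⟩

theorem mi {φ : M4.Dif X' X} (h : EI τ' τ φ.φ r) (w : EW β' β r ι) (z : EZ β ι t)
    (co : ∀ x, Co (fun a => mf X'.I X.I φ.φ x (β'.e (t ∘ ι) a x)) (atx (β.e t) (φ.φ x))) :
    MI β' β φ r (t ∘ ι) t where
  co := co
  cor _ _ q := ⟨h.cor _ _ q, h.v w z q⟩
  inj := h.inj
  l i' a := by
    rcases β'.act a with e | ⟨c, e⟩
    · exact h.l e
    · obtain ⟨e1, -⟩ | ⟨j, e1, j', -, q'⟩ := w c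
      · cases e.symm.trans e1
      · cases e.symm.trans e1
        exact ⟨j', q'⟩
  r' _ := h.act w z
  nc := h.nc
  bx := h.bx

end EI

theorem MD.zero {c' : MC μ β'} {c : MC μ β} {φ t' t w} (h : τ.nc = τ'.nc) (n : τ'.nc = 0)
    (m' : c'.mc t' = 0) {η} : MD c' c φ t' t w h 0 η :=
  ⟨fun x => by rw [m']; simp, fun j => (j.cast n).elim0⟩

theorem lgE {mk : Mk κ L0 (μ ⊕ μ)} {e : End κ L0 (μ ⊕ μ)} (h : e.OK mk) : LgE e := ⟨h.u, h.lg⟩

/-- **a facet from an isometry**: no masses, no boxes, connected gauge groups at the ports -/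
theorem ft0 (hI : IsoStmt κ μ) {c' : MC μ β'} {c : MC μ β} {φ : M4.Dif X' X} {r ι d' d} {D : Set (Tk k)}
    (h : EI τ' τ φ.φ r) (w : EW β' β r ι) (hι : Injective ι) (ty : ∀ i' i, r i' i → c'.ty i' = c.ty i)
    (hd' : c'.Cl d') (hd : c.Cl d) (hp : Pb φ.φ univ d d') (lg : ∀ i, LgE (c'.ty i).1)
    (u : ∀ i, (τ'.nb i).s ≠ none → (c'.ec i).u = 1) (n : τ'.nc = 0)
    (hD : ∀ t ∈ D, EZ β ι t ∧ (∀ x, Co (fun a => mf X'.I X.I φ.φ x (β'.e (t ∘ ι) a x))
      (atx (β.e t) (φ.φ x))) ∧ pm X'.I X.I φ.φ (c.fo t) = c'.fo (t ∘ ι) ∧ c.mc t = 0 ∧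
        c'.mc (t ∘ ι) = 0) (ens ens' C C') : (c.gc ens C).Fc (c'.gc ens' C') D ι (oph φ) 0 :=
  hI c' c φ r D ι 0 h.nc hι ty w h.pin h.pout h.p3 (fun t ht => by
    obtain ⟨z, co, f, m, m'⟩ := hD t ht
    obtain ⟨γ, v, q, e⟩ := Emo56.exu κ μ c' c φ r _ t d' d (h.mi w z co) ty hd' hd hp lg
    refine ⟨h.mi w z co, f, γ, v, q, m ▸ MD.zero _ n m', fun i hi => ?_⟩
    obtain ⟨n, e⟩ := e i
    rw [e, u i hi]
    simp) ens ens' C C'

theorem mf_refl (x : X.M) (v) : mf X.I X.I (M4.Dif.refl X).φ x v = v :=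
  DFunLike.congr_fun (mfderiv_id (I := X.I) (x := x)) v

theorem pm_refl (f : X.Fm) : pm X.I X.I (M4.Dif.refl X).φ f = f := Dr59.pm_id f

/-- **two modules on one family**: the isomorphism `w` is `u ^ (-n)` at the incoming end -/
theorem slf (hI : IsoStmt κ μ) {c' c : MC μ β} {w} (n : ℤ) {D : Set (Tk k)} (ty : ∀ i, c'.ty i = c.ty i)
    (hw : CI X.I c'.m c.m w univ) (γ : ∀ i, (τ.nb i).e.A.Y.M → ℂ) (hγ : ∀ i, Gau (τ.nb i).e.A.Y.I (γ i))
    (nk : ∀ i, β.Act i → ∀ x ∈ (τ.nb i).V (1 / 4), w ((τ.nb i).k x) = γ i x.1 • c'.m.p ((τ.nb i).k x))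
    (e : ∀ i, (τ.nb i).s ≠ none → γ i = fun y => if τ.pin = some i then (c'.ec i).u y ^ (-n) else 1)
    (nc : τ.nc = 0) (hD : ∀ t ∈ D, c.fo t = c'.fo t ∧ c.mc t = 0 ∧ c'.mc t = 0) (ens ens' C C') :
    (c.gc ens C).Fc (c'.gc ens' C') D id (.refl _) n :=
  hI c' c (.refl X) Eq D id n rfl injective_id (fun i _ e => e ▸ ty i) (fun _ => wl_refl rfl)
    (rel_refl _) (rel_refl _) (rel_refl _) (fun t ht => by
    refine ⟨(EI.refl τ).mi (fun _ => wl_refl rfl) (fun a k => (k ⟨a, rfl⟩).elim) fun x p q => ?_,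
      (pm_refl _).trans (hD t ht).1, γ, w, ⟨hw.of_eq (fun _ _ => ⟨rfl, rfl⟩) fun x _ => ⟨rfl, ?_⟩, hγ,
        fun i a => nk i (β.act a)⟩, (hD t ht).2.1 ▸ MD.zero _ nc (hD t ht).2.2, e⟩
    · simp only [mf_refl]; rfl
    · have o := Emo56.m_on' c t
      rw [← (o.pc _ trivial).rot_self (o.p4 _ trivial).pr.symm,
        ← Emo56.rotU_lit (φ := .refl X) (β := β) (t := t) fun a => mf_refl x _]
      rfl) ens ens' C C'

/-! ### the blend -/

theorem mf_pbv (φ : M4.Dif X X') (e : VF X'.I X'.M) (x : X'.M) :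
    mf X'.I X.I φ.symm.φ x (e x) = pbv X.I X'.I φ.φ e (φ.symm.φ x) := by
  refine (Lab56.pbv_unique (Emo56.ld φ _) ?_).symm
  have h := mfderiv_comp x ((Emo56.ld φ (φ.symm.φ x)).mdifferentiableAt (by simp))
    ((Emo56.ld φ.symm x).mdifferentiableAt (by simp))
  rw [show φ.φ ∘ φ.symm.φ = id from funext φ.φ.apply_symm_apply, mfderiv_id] at h
  exact (DFunLike.congr_fun h _).symm.trans (congrArg e (φ.φ.apply_symm_apply x).symm)

theorem MB.bg0_eq {β β' : MB τ k} (h : β'.e 0 = β.e 0) (m : Lab56.C8 X.M (Option κ) μ) :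
    β'.bg0 m = β.bg0 m := by
  rw [MB.bg0, MB.bg0, MB.G, MB.G, MB.B_eq h, MB.F_eq h]

theorem MW.of_eq {c' : MC μ β'} {c d : MC μ β} {φ t' t γ w} (h : MW c' c φ t' t γ w)
    (e : d.toMM = c.toMM) : MW c' d φ t' t γ w := ⟨e ▸ h.ci, h.gau, h.nk⟩

theorem MD.of_eq {c' : MC μ β'} {c d : MC μ β} {φ t' t w n m η} (h : MD c' c φ t' t w n m η)
    (e : d.toMM = c.toMM) : MD c' d φ t' t w n m η := by
  have : (d.P t).bg.A = (c.P t).bg.A := by
    simp only [MC.pz, MC.bg, MC.al]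
    rw [e]
  refine ⟨h.mc, fun j => ?_⟩
  have k := h.η j
  unfold Gm56.alp at k ⊢
  rw [this]
  exact k

/-- the weight of an interval -/
def s1 (t : Tk 1) : ℝ := sT (t 0)

theorem s1_sm : ContDiff ℝ ∞ s1 := Real.smoothTransition.contDiff.comp (contDiff_apply ℝ ℝ 0)

theorem s1_mem (t : Tk 1) : s1 t ∈ Icc (0 : ℝ) 1 :=
  ⟨Real.smoothTransition.nonneg _, Real.smoothTransition.le_one _⟩

theorem sT_clp (x : ℝ) : sT x = sT (max 0 (min 1 x)) := by
  rcases le_total x 0 with h | h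
  · rw [min_eq_right (h.trans zero_le_one), max_eq_left h]
    exact (Real.smoothTransition.zero_of_nonpos h).trans Real.smoothTransition.zero.symm
  rcases le_total x 1 with h' | h'
  · rw [min_eq_right h', max_eq_right h]
  · rw [min_eq_left h', max_eq_right zero_le_one]
    exact (Real.smoothTransition.one_of_one_le h').trans Real.smoothTransition.one.symm

/-- `β₁` is an interval from the point `β` to the pull-back of the point `β'` -/
structure Bl (μ : Type) [Fintype μ] [DecidableEq μ] (β : MB τ 0) (β' : MB τ' 0) (φ : M4.Dif X X')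
    (β₁ : MB τ 1) : Prop where
  wl : ∀ a, β₁.wl a = none
  e0 : ∀ t, t 0 = 0 → β₁.e t = β.e 0
  co : ∀ t, t 0 = 1 → ∀ x, Co (fun a => mf X'.I X.I φ.symm.φ x (β'.e 0 a x)) (atx (β₁.e t) (φ.symm.φ x))
  c : ∀ (c : MC μ β) (f : X.Fm) (m : X.M → En (μ ⊕ μ)) (η : Fin τ.nc → R4 → Eu (μ ⊕ μ)),
    Cs X.I 2 univ f → Sm X.I (cmp (β.e 0) f) → Sm X.I m → (∀ x, iL μ * m x = m x * iL μ) →
    (∀ x, (β₁.bg0 c.m).pm x * m x * (β₁.bg0 c.m).pp x = m x) →
    (∀ i, (τ.nb i).s ≠ none → ∀ x ∈ (τ.nb i).U 0, f x = 0 ∧ m x = 0) →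
    (∀ j, (β₁.bg0 c.m).Tst (τ.bx j) (η j)) → ∃ c₁ : MC μ β₁, c₁.toMM = c.toMM ∧ (∀ d, c.Cl d → c₁.Cl d) ∧
      ∀ t, c₁.fo t = (1 - s1 t) • c.fo 0 + s1 t • f ∧ c₁.mc t = (1 - s1 t) • c.mc 0 + s1 t • m ∧
        c₁.η t = (1 - s1 t) • c.η 0 + s1 t • η

theorem MB.act0 (β : MB τ k) (h : ∀ a, β.wl a = none) {t i} (a : 1 < β.v t i) : (τ.nb i).s ≠ none :=
  (β.act a).resolve_right fun ⟨c, e⟩ => nomatch (h c).symm.trans e

/-- **the frames of an interval** -/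
theorem bl (hR : ResStmt κ μ) (hB : BlStmt κ μ) (hP : PbStmt κ μ) (β : MB τ 0) (β' : MB τ' 0)
    (φ : M4.Dif X X') {r} (h : EI τ' τ φ.symm.φ r) : ∃ β₁, Bl μ β β' φ β₁ := by
  obtain ⟨β₀, w0, e0, h0⟩ := res hR β (π := Fin.elim0) (w := fun _ : Fin 1 => none)
    ⟨fun c => c.elim0, fun _ e => (e rfl).elim, fun c => c.elim0⟩
  have z : ∀ t : Tk 1, sb (Fin.elim0 : Fin 0 → Fin 1 ⊕ ℝ) t = 0 := fun _ => Subsingleton.elim _ _
  have w1 : ∀ a, β₀.wl a = none := congrFun w0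
  obtain ⟨β₁, w, e1, co, h1⟩ := hB β₀ (fun _ a => pbv X.I X'.I φ.φ (β'.e 0 a)) s1 s1_sm s1_mem
    (fun t => by rw [s1, s1, clp, w1]; exact sT_clp _) (fun c e => (e (w1 c)).elim)
    (fun a t x => .of_fixed (((hP.e β' φ).1 a 0 x).right)) (fun _ => (hP.e β' φ).2 0) (fun _ _ => rfl)
    (fun t i a _ x hx => by
      have e := β₀.act0 w1 a
      obtain ⟨i', q⟩ := h.r' e
      have c := h.cor _ _ q
      have : atx (β₀.e t) x = atx (fun a => pbv X.I X'.I φ.φ (β'.e 0 a)) x := funext fun b =>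
        (Lab56.pbv_unique (Emo56.ld φ x) (Emo56.cor_e (c.symm φ.φ.apply_symm_apply)
          (fun x => (Emo56.ld φ x).mdifferentiableAt (by simp)) (β₀.lit t i a) (by
            have v : β'.v 0 i' = β₀.v t i := (β'.v_end (c.s ▸ e) _).trans (β₀.v_end e t).symm
            exact (show τ'.sw β'.wl 0 i' = τ.sw β₀.wl t i from v) ▸ β'.lit 0 i' (a.trans_eq v.symm))
          hx b)).symm
      rw [this]
      exact fun _ _ => rfl)
    fun c _ e => nomatch (w1 c).symm.trans e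
  have k0 : ∀ t : Tk 1, t 0 = 0 → s1 t = 0 := fun t e => by rw [s1, e]; exact Real.smoothTransition.zero
  have k1 : β₁.e 0 = β₀.e 0 := e1 0 (k0 0 rfl)
  refine ⟨β₁, fun a => w ▸ w1 a, fun t e => by rw [e1 t (k0 t e), e0, z], fun t e x p q => ?_,
    fun c f m η a1 a2 a3 a4 a5 a6 a7 => ?_⟩
  · have := co t (φ.symm.φ x) p q
    rw [show s1 t = 1 by rw [s1, e]; exact Real.smoothTransition.one, sub_self, zero_mul, zero_add,
      one_mul] at this
    simp only [mf_pbv]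
    exact this.symm
  · obtain ⟨c₀, m0, d0, s0⟩ := h0 c
    rw [MB.bg0_eq k1, ← show c₀.m = c.m by rw [m0]] at a5 a7
    obtain ⟨c₁, m1, d1, s⟩ := h1 c₀ (fun _ => f) (fun _ => m) (fun _ => η) (fun _ => a1)
      (fun _ _ x => .of_fixed (by rw [e0, z]; exact a2 x)) (fun _ _ x => .of_fixed (a3 x)) (fun _ => a4)
      (fun _ => a5) (fun t i a _ => a6 i (β₀.act0 w1 a)) (fun j => ⟨((a7 j).sm.comp contDiff_snd).contDiffOn,
        _, (a7 j).cpt, fun _ _ _ => image_eq_zero_of_notMem_tsupport⟩) fun _ => a7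
    exact ⟨c₁, m1.trans m0, fun d e => d1 d (d0 d e), fun t => by
      rw [(s t).1, (s t).2.1, (s t).2.2, (s0 t).fo, (s0 t).mc, (s0 t).η, z]; exact ⟨rfl, rfl, rfl⟩⟩

end Crest.Agent.X212.Sw87.Mo
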