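import Crest.Agent.X212.Geo28.As2

/-!
# Row 212, GEO engine (helper28): roots, intervals
-/

set_option autoImplicit false
set_option linter.unusedSectionVars false
noncomputable section
open scoped Manifold ContDiff Topology InnerProductSpace
open MeasureTheory Set Function Filter

namespace Crest.Agent.X212.Sw87.Mo
open An Cyf70 Sw Flo2 Geo28 Met55
open Bor5.T (O3 Q3 Pb Cur)
open Dr59 (Cs pm mf)

section
variable {κ : Type} [Fintype κ] [DecidableEq κ] {μ : Type} [Fintype μ] [DecidableEq μ]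
  {X X' : M4} {τ : MT κ X} {τ' : MT κ X'} {β : MB τ 0} {β' : MB τ' 0} {β₁ : MB τ 1}

theorem pm_symm (φ : M4.Dif X X') (f : X'.Fm) : pm X'.I X.I φ.symm.φ (pm X.I X'.I φ.φ f) = f :=
  (congrArg _ (φ.symm.ps_eq f).symm).trans (φ.symm.pm_ps f)

theorem t0 (t : Tk 0) : t = 0 := Subsingleton.elim _ _

theorem rg0 : range (Fin.elim0 : Fin 0 → Fin 1) = {0}ᶜ := by
  ext a; simp [Subsingleton.elim a 0]

/-- `c₁` is an interval from `c` to the pull-back of `c'` -/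
structure IM (c : MC μ β) (c' : MC μ β') (φ : M4.Dif X X') (c₁ : MC μ β₁) (n : ℤ) : Prop where
  wl : ∀ a, β₁.wl a = none
  M : c₁.toMM = c.toMM
  cl : ∀ d, c.Cl d → c₁.Cl d
  fo : ∀ t, c₁.fo t = (1 - s1 t) • c.fo 0 + s1 t • pm X.I X'.I φ.φ (c'.fo 0)
  mc : c.mc 0 = 0 → c'.mc 0 = 0 → τ.nc = 0 → c₁.mc = 0
  f0 : ∀ ens ens' C C', (c₁.gc ens C).Fc (c.gc ens' C') {t ∈ dom β₁.wl | t 0 = 0} Fin.elim0 (.refl _) 0
  f1 : ∀ ens ens' C C',
    (c₁.gc ens C).Fc (c'.gc ens' C') {t ∈ dom β₁.wl | t 0 = 1} Fin.elim0 (oph φ.symm) n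

/-- **the class stage of an interval** -/
theorem Bl.im {φ : M4.Dif X X'} (B : Bl μ β β' φ β₁) (hz : PzStmt κ μ) (hP : PbStmt κ μ)
    (hI : IsoStmt κ μ) (hT : TrpStmt κ μ) {r} (h : EI τ' τ φ.symm.φ r) (c : MC μ β) (c' : MC μ β')
    (ty : ∀ i' i, r i' i → c'.ty i' = c.ty i) {d d'} (hd : c.Cl d) (hd' : c'.Cl d')
    (hp : Pb φ.φ univ d' d) (lg : ∀ i, LgE (c'.ty i).1)
    (u : ∀ i, (τ'.nb i).s = some true → (c'.ec i).u = 1) :
    ∃ (c₁ : MC μ β₁) (n : ℤ), IM c c' φ c₁ n ∧ ((∀ i ∈ τ'.pin, (c'.ec i).u = 1) → n = 0) := by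
  classical
  have f := hP.f c' φ (β.e 0) (β.fr 0)
  have f0 : ∀ i, (τ.nb i).s ≠ none → ∀ x ∈ (τ.nb i).U 0, pm X.I X'.I φ.φ (c'.fo 0) x = 0 := fun i e x hx => by
    obtain ⟨i', q⟩ := h.r' e
    obtain ⟨y, hy, rfl⟩ := Emo56.cor_mem (h.cor _ _ q) (by norm_num) hx
    rw [Dr59.pm_apply, show φ.φ (φ.symm.φ y) = y from φ.φ.apply_symm_apply y,
      c'.f0 0 i' (by rw [β'.v_end ((h.cor _ _ q).s ▸ e)]; norm_num) y hy, map_zero]
  have A := fun m η => B.c c _ m η (f.1 0) (f.2.sm (mem_univ 0))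
  obtain ⟨c₂, m2, d2, -⟩ := A 0 0 contMDiff_const (by simp) (by simp) (fun i e x hx => ⟨f0 i e x hx, rfl⟩)
    fun j => ⟨contDiff_const, .zero, fun _ => map_zero _⟩
  have mi : MI β' β₁ φ.symm r 0 1 := t0 ((1 : Tk 1) ∘ Fin.elim0) ▸ h.mi (ι := Fin.elim0)
    (fun a => a.elim0) (fun a _ e => (e (B.wl a)).elim) (t0 ((1 : Tk 1) ∘ Fin.elim0) ▸ B.co 1 rfl)
  obtain ⟨γ, w, q, e⟩ := Emo56.exu κ μ c' c₂ φ.symm r 0 1 d' d mi (fun i' i k => m2 ▸ ty i' i k) hd'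
    (d2 d hd) (Rfl19.pb_symm hp) lg
  obtain ⟨m, η, k0, k1, k2, k3, k4, k5, k6⟩ : ∃ m η, MD c' c₂ φ.symm 0 1 w mi.nc m η ∧ Sm X.I m ∧
      (∀ x, Line51.iL μ * m x = m x * Line51.iL μ) ∧
      (∀ x, (β₁.bg0 c₂.m).pm x * m x * (β₁.bg0 c₂.m).pp x = m x) ∧
      (∀ i, 1 < β₁.v 1 i → ∀ x ∈ (τ.nb i).U 0, m x = 0) ∧ (∀ j, (β₁.bg0 c₂.m).Tst (τ.bx j) (η j)) ∧
      (c'.mc 0 = 0 → τ.nc = 0 → m = 0) := by
    by_cases z : c'.mc 0 = 0 ∧ τ.nc = 0
    · exact ⟨0, 0, .zero _ (h.nc.symm.trans z.2) z.1, contMDiff_const, by simp, by simp, fun _ _ _ _ => rfl,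
        fun j => (j.cast z.2).elim0, fun _ _ => rfl⟩
    · obtain ⟨m, η, k0, k1, k2, k3, k4, k5⟩ := hT c' c₂ φ.symm r 0 1 γ w mi q
      exact ⟨m, η, k0, k1, k2, k3, k4, k5, fun a b => (z ⟨a, b⟩).elim⟩
  rw [m2] at k3 k5
  obtain ⟨c₁, m1, d1, s⟩ := A m η k1 k2 k3 (fun i e x hx => ⟨f0 i e x hx, k4 i (by
    rw [β₁.v_end e]; norm_num) x hx⟩) k5
  choose n hn using e
  have z0 : ∀ t : Tk 1, t 0 = 0 → s1 t = 0 := fun t e => by rw [s1, e]; exact Real.smoothTransition.zero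
  have z1 : s1 1 = 1 := Real.smoothTransition.one
  refine ⟨c₁, if ∀ i ∈ τ'.pin, (c'.ec i).u = 1 then 0 else -τ'.pin.elim 0 n,
    ⟨B.wl, m1, d1, fun t => (s t).1, fun a b e => funext fun t => by rw [(s t).2.1, a, k6 b e]; simp,
    fc_sa m1.symm (D := {t ∈ dom β₁.wl | t 0 = 0}) (ι := Fin.elim0) (fun a => a.elim0) (fun a => a.elim0)
      (fun t ht => ?_) fun t => (hz.ok c₁ t).1.bg,
    hI c' c₁ φ.symm r {t ∈ dom β₁.wl | t 0 = 1} Fin.elim0 _ h.nc (fun a => a.elim0)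
      (fun i' i k => m1 ▸ ty i' i k) (fun a => a.elim0) h.pin h.pout h.p3 fun t ht => ?_⟩, fun k => if_pos k⟩
  · rw [t0 (t ∘ _)]
    refine ⟨(B.e0 t ht.2).symm, funext fun i => ?_, ?_, ?_, ?_⟩
    · rw [β.v_no fun a => a.elim0, β₁.v_no fun a => B.wl a ▸ nofun]
    all_goals simp [s t, z0 t ht.2]
  · obtain rfl : t = 1 := funext fun a => Subsingleton.elim a 0 ▸ ht.2
    rw [t0 ((1 : Tk 1) ∘ _)]
    refine ⟨mi, by simp [s, z1, pm_symm], γ, w, q.of_eq (m1.trans m2.symm), ?_, fun i hi => ?_⟩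
    · simpa [s, z1] using k0.of_eq (m1.trans m2.symm)
    · rw [hn]
      split_ifs with a b
      · simp [b i a]
      · simp [a]
      all_goals
        rcases e : (τ'.nb i).s with _ | _ | _
        exacts [(hi e).elim, (a ((τ'.inn i).1 e)).elim, by rw [u i e]; funext; simp]

variable {c : MC μ β} {c' : MC μ β'} {φ : M4.Dif X X'} {c₁ : MC μ β₁} {n : ℤ} (h : IM c c' φ c₁ n)

/-- the faces -/
def IM.F (ens C) {ens₀ ens₁ C₀ C₁} (τ₀ : Tr (c.gc ens₀ C₀)) (τ₁ : Tr (c'.gc ens₁ C₁)) :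
    FO (c₁.gc ens C) 0 ⟨_, τ₀⟩ ⟨_, τ₁⟩ :=
  ⟨h.wl 0, ⟨_, _, _, rg0, h.f0 _ _ _ _⟩, ⟨_, _, _, rg0, h.f1 _ _ _ _⟩⟩

include h in
theorem IM.hull (t : Tk 1) : c₁.fo t ∈ convexHull ℝ {c.fo 0, pm X.I X'.I φ.φ (c'.fo 0)} := by
  rw [convexHull_pair, h.fo]
  exact ⟨_, _, sub_nonneg.2 (s1_mem t).2, (s1_mem t).1, sub_add_cancel _ _, rfl⟩

end

variable {X X' : M4} {k : ℕ} {τ : MT κ0 X} {τ' : MT κ0 X'} {β : MB τ k} {mk : Mk κ0 L0 ν0}

/-- only the given classes are allowed -/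
abbrev MM.en1 (M : MM μ0 τ) : Ens μ0 τ := fun i => {M.ec i}

variable (mk) in
/-- good ends; ends and walls are rational homology spheres -/
structure Gd (M : MM μ0 τ) (w : Fin k → Option τ.N) : Prop where
  en : ∀ i, End.OK mk (M.ty i).1
  q : ∀ i, (τ.nb i).s ≠ none ∨ (∃ a, w a = some i) → (M.ec i).kd = .qhs
  bd : ∃ K, ∀ i, EBd K (M.ty i)

/-- the forms lie in the convex hull of `S` -/
structure Hl (c : MC μ0 β) (S : Set X.Fm) : Prop where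
  fin : S.Finite
  cs : ∀ f ∈ S, Cs X.I 2 univ f
  mem : ∀ t ∈ dom β.wl, c.fo t ∈ convexHull ℝ S

theorem Gd.nored (H : Lf) {c : MC μ0 β} (g : Gd mk c.toMM β.wl) {S d} (h : Hl c S) (hd : c.Cl d)
    (p : ∀ f ∈ convexHull ℝ S, X.Ps d ((2 : ℝ) • f)) (ens C) : (c.gc ens C).NoRed :=
  H.nr c ens C d S hd h.fin h.cs h.mem p fun i a => .inl ((g.en i).qhs (g.q i a)).2.2.2.1

/-- **roots** -/
theorem Gd.ro (H : Lf) {c : MC μ0 β} (g : Gd mk c.toMM β.wl) (k2 : k ≤ 2) (nc : k = 2 → τ.nc = 0)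
    (p3 : τ.p3 ≠ none → k = 0) {ens : Ens μ0 τ} (he : ∀ i, c.ec i ∈ ens i ∧ (ens i).Finite) {C}
    (hC : c.Bnd C) (nr : τ.pin = none → (c.gc ens C).NoRed) : Ro mk (c.gc ens C) :=
  ⟨H.ok c ens C k2 nc hC p3 (fun i e => g.q i (.inl (τ.of_port (.inr (.inl e)))))
    (.inl fun i e => g.q i (.inl (τ.of_port (.inl e)))) (fun a i e k => (k (g.q i (.inr ⟨a, e⟩))).elim)
    (fun i e k => nomatch k.symm.trans (g.q i (.inl (τ.of_port (.inr (.inr e))))))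
    fun i => ⟨(he i).1, fun _ => (he i).2.subset (sep_subset _ _)⟩, g.en, nr⟩

/-- the root of a single cell -/
theorem Gd.ro1 (H : Lf) {c : MC μ0 β} (g : Gd mk c.toMM β.wl) (k2 : k ≤ 1) (p3 : τ.p3 ≠ none → k = 0)
    {S d} (h : Hl c S) (l : Lng β.wl c.mc) (hd : c.Cl d)
    (p : τ.pin = none → ∀ f ∈ convexHull ℝ S, X.Ps d ((2 : ℝ) • f)) : ∃ C, Ro mk (c.gc c.en1 C) :=
  let ⟨C, hC⟩ := H.bd β Unit (fun _ => c) S h.fin h.cs (fun _ => h.mem) (g.bd.imp fun _ k _ => k)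
    (.inr ⟨inferInstance, fun _ => l⟩)
  ⟨C, g.ro H (by omega) (by omega) p3 (ens := c.en1) (fun _ => ⟨rfl, finite_singleton _⟩) (hC ())
    fun e => g.nored H h hd (p e) _ _⟩

theorem hl0 {β : MB τ 0} (c : MC μ0 β) : Hl c {c.fo 0} :=
  ⟨finite_singleton _, fun _ e => e ▸ c.cs 0, fun t _ => t0 t ▸ subset_convexHull _ _ rfl⟩

theorem Gd.ro0 (H : Lf) {β : MB τ 0} {c : MC μ0 β} (g : Gd mk c.toMM β.wl) {d} (hd : c.Cl d)
    (p : τ.pin = none → X.Ps d ((2 : ℝ) • c.fo 0)) : ∃ C, Ro mk (c.gc c.en1 C) :=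
  g.ro1 H zero_le_one (fun _ => rfl) (hl0 c) (fun a => a.elim0) hd fun e f hf => by
    rw [convexHull_singleton] at hf
    exact hf ▸ p e

/-! ### ports -/

/-- the ports -/
def MT.po (τ : MT κ0 X) : Option Bool → Option τ.N
  | some false => τ.pin
  | some true => τ.pout
  | none => τ.p3

theorem MT.po_inj (τ : MT κ0 X) {i} : ∀ {u v}, τ.po u = some i → τ.po v = some i → u = v := by
  have a := fun (h : τ.pin = some i) h' => (nomatch ((τ.inn i).2 h).symm.trans ((τ.out i).2 h') : False)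
  rintro (_ | _ | _) (_ | _ | _) h h'
  exacts [rfl, (a h' (.inr h)).elim, (τ.ne3 i h h').elim, (a h (.inr h')).elim, rfl,
    (a h (.inl h')).elim, (τ.ne3 i h' h).elim, (a h' (.inl h)).elim, rfl]

/-- equal ports -/
def rP (τ' : MT κ0 X') (τ : MT κ0 X) (i' : τ'.N) (i : τ.N) : Prop :=
  ∃ u, τ'.po u = some i' ∧ τ.po u = some i

theorem cor_of {f : X.M → X'.M} {s : Bool} {p : Option τ.N} {p' : Option τ'.N} : ∀ {a} {g : EO κ0 a}
    {e : Ec a X (Jk (some s))} {e' : Ec a X' (Jk (some s))}, Ec.Mt (1 / 2) f e e' →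
    p.map τ.nb = g.nb s e → p'.map τ'.nb = g.nb s e' →
    Option.Rel (fun i' i => p' = some i' ∧ p = some i) p' p ∧
      ∀ i' i, p' = some i' → p = some i → (τ.nb i).Cor (τ'.nb i') f
  | none, _, _, _, _, h, h' => by
    cases Option.map_eq_none_iff.1 h
    cases Option.map_eq_none_iff.1 h'
    exact ⟨.none, nofun⟩
  | some _, _, e, e', m, h, h' => by
    obtain ⟨i, rfl, k⟩ := Option.map_eq_some_iff.1 h
    obtain ⟨i', rfl, k'⟩ := Option.map_eq_some_iff.1 h'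
    refine ⟨.some ⟨rfl, rfl⟩, ?_⟩
    rintro _ _ ⟨⟩ ⟨⟩
    rw [k, k']
    refine ⟨e', rfl, fun y σ hσ => (m y σ (jm_sub _ (by norm_num) hσ) ?_).symm⟩
    cases s
    · have := jm_in.1 hσ
      exact lt_abs.2 (.inr (by linarith))
    · have := jm_out.1 hσ
      exact lt_abs.2 (.inl (by linarith))

theorem rel_mono {N N' : Type} {r r' : N → N' → Prop} {p q} (h : Option.Rel r p q)
    (e : ∀ i j, r i j → r' i j) : Option.Rel r' p q := by
  cases h with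
  | some k => exact .some (e _ _ k)
  | none => exact .none

theorem ei_iso {a b x} {T T' : Pm a b x} {τ : MT κ0 T.X} {τ' : MT κ0 T'.X} {ga gb gx}
    (o : On T τ ga gb gx) (o' : On T' τ' ga gb gx) (φ : T.Iso T') : EI τ' τ φ.symm.φ (rP τ' τ) := by
  have h1 := cor_of φ.ki o.pin o'.pin
  have h2 := cor_of φ.ko o.pout o'.pout
  have h3 := cor_of φ.k3 o.p3 o'.p3
  refine ⟨?_, ?_, rel_mono h1.1 fun _ _ k => ⟨some false, k⟩, rel_mono h2.1 fun _ _ k => ⟨some true, k⟩,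
    rel_mono h3.1 fun _ _ k => ⟨none, k⟩, o.nc.trans (φ.nb.trans o'.nc.symm), fun j y => ?_⟩
  · rintro i' i ⟨_ | _ | _, k, k'⟩
    exacts [(h3.2 _ _ k k').symm φ.φ.symm_apply_apply, (h1.2 _ _ k k').symm φ.φ.symm_apply_apply,
      (h2.2 _ _ k k').symm φ.φ.symm_apply_apply]
  · rintro i i' j j' ⟨u, k, k'⟩ ⟨v, l, l'⟩
    refine ⟨?_, ?_⟩ <;> rintro rfl
    · cases τ'.po_inj k l
      exact Option.some.inj (k'.symm.trans l')
    · cases τ.po_inj k' l'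
      exact Option.some.inj (k.symm.trans l)
  · rw [o.bx, o'.bx]
    exact φ.φ.injective ((φ.bx _ _).trans (φ.φ.apply_symm_apply _).symm)

theorem kd_of {N : Type} {p : Option N} {ty : N → Ty κ0 L0 ν0} {A : EE mk} {s} (e : p.map ty = A.ty s)
    (h : A.Q) {i} (hi : p = some i) : (ty i).1.kd = .qhs := by
  subst hi
  rcases A with _ | A
  · exact nomatch e
  · exact (congrArg (fun T : Ty κ0 L0 ν0 => T.1.kd) (Option.some.inj e)).trans (h A rfl)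

theorem q_none : EE.Q (mk := mk) none := nofun

theorem none_of {N : Type} {ty : N → Ty κ0 L0 ν0} : ∀ {A : EE mk} {s}, none.map ty = A.ty s → A = none
  | none, _, _ => rfl
  | some _, _, e => nomatch e

theorem gd_pt {A B D : EE mk} (qa : A.Q) (qb : B.Q) (qd : D.Q) {β : MB τ 0} {c : MC μ0 β} {ens C}
    {σ : C3 A B D} (e : σ.g = c.gc ens C) (bd : ∃ K, ∀ i, EBd K (c.ty i)) : Gd mk c.toMM β.wl := by
  obtain ⟨g, t, wf, _, _, _, _, h1, h2, h3⟩ := σ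
  subst e
  refine ⟨wf.all.1, ?_, bd⟩
  rintro i (e | ⟨a, -⟩)
  · rcases τ.port e with e | e | e
    exacts [kd_of h1 qa e, kd_of h2 qb e, kd_of h3 qd e]
  · exact a.elim0

/-- **intervals between represented points** -/
theorem itv (H : Lf) {a b : Option O3} {ga gb} {T T' : Pm a b none} {A B : EE mk} (qa : A.Q) (qb : B.Q)
    {σ σ' : C2 A B} (p : σ.P0) (p' : σ'.P0) {d η d' η'} (m : Md T ga gb () σ.g d η)
    (m' : Md T' ga gb () σ'.g d' η') (φ : T.Iso T') (hp : Pb φ.φ univ d' d) (es : σ.s = σ'.s)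
    (et : σ.t = σ'.t) (hs : A = none → T.X.Seg d η (pm T.X.I T'.X.I φ.φ η')) : Nonempty (Itv σ σ') := by
  obtain ⟨τ, β, c, ens, C, o, cl, fo, bd, e⟩ := m
  obtain ⟨τ', β', c', ens', C', o', cl', fo', bd', e'⟩ := m'
  have g := gd_pt qa qb q_none e bd
  have g' := gd_pt qa qb q_none e' bd'
  obtain ⟨_, t, wf, s₁, s₂, _, _, h1, h2, h3⟩ := σ
  obtain ⟨_, t', wf', _, _, _, _, h1', h2', h3'⟩ := σ'
  subst e e' es et
  have h := ei_iso o o' φ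
  obtain ⟨β₁, B⟩ := bl H.res H.bl H.pb β β' φ.toDif h
  obtain ⟨c₁, n, I, -⟩ := B.im H.pz H.pb H.iso H.trp h c c' (by
    rintro i' i ⟨_ | _ | _, k, k'⟩
    · exact Option.some.inj (((congrArg _ k).symm.trans h3').trans (h3.symm.trans (congrArg _ k')))
    · exact Option.some.inj (((congrArg _ k).symm.trans h1').trans (h1.symm.trans (congrArg _ k')))
    · exact Option.some.inj (((congrArg _ k).symm.trans h2').trans (h2.symm.trans (congrArg _ k'))))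
    cl cl' hp (fun i => lgE (g'.en i)) fun i e => ((g'.en i).qhs (g'.q i (.inl (e ▸ nofun)))).2.1
  obtain ⟨C₁, ro⟩ := Gd.ro1 (mk := mk) H (c := c₁) (I.M ▸ ⟨g.en, fun i k => g.q i (.inl (k.resolve_right
      fun ⟨a, e⟩ => nomatch (I.wl a).symm.trans e)), g.bd⟩) le_rfl
    (fun k => (k (Option.map_eq_none_iff.1 h3)).elim) (S := {c.fo 0, pm _ _ φ.φ (c'.fo 0)})
    ⟨toFinite _, by
      rintro _ (rfl | rfl)
      exacts [c.cs 0, (H.pb.f c' φ.toDif _ (β.fr 0)).1 0], fun t _ => I.hull t⟩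
    (fun a e => (e (I.wl a)).elim) (I.cl d cl) fun e f hf => by
      rw [convexHull_pair, segment_eq_image] at hf
      obtain ⟨s, k, rfl⟩ := hf
      convert hs (none_of ((congrArg (Option.map _) e).symm.trans h1)) s k using 1
      rw [fo, fo', Dr59.pm_smul]
      module
  exact ⟨⟨⟨_, ro, 0, fun _ => Subsingleton.elim _ _⟩, I.F _ _ t t', p, p'⟩⟩

end Crest.Agent.X212.Sw87.Mo
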