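import Crest.Agent.X212.Geo28.As3
import Crest.Agent.X212.Sw87.MoT

/-!
# Row 212, GEO engine (helper28): walls, composition and capping
-/

set_option autoImplicit false
set_option linter.unusedSectionVars false
noncomputable section
open scoped Manifold ContDiff Topology InnerProductSpace
open MeasureTheory Set Function Filter

namespace Crest.Agent.X212.Sw87.Mo
open An Cyf70 Sw Flo2 Geo28 Met55 Pen22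
open Bor5.T (O3 Q3 Pb Cur)
open Dr59 (Cs pm mf)
open Mv17 (clsStmt)

/-! ### classes on ends -/

section cls
variable {X X' : M4} {f : X.M → X'.M} {r : ℝ} {O : Set X.M} {d : X.L} {d' : X'.L}

theorem cl_i : ∀ {a : Option O3} {k : Ec a X (Iio 0)} {k' : Ec a X' (Iio 0)}, Ec.Mt r f k k' → IsOpen O →
    (∀ p, k.tm p < 0 → p ∈ O) → Pb f O d' d → ∀ s, k.Cl d s ↔ k'.Cl d' s
  | none, _, _, _, _, _, _, _ => .rfl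
  | some _, _, _, m, o, h, p, s => clsStmt.agi _ _ _ f O d d' s o ⟨0, h⟩ (Rfl19.ag_of_eq
      ((eventually_lt_atBot (-|r|)).mono fun t ht y => m y t (ht.trans_le (neg_nonpos.2 (abs_nonneg r)))
        (lt_abs.2 (.inr (by linarith [le_abs_self r]))))) p

theorem cl_o : ∀ {a : Option O3} {k : Ec a X (Ioi 0)} {k' : Ec a X' (Ioi 0)}, Ec.Mt r f k k' → IsOpen O →
    (∀ p, 0 < k.tm p → p ∈ O) → Pb f O d' d → ∀ s, k.Cl d s ↔ k'.Cl d' s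
  | none, _, _, _, _, _, _, _ => .rfl
  | some _, _, _, m, o, h, p, s => clsStmt.ago _ _ _ f O d d' s o ⟨0, h⟩ (Rfl19.ag_of_eq
      ((eventually_gt_atTop |r|).mono fun t ht y => m y t ((abs_nonneg r).trans_lt ht)
        (lt_abs.2 (.inl (by linarith [le_abs_self r]))))) p

theorem jk_cl {A : O3} {s : Option Bool} (k : Nc A X (Jk s)) (d : X.L) : ∃! c, k.Cl d c :=
  clsStmt.nk A X _ k (jm_one s ▸ jm_open s 1) (jm_one s ▸ Emo56.jm_ord s 1)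
    ((jm_ne s).mono (jm_sub s half_le)) d

theorem ex_cl {s : Bool} : ∀ {a : Option O3} (k : Ec a X (Jk (some s))) (d : X.L), ∃ c, k.Cl d c
  | none, _, _ => ⟨(), trivial⟩
  | some _, k, d => (jk_cl k d).exists

theorem mt_id {J} : ∀ {a : Option O3} (k : Ec a X J), Ec.Mt r id k k
  | none, _ => trivial
  | some _, _ => fun _ _ _ _ => rfl

/-- the identity -/
def isoId {a b x} (T : Pm a b x) : T.Iso T :=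
  ⟨.refl _, mt_id _, mt_id _, mt_id _, rfl, fun _ _ => rfl⟩

end cls

theorem EBd.mono {T : Ty κ0 L0 ν0} {K K'} (h : EBd K T) (k : K ≤ K') : EBd K' T :=
  fun x => ⟨(h x).1.trans k, fun a => ((h x).2 a).trans k⟩

variable {X X₁ X₂ : M4} {τ : MT κ0 X} {τ₁ : MT κ0 X₁} {τ₂ : MT κ0 X₂} {mk : Mk κ0 L0 ν0}

namespace TG
variable {γ : TG τ τ₁ τ₂} {k k₁ k₂ : ℕ} {β : MB τ k} {β₁ : MB τ₁ k₁} {β₂ : MB τ₂ k₂}
  {ι₁ : Fin k₁ → Fin k} {ι₂ : Fin k₂ → Fin k} {c : MC μ0 β} {c₁ : MC μ0 β₁} {c₂ : MC μ0 β₂}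

theorem Is.of {cap e k₁ k₂} {g : Gl3 (A := ET.A e) k₁ k₂ X} {i} (h : γ.Is cap g i)
    {p : (Σ e : ET κ0, Σ k₁ : Nc e.A X₁ (Ioi 0), Σ k₂ : Nc e.A X₂ (Iio 0), Gl3 k₁ k₂ X) → Prop} :
    p ⟨γ.e, γ.k₁, γ.k₂, γ.g⟩ ↔ p ⟨e, k₁, k₂, g⟩ := h.g ▸ .rfl

/-- glued masses are unique -/
theorem GC.mc {k' k₁' k₂'} {β' : MB τ k'} {β₁' : MB τ₁ k₁'} {β₂' : MB τ₂ k₂'} {ι₁' ι₂' t t'}
    {c' : MC μ0 β'} {c₁' : MC μ0 β₁'} {c₂' : MC μ0 β₂'} (h : γ.GC ι₁ ι₂ c c₁ c₂ t)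
    (h' : γ.GC ι₁' ι₂' c' c₁' c₂' t') (e₁ : c₁'.mc (t' ∘ ι₁') = c₁.mc (t ∘ ι₁))
    (e₂ : c₂'.mc (t' ∘ ι₂') = c₂.mc (t ∘ ι₂)) : c'.mc t' = c.mc t := funext fun x => by
  rcases lt_or_ge (γ.g.n.tm x) (3 / 2) with a | a
  · obtain ⟨p, hp, rfl⟩ := (img_l γ.g (by norm_num) (by norm_num)).ge a
    rw [h.l p hp, h'.l p hp, e₁]
  rcases lt_or_ge (4 - 3 / 2) (γ.g.n.tm x) with b | b
  · obtain ⟨p, hp, rfl⟩ := (img_r γ.g (by norm_num) (by norm_num)).ge b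
    rw [h.r p hp, h'.r p hp, e₂]
  have m : x ∈ (τ.nb γ.i).U 0 := by
    rw [NB.U, γ.tm_i, γ.s_i]
    exact jm_none.2 ⟨by linarith, by linarith⟩
  rw [h.n x m, h'.n x m]

theorem GM.all {M : MM μ0 τ} {M₁ : MM μ0 τ₁} {M₂ : MM μ0 τ₂} (h : γ.GM M M₁ M₂)
    {p : Ty κ0 L0 ν0 → Prop} (h₁ : ∀ j, p (M₁.ty j)) (h₂ : ∀ j, p (M₂.ty j)) (i) : p (M.ty i) := by
  obtain rfl | ⟨j, r⟩ | ⟨j, r⟩ := γ.sur i
  exacts [h.t₁ ▸ h₁ _, h.r₁ _ _ r ▸ h₁ j, h.r₂ _ _ r ▸ h₂ j]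

theorem GM.gd {M : MM μ0 τ} {M₁ : MM μ0 τ₁} {M₂ : MM μ0 τ₂} (h : γ.GM M M₁ M₂) {a}
    (b : γ.GB β β₁ β₂ a ι₁ ι₂) (g₁ : Gd mk M₁ β₁.wl) (g₂ : Gd mk M₂ β₂.wl) : Gd mk M β.wl := by
  obtain ⟨K₁, k₁⟩ := g₁.bd
  obtain ⟨K₂, k₂⟩ := g₂.bd
  have q : ∀ {T T' : Ty κ0 L0 ν0}, T = T' → T.1.kd = .qhs → T'.1.kd = .qhs := fun e k => e ▸ k
  have q0 := q h.t₁ (g₁.q _ (.inl (γ.s_1 ▸ nofun)))
  refine ⟨h.all (p := fun T => T.1.OK mk) g₁.en g₂.en, ?_, max K₁ K₂, h.all (p := EBd _)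
    (fun j => (k₁ j).mono (le_max_left _ _)) fun j => (k₂ j).mono (le_max_right _ _)⟩
  rintro i (e | ⟨a', e⟩)
  · obtain rfl | ⟨j, r⟩ | ⟨j, r⟩ := γ.sur i
    exacts [q0, q (h.r₁ _ _ r) (g₁.q j (.inl ((γ.c₁ _ _ r).2.2.s ▸ e))),
      q (h.r₂ _ _ r) (g₂.q j (.inl ((γ.c₂ _ _ r).2.2.s ▸ e)))]
  · obtain ⟨(a'' | a'') | _, rfl⟩ := b.bij.2 a'
    · obtain ⟨-, k⟩ | ⟨j, k, i', k', r⟩ := b.w₁ a''
      · cases k.symm.trans e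
      · cases k'.symm.trans e
        exact q (h.r₁ _ _ r) (g₁.q j (.inr ⟨_, k⟩))
    · obtain ⟨-, k⟩ | ⟨j, k, i', k', r⟩ := b.w₂ a''
      · cases k.symm.trans e
      · cases k'.symm.trans e
        exact q (h.r₂ _ _ r) (g₂.q j (.inr ⟨_, k⟩))
    · cases b.wl.symm.trans e
      exact q0

end TG

theorem bij0 : Bijective (Sum.elim (Sum.elim (Fin.elim0 : Fin 0 → Fin 1) (Fin.elim0 : Fin 0 → Fin 1))
    fun _ : Unit => (0 : Fin 1)) :=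
  ⟨by rintro ((a | a) | _) ((b | b) | _) - <;> first | rfl | exact a.elim0 | exact b.elim0,
    fun _ => ⟨.inr (), Subsingleton.elim _ _⟩⟩

theorem tw_one {β : MB τ 0} (c : MC μ0 β) {j} (h : (c.ec j).u = 1) : Tw (fun _ => c.toMM) j :=
  fun _ => ⟨fun _ => rfl, _, c.mon.refl, fun _ _ => by simp [h]⟩

theorem Gd.u {k} {M : MM μ0 τ} {w : Fin k → Option τ.N} (g : Gd mk M w) {i} (h : (τ.nb i).s ≠ none) :
    (M.ec i).u = 1 := ((g.en i).qhs (g.q i (.inl h))).2.1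

theorem Gd.mono {k k'} {M : MM μ0 τ} {w : Fin k → Option τ.N} {w' : Fin k' → Option τ.N} (g : Gd mk M w)
    (h : ∀ a, ∀ i ∈ w' a, ∃ b, w b = some i) : Gd mk M w' :=
  ⟨g.en, fun i k => g.q i (k.imp_right fun ⟨a, e⟩ => h a i e), g.bd⟩

/-- the facet at zero of a family over one coordinate -/
theorem res0 (H : Lf) (β : MB τ 1) : ∃ β₀ : MB τ 0, β₀.e 0 = β.e 0 ∧ ∀ c : MC μ0 β, ∃ c₀ : MC μ0 β₀,
    c₀.toMM = c.toMM ∧ (∀ d, c.Cl d → c₀.Cl d) ∧ Sa c₀ c 0 0 ∧ ∀ ens ens' C C',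
      (c.gc ens C).Fc (c₀.gc ens' C') {t ∈ dom β.wl | t 0 = 0} Fin.elim0 (.refl _) 0 := by
  obtain ⟨β₀, -, e, h⟩ := res H.res β (π := fun _ => .inr 0) (w := Fin.elim0)
    ⟨nofun, fun a => a.elim0, by rintro _ _ ⟨⟩; simp⟩
  refine ⟨β₀, e 0, fun c => ?_⟩
  obtain ⟨c₀, m, d, s⟩ := h c
  refine ⟨c₀, m, d, s 0, fc_sa m (D := {t ∈ dom β.wl | t 0 = 0}) (ι := Fin.elim0) (fun a => a.elim0)
    (fun a => a.elim0) (fun t ht => ?_) fun t => (H.pz.ok c t).1.bg⟩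
  obtain rfl : t = 0 := funext fun a => Subsingleton.elim a 0 ▸ ht.2
  rw [t0 (_ ∘ _)]
  exact s 0

/-- **a single wall** -/
theorem wal (H : Lf) (γ : TG τ τ₁ τ₂) {β₁ : MB τ₁ 0} {β₂ : MB τ₂ 0} {c₁ : MC μ0 β₁} {c₂ : MC μ0 β₂}
    (g₁ : Gd mk c₁.toMM β₁.wl) (g₂ : Gd mk c₂.toMM β₂.wl) (ty : c₁.ty γ.j₁ = c₂.ty γ.j₂) {d d₁ d₂}
    (h₁ : c₁.Cl d₁) (h₂ : c₂.Cl d₂) (l : γ.g.Rl d d₁) (r : γ.g.Rr d d₂)
    (p : τ.pin = none → ∀ f, γ.g.Fm f (c₁.fo 0) (c₂.fo 0) → X.Ps d ((2 : ℝ) • f)) :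
    ∃ (β : MB τ 1) (c : MC μ0 β) (C : ℕ → ℝ) (β₀ : MB τ 0) (c₀ : MC μ0 β₀) (C₀ : ℕ → ℝ) (Λ : γ.LR),
      Ro mk (c.gc c.en1 C) ∧ Ro mk (c₀.gc c₀.en1 C₀) ∧ β.wl 0 = some γ.i ∧ c₀.Cl d ∧
      γ.g.Fm (c₀.fo 0) (c₁.fo 0) (c₂.fo 0) ∧ (∃ K, ∀ i, EBd K (c₀.ty i)) ∧
      (c.gc c.en1 C).Fc (c₀.gc c₀.en1 C₀) {t ∈ dom β.wl | t 0 = 0} Fin.elim0 (.refl _) 0 ∧
      ∀ ens₁ ens₂ C₁ C₂, (c.gc c.en1 C).Wl (c₁.gc ens₁ C₁) (c₂.gc ens₂ C₂) 0 γ.i γ.cap Fin.elim0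
        Fin.elim0 Λ.l Λ.r := by
  obtain ⟨β, b, f⟩ := H.glu.b γ β₁ β₂ (0 : Fin 1) _ _ bij0 (fun a => a.elim0) fun a => a.elim0
  obtain ⟨c, m, k⟩ := H.glu.c γ _ _ _ c₁ c₂ b f ty
  have g := m.gd b g₁ g₂
  obtain ⟨-, cl⟩ := (H.tw γ (fun _ => c) c₁ (fun _ => c₂) d d₁ d₂ (f 0) (fun _ => m)
    (tw_one c₂ (g₂.u (γ.s_2 ▸ nofun))) (lgE (g₁.en _)) h₁ h₂ l r).1
  have fm : ∀ t, γ.g.Fm (c.fo t) (c₁.fo 0) (c₂.fo 0) := fun t => by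
    simpa only [t0 (t ∘ _)] using (k t).fo
  obtain ⟨C, ro⟩ := g.ro1 H le_rfl (fun e => (e γ.p3.2).elim) (S := {c.fo 0})
    ⟨toFinite _, fun _ e => e ▸ c.cs 0, fun t _ => subset_convexHull _ _ (H.cgl.fm _ _ _ _ _ (fm t) (fm 0))⟩
    (fun _ _ t _ _ _ => (k t).mc (k _) (congrArg _ (Subsingleton.elim _ _))
      (congrArg _ (Subsingleton.elim _ _))) cl fun e f hf => by
      rw [convexHull_singleton] at hf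
      exact p e _ (hf ▸ fm 0)
  obtain ⟨β₀, -, h0⟩ := res0 H β
  obtain ⟨c₀, m0, d0, s0, f0⟩ := h0 c
  have g0 : Gd mk c₀.toMM β₀.wl := m0 ▸ g.mono fun a => a.elim0
  obtain ⟨C₀, ro₀⟩ := g0.ro0 H (d0 d cl) fun e => p e _ (s0.fo ▸ fm 0)
  obtain ⟨Λ⟩ := H.lr γ
  exact ⟨β, c, C, β₀, c₀, C₀, Λ, ro, ro₀, b.wl, d0 d cl, s0.fo ▸ fm 0, g0.bd, f0 _ _ _ _,
    fun _ _ _ _ => H.wal γ Λ _ _ _ c c₁ c₂ b m (fun t _ => ⟨f t, k t⟩)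
      (fun _ => g.q _ (.inr ⟨_, b.wl⟩)) _ _ _ _ _ _⟩

theorem fm_smul {A : O3} {k₁ : Nc A X₁ (Ioi 0)} {k₂ : Nc A X₂ (Iio 0)} {g : Gl3 k₁ k₂ X} {f f₁ f₂}
    (h : g.Fm f f₁ f₂) (r : ℝ) : g.Fm (r • f) (r • f₁) (r • f₂) :=
  ⟨fun p k => by rw [Dr59.pm_smul, Pi.smul_apply, h.1 p k]; rfl,
    fun p k => by rw [Dr59.pm_smul, Pi.smul_apply, h.2 p k]; rfl⟩

theorem two_half (f : X.Fm) : (2 : ℝ) • (1 / 2 : ℝ) • f = f := by module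

theorem half_two (f : X.Fm) : f = (1 / 2 : ℝ) • (2 : ℝ) • f := by module

namespace Ends
variable {𝓔 : Ends mk}

theorem en_q (a : Option Q3) : (𝓔.en a).Q := by
  rcases a with _ | A
  · exact q_none
  · rintro _ ⟨⟩
    exact (𝓔.q A).kd

theorem Lab.uq : ∀ {a : Option Q3} {s c c'}, 𝓔.Lab a s c → 𝓔.Lab a s c' → c = c'
  | none, _, _, _, _, _ => rfl
  | some _, _, _, _, h, h' => Eq.trans h (Eq.symm h')

theorem en_none : ∀ {a : Option Q3}, 𝓔.en a = none → a = none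
  | none, _ => rfl
  | some _, h => nomatch h

theorem go_none {N} {f : N → NB κ0 X} {s} : ∀ {a : Option Q3} {k},
    Option.map f none = (𝓔.go a).nb s k → a = none
  | none, _, _ => rfl
  | some _, _, h => nomatch h

theorem go_std : ∀ a : Option Q3, (𝓔.go a).Std
  | none => trivial
  | some A => (𝓔.q A).std

variable (H : Lf) {a b : Option Q3}
include H

/-- **uniqueness** -/
theorem Rep.itv {σ σ' T T' d d' η η'} (h : 𝓔.Rep a b σ T d η) (h' : 𝓔.Rep a b σ' T' d' η')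
    (φ : T.Iso T') (hp : Pb φ.φ univ d' d) (hs : a = none → T.X.Seg d η (pm T.X.I T'.X.I φ.φ η')) :
    Nonempty (Itv σ σ') :=
  let ⟨s, k⟩ := ex_cl (s := false) T.ki d
  let ⟨t, l⟩ := ex_cl (s := true) T.ko d
  Mo.itv H (en_q a) (en_q b) h.p0 h'.p0 h.md h'.md φ hp
    ((h.s s k).uq (h'.s s ((cl_i φ.ki isOpen_univ (fun _ _ => trivial) hp s).1 k)))
    ((h.t t l).uq (h'.t t ((cl_o φ.ko isOpen_univ (fun _ _ => trivial) hp t).1 l))) fun e => hs (en_none e)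

theorem Rep.itv' {σ σ' T d η η'} (h : 𝓔.Rep a b σ T d η) (h' : 𝓔.Rep a b σ' T d η')
    (hs : a = none → T.X.Seg d η η') : Nonempty (Itv σ σ') :=
  h.itv H h' (isoId T) Rfl19.pb_id fun e => (pm_refl η').symm ▸ hs e

/-- **composition** -/
theorem cm {c : Option Q3} {B : Q3} {σ₁ σ₂ T T₁ T₂ d d₁ d₂ η η₁ η₂} (h₁ : 𝓔.Rep a (some B) σ₁ T₁ d₁ η₁)
    (h₂ : 𝓔.Rep (some B) c σ₂ T₂ d₂ η₂) (g : Cm (B := B.toO3) T₁ T₂ T) (l : g.Rl d d₁) (r : g.Rr d d₂)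
    (p : a = none → g.Fm η η₁ η₂ ∧ T.X.Ps d η) :
    ∃ ρ η', 𝓔.Rep a c ρ T d η' ∧ (a = none → η' = η) ∧ Nonempty (Wal ρ σ₁ σ₂) := by
  obtain ⟨τ₁, β₁, c₁, ens₁, C₁, o₁, cl₁, fo₁, bd₁, e₁⟩ := h₁.md
  obtain ⟨τ₂, β₂, c₂, ens₂, C₂, o₂, cl₂, fo₂, bd₂, e₂⟩ := h₂.md
  have g₁ := gd_pt (en_q _) (en_q _) q_none e₁ bd₁
  have g₂ := gd_pt (en_q _) (en_q _) q_none e₂ bd₂
  obtain ⟨s, ks⟩ := ex_cl (s := true) T₁.ko d₁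
  have es : σ₁.t = σ₂.s := (h₁.t s ks).uq (h₂.s s ((cl_lr g.toGl3 l r).1 ks))
  obtain ⟨τ, ι, o, hι, sj⟩ := exists_mt T (𝓔.go a) (𝓔.go c) () (go_std a) (go_std c) trivial
    (fun _ : Unit => ⟨(𝓔.q B).g.et, none, g.n⟩) (fun _ => rfl) (fun _ => (𝓔.q B).std)
    Subsingleton.pairwise (fun _ => Cm.core g) fun j y _ => Cm.off g j y
  obtain ⟨γ, I⟩ := exists_tgC g o₁ o₂ o (hι ()) fun i ne k => (ne (sj i k).choose_spec).elim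
  obtain ⟨_, t₁, w₁, s₁, u₁, _, _, a₁, b₁, _⟩ := σ₁
  obtain ⟨_, t₂, w₂, s₂, u₂, _, _, a₂, b₂, _⟩ := σ₂
  subst e₁ e₂ es
  have pt := γ.port
  rw [I.cap] at pt
  have fe : ∀ f, γ.g.Fm f (c₁.fo 0) (c₂.fo 0) → a = none → (2 : ℝ) • f = η := fun f k e => by
    have := fm_smul ((I.of (p := fun g => g.2.2.2.Fm f (c₁.fo 0) (c₂.fo 0))).1 k) 2
    rw [fo₁, fo₂, two_half, two_half] at this
    exact H.cgl.fm _ _ _ _ _ this (p e).1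
  obtain ⟨β, c', C, β₀, c₀, C₀, Λ, ro, ro₀, wl, cl, fm, bd, f0, W⟩ := wal H γ g₁ g₂
    (Option.some.inj (((congrArg _ pt.1).symm.trans b₁).trans
      (a₂.symm.trans (congrArg _ ((τ₂.inn _).1 γ.s_2)))))
    cl₁ cl₂ ((I.of (p := fun g => g.2.2.2.Rl d d₁)).2 l) ((I.of (p := fun g => g.2.2.2.Rr d d₂)).2 r)
    fun e f k => by
      have := go_none ((congrArg _ e).symm.trans o.pin)
      rw [fe f k this]
      exact (p this).2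
  have W := I.cap ▸ W ens₁ ens₂ C₁ C₂
  refine ⟨C3.pt ro₀ rfl s₁ u₂ () (f0.ports.1.trans (W.nk.1.symm.trans a₁))
    (f0.ports.2.1.trans (W.nk.2.2.2.2.1.symm.trans b₂)) (congrArg _ γ.p3.2), _,
    ⟨C3.pt_p0 .., ⟨τ, β₀, c₀, _, _, o, cl, half_two _, bd, rfl⟩, fun s k => h₁.s s ((ki_cl g l s).2 k),
      fun s k => h₂.t s ((cl_o g.ko g.r.open_source (fun p k => (mem_r g.toGl3).2 ?_) r s).2 k)⟩,
    fe _ fm, ⟨⟨⟨_, ro, 0, fun _ => Subsingleton.elim _ _⟩, ⟨_, wl, ⟨_, _, _, rg0, f0⟩, _, _, _, _, W,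
      t₂.nd.ok.fc _⟩, C3.pt_p0 .., h₁.p0, h₂.p0⟩⟩⟩
  exact lt_of_lt_of_le (by norm_num) (not_lt.1 fun m => (T₂.io p m).not_gt k)

/-- **capping** -/
theorem ci {A B x : Q3} {L σ₂ T₁ T₂ d₁ d₂ η₂} (T : Pm (some A.toO3) (some B.toO3) none) (d : T.L)
    (h₁ : 𝓔.Rep3 A B x L T₁ d₁) (h₂ : 𝓔.Rep (some x) none σ₂ T₂ d₂ η₂) (g : Cp3 (A := x.toO3) T₁ T₂ T)
    (l : g.Rl d d₁) (r : g.Rr d d₂) :
    ∃ σ ρ η, (KC mk).CapI σ ρ L σ₂ ∧ 𝓔.Rep (some A) (some B) ρ T d η := by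
  obtain ⟨η₁, τ₁, β₁, c₁, ens₁, C₁, o₁, cl₁, fo₁, bd₁, e₁⟩ := h₁.md
  obtain ⟨τ₂, β₂, c₂, ens₂, C₂, o₂, cl₂, fo₂, bd₂, e₂⟩ := h₂.md
  have g₁ := gd_pt (en_q (some A)) (en_q (some B)) (en_q (some x)) e₁ bd₁
  have g₂ := gd_pt (en_q _) (en_q _) q_none e₂ bd₂
  obtain ⟨s, ks⟩ := ex_cl (s := true) T₁.k3 d₁
  have es : L.u = σ₂.s := (h₁.u s ks).trans (h₂.s s ((cl_lr g.toGl3 l r).1 ks)).symm
  obtain ⟨τ, ι, o, hι, sj⟩ := exists_mt T (𝓔.q A).g (𝓔.q B).g () (𝓔.q A).std (𝓔.q B).std trivial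
    (fun _ : Unit => ⟨(𝓔.q x).g.et, none, g.n⟩) (fun _ => rfl) (fun _ => (𝓔.q x).std)
    Subsingleton.pairwise (fun _ => Cp3.core g) fun j => (j.cast g.nT).elim0
  obtain ⟨γ, I⟩ := exists_tgP g o₁.toOnP o₂.toOnP o.toOnP (o₁.nc.trans g.nL) (o₂.nc.trans g.nQ)
    (o.nc.trans g.nT) (hι ()) fun i k => (sj i k).choose_spec
  obtain ⟨_, t₁, w₁, s₁, u₁, v₁, _, a₁, b₁, x₁⟩ := L
  obtain ⟨_, t₂, w₂, s₂, u₂, _, _, a₂, b₂, _⟩ := σ₂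
  subst e₁ e₂ es
  have pt := γ.port
  rw [I.cap] at pt
  obtain ⟨β, c', C, β₀, c₀, C₀, Λ, ro, ro₀, wl, cl, fm, bd, f0, W⟩ := wal H γ g₁ g₂
    (Option.some.inj (((congrArg _ pt.1).symm.trans x₁).trans
      (a₂.symm.trans (congrArg _ ((τ₂.inn _).1 γ.s_2)))))
    cl₁ cl₂ ((I.of (p := fun g => g.2.2.2.Rl d d₁)).2 l) ((I.of (p := fun g => g.2.2.2.Rr d d₂)).2 r)
    fun e => by
      have := o.pin
      rw [e] at this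
      exact nomatch this
  have W := I.cap ▸ W ens₁ ens₂ C₁ C₂
  let ρ : C2 (𝓔.ob A) (𝓔.ob B) := C3.pt ro₀ rfl s₁ u₁ () (f0.ports.1.trans (W.cap.1.symm.trans a₁))
    (f0.ports.2.1.trans (W.cap.2.1.symm.trans b₁)) (congrArg _ γ.p3.2)
  exact ⟨_, ρ, _, Cpw.capI ⟨⟨_, ro, 0, fun _ => Subsingleton.elim _ _⟩, ⟨_, wl, ⟨_, _, _, rg0, f0⟩, _,
    t₂.nd.ok, w₂.all.1, fun a => a.elim0, _, _, _, _, W, id, _, 0, false, surjective_id, t₂.nd.ok.fc _,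
    nofun⟩, C3.pt_p0 .., h₁.p0, h₂.p0⟩ (en_q (some A)) ⟨_, rfl, fun e => nomatch e.symm.trans (𝓔.q x).kd⟩ rfl,
    C3.pt_p0 .., ⟨τ, β₀, c₀, _, _, o, cl, half_two _, bd, rfl⟩,
    fun s k => h₁.s s ((cl_i g.ki g.l.open_source
      (fun p k => (mem_l g.toGl3).2 ((T₁.i3 p k).trans_lt four_pos)) l s).2 k),
    fun s k => h₁.t s ((cl_o g.ko g.l.open_source
      (fun p k => (mem_l g.toGl3).2 ((T₁.o3 p k).trans_lt four_pos)) l s).2 k)⟩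

end Ends

end Crest.Agent.X212.Sw87.Mo
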