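import Crest.Agent.X212.Geo28.Top
import Crest.Agent.X212.Asm22.Two
import Crest.Agent.X212.Tri19.Good
import Crest.Agent.X212.Tri19.Sub
import Crest.Agent.X212.Tri19.Tri
import Crest.Agent.X212.Nv5.PenT
import Crest.Agent.X212.Lad50.Clo
import Crest.Agent.X212.Cnt42.Main

/-!
# Row 212, layer GEO (helper28): the theory from the engine and the counts
-/

set_option autoImplicit false

universe u

namespace Crest.Agent.X212.Geo28
open Bor5.T Flo2

/-- for every sphere there is an engine with counts -/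
def EngStmt (Q : Prd) : Prop := ∀ (A : Q3) (s : Sph A.toO3), Function.Injective s.π →
  ∃ (K : Sk.{u}) (E : Eng K.clo Q), K.sph (E.ob A) ∧ (∀ a b (σ : K.F a b), Countable (K.C σ)) ∧
    ∀ B : K.Sub, Nonempty (Flo2.Cs (K.cut B))

/-- **the theory** -/
theorem th {Q : Prd} {R : ℝ} (H : Lvs) (hE : EngStmt.{u} Q) (hQ : Taub Q)
    (hT : ∀ (K : Sk.{u}) (E : Eng K Q), TriadStmt E) (hN : ∀ (K : Sk.{u}) (E : Eng K Q), NvStmt E R) :
    ThStmt := by
  refine ⟨Q, R, hQ, fun S P => ?_⟩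
  obtain ⟨K, E, hs, hC, an⟩ := hE _ S.s0 S.inj
  obtain ⟨r, hr⟩ := geo E H (hT _ E) (hN _ E) S P hs
  obtain ⟨A, r', hr'⟩ := Tri19.sub2Stmt S K r Q R P hr hC Cnt42.cnt
  obtain ⟨θ, hθ⟩ := Asm22.asm2 Tri19.good2Stmt Tri19.tri2Stmt Alg43.pent2Stmt S _ r'
    (Lad50.Cl.clo _ (an A))
  exact ⟨θ, hθ Q R P hr'⟩

end Crest.Agent.X212.Geo28
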