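import Crest.Agent.X212.Geo28.As5
import Crest.Agent.X212.Geo28.Fin
import Crest.Agent.X212.Top0.Mk

/-!
# Row 212, GEO engine (helper28): the marks and the engine
-/

set_option autoImplicit false
set_option linter.unusedSectionVars false
noncomputable section
open scoped Manifold ContDiff Topology InnerProductSpace
open MeasureTheory Set Function Filter

namespace Crest.Agent.X212.Sw87.Mo
open An Cyf70 Sw Flo2 Geo28 Met55 Pen22
open Bor5.T (O3 Q3 Pb Cur Sph W4)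
open Dr59 (Cs Cl HZ pm mf)

variable {mk : Mk κ0 L0 ν0}

theorem quad {a b b' c : ℝ} (p : 0 < a) : ∃ R : ℝ, 0 < R * (R * a) - R * b - (R * b' - c) := by
  have q : 0 ≤ (|b + b'| + |c|) / a := by positivity
  have r := div_mul_cancel₀ (|b + b'| + |c|) p.ne'
  refine ⟨(|b + b'| + |c|) / a + 1, ?_⟩
  generalize (|b + b'| + |c|) / a = R at q r
  nlinarith [le_abs_self (b + b'), neg_abs_le c, mul_nonneg q (abs_nonneg c), mul_nonneg q p.le,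
    mul_nonneg q (sub_nonneg.2 (le_abs_self (b + b')))]

theorem ps_big {X : M4} {d : X.L} (c e : CF X) (h : Cur d c.1) (p : 0 < B X e e) :
    ∃ R : ℝ, X.Ps d (R • e.1) := by
  obtain ⟨R, k⟩ := quad (b := B X c e) (b' := B X e c) (c := B X c c) p
  refine ⟨R, ps_of c (R • e) h (k.trans_eq ?_)⟩
  simp only [map_sub, map_smul, LinearMap.sub_apply, LinearMap.smul_apply, smul_eq_mul]
  ring

theorem bd_kc {a b : EE mk} {σ : C2 a b} {l n} (h : (KC mk).Bd σ l n) : (KA mk).Bd σ l n :=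
  ⟨h.fc, h.nk, h.cp⟩

namespace Ends
variable {𝓔 : Ends mk} {A B : Q3}

theorem qhs (A : Q3) : (KA mk).qhs (𝓔.ob A) := ⟨_, rfl, (𝓔.q A).kd⟩

theorem cb_of {T : Pm (some A.toO3) (some B.toO3) none} {τ : MT κ0 T.X} {M : MM μ0 τ}
    (o : OnP T τ (𝓔.q A).g (𝓔.q B).g ()) {s t} (hs : τ.pin.map M.ty = (𝓔.ob A).ty s)
    (ht : τ.pout.map M.ty = (𝓔.ob B).ty t) (en : ∀ i, End.OK mk (M.ty i).1)
    (h1 : HZ T.X.I 1 (univ : Set T.M)) : Cb mk M := by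
  obtain ⟨i, a1, a2⟩ := Option.map_eq_some_iff.1 hs
  obtain ⟨j, b1, b2⟩ := Option.map_eq_some_iff.1 ht
  have p3 := Option.map_eq_none_iff.1 o.p3
  have k : ∀ l, (τ.nb l).s ≠ none → l = i ∨ l = j := fun l e => (τ.port e).imp
    (fun e => Option.some.inj (e.symm.trans a1)) fun e =>
      Option.some.inj ((e.resolve_right (p3 ▸ nofun)).symm.trans b1)
  refine ⟨⟨i, a1, kd_of hs (en_q (some A)) a1⟩, ⟨j, b1, kd_of ht (en_q (some B)) b1⟩, p3, en,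
    fun l e => ?_, fun l e => ?_, h1⟩ <;> obtain rfl | rfl := k l e
  · exact ⟨A, congrArg (·.e.A) (Option.some.inj ((congrArg (Option.map _) a1).symm.trans o.pin))⟩
  · exact ⟨B, congrArg (·.e.A) (Option.some.inj ((congrArg (Option.map _) b1).symm.trans o.pout))⟩
  · exact a2 ▸ (𝓔.q A).red s
  · exact b2 ▸ (𝓔.q B).red t

variable {σ : C2 (𝓔.ob A) (𝓔.ob B)} {T : Pm (some A.toO3) (some B.toO3) none} {d : T.L} {η : T.Fm}

theorem Rep.tp (M : Marks mk) (h : 𝓔.Rep (some A) (some B) σ T d η) (h1 : HZ T.X.I 1 (univ : Set T.M))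
    (x : ℚ) (hx : T.X.Deg d x) : (KC mk).tp σ (x - 2 * T.nb) := by
  obtain ⟨τ, β, c, ens, C, o, cl, -, -, e⟩ := h.md
  obtain ⟨_, t, w, _, _, _, _, a, b, _⟩ := σ
  subst e
  have := M.tp c d x ens C (cb_of o.toOnP a b w.all.1 h1) cl hx
  rwa [o.nc, Nat.cast_zero, add_zero] at this

theorem Rep.hi1 (H : Lf) (M : Marks mk) (h : 𝓔.Rep (some A) (some B) σ T d η)
    (h1 : HZ T.X.I 1 (univ : Set T.M)) (hb : T.X.Bp 0) (n : T.nb = 0) : (KC mk).hi1 σ := by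
  obtain ⟨τ, β, c, ens, C, o, cl, -, bd, e⟩ := h.md
  have g := gd_pt (en_q (some A)) (en_q (some B)) q_none e bd
  obtain ⟨_, t, w, s, u, _, _, a, b, p3⟩ := σ
  subst e
  obtain ⟨β', c', ty, cl', m⟩ := M.hi c d (cb_of o.toOnP a b w.all.1 h1) (o.nc.trans n) cl hb
  have g' : Gd mk c'.toMM β'.wl := ⟨fun i => ty i ▸ g.en i, fun i k => (congrArg (·.1.kd) (ty i)).trans
    (g.q i (k.imp_right fun ⟨a, _⟩ => a.elim0)), g.bd.imp fun _ k i => ty i ▸ k i⟩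
  obtain ⟨C', ro⟩ := g'.ro0 H cl' fun e => nomatch (congrArg _ e).symm.trans o.pin
  let ρ : C2 (𝓔.ob A) (𝓔.ob B) := C3.pt ro rfl s u () ((congrArg (Option.map · _) (funext ty)).trans a)
    ((congrArg (Option.map · _) (funext ty)).trans b) ((congrArg (Option.map · _) (funext ty)).trans p3)
  have r : 𝓔.Rep (some A) (some B) ρ T d _ :=
    ⟨C3.pt_p0 .., ⟨τ, β', c', _, _, o, cl', half_two _, g'.bd, rfl⟩, h.s, h.t⟩
  obtain ⟨I⟩ := h.itv' H r nofun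
  exact .inr ⟨qhs A, qhs B, _, ρ, [], bd_kc (I.bd (en_q (some A))), ⟨r.p0.ir, m _ _⟩, rfl, nofun⟩

theorem Rep.hi0 (H : Lf) (h : 𝓔.Rep (some A) (some B) σ T d η) {e} (he : T.Fo e) (p : 0 < T.X.ip e e) :
    (KC mk).hi0 σ := by
  obtain ⟨c, h1, h2⟩ := Mv17.pm_cur (some A) (some B) T d
  obtain ⟨R, hR⟩ := ps_big ⟨c, h2.mono (subset_univ _)⟩ ⟨e, he.mono (subset_univ _)⟩ h1 p
  obtain ⟨τ, β, ec, C, c, ρ, o, -, q, k⟩ := exF (𝓔 := 𝓔) H (a := some A) (b := some B) T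
    (fun _ : Unit => d) (fun _ => R • e) (fun _ => he.smul R) (finite_range _) nofun
  obtain ⟨r, k1, k2, k3, k4, -, k5⟩ := k ()
  obtain ⟨I⟩ := h.itv' H r nofun
  refine .inr ⟨qhs A, qhs B, _, [ρ ()], bd_kc (I.bd (en_q (some A))), fun _ m => ?_⟩
  cases List.mem_singleton.1 m
  refine ⟨k1 ▸ (gd_ql k5 ((bd_of q).imp fun _ k => k _ k2) _).nored H (hl0 _) k3 (fun f hf => ?_) _ _,
    (ρ ()).kp (en_q (some A)), fun a => (a.cast r.p0.k).elim0⟩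
  rw [convexHull_singleton] at hf
  rwa [hf, k4, two_half]

theorem exU (H : Lf) (L : Lvs) (M : Marks mk) (A : Q3) (T : Pm (some A.toO3) (some A.toO3) none)
    (hT : T.IsCyl) (n : T.nb = 1) (d : T.L) : ∃ σ, 𝓔.Rep (some A) (some A) σ T d 0 ∧ (KC mk).hi1 σ ∧
      ((KC mk).psc (𝓔.ob A) → (KC mk).al1 σ) := by
  obtain ⟨τ, -, -, o, e, -⟩ := exS (𝓔 := 𝓔) H (a := some A) (b := some A) (x := none) T
  obtain ⟨s, hs⟩ := ex_cl (s := false) T.ki d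
  have ht := ((L.cyl.cl _ T hT).2 d s).1 hs
  obtain ⟨β, c, ty, cl, fo, m⟩ := M.u A (𝓔.q A) T hT n τ o e d s hs ht
  have q : ∀ i, 𝓔.QL (τ.nb i) (c.ty i) d := fun i => by
    rcases τ.port (e i) with k | k | k
    · exact ⟨A, _, _, s, Option.some.inj ((congrArg _ k).symm.trans o.pin), ty i, hs⟩
    · exact ⟨A, _, _, s, Option.some.inj ((congrArg _ k).symm.trans o.pout), ty i, ht⟩
    · exact nomatch (congrArg _ k).symm.trans o.p3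
  have g := gd_ql q ((𝓔.q A).bd.imp fun _ k i => ty i ▸ k _) β.wl
  obtain ⟨C, ro⟩ := g.ro0 H cl fun e => nomatch (congrArg _ e).symm.trans o.pin
  obtain ⟨σ, r, k⟩ := rep_of (a := some A) (b := some A) o ro cl (fo.trans (smul_zero _).symm) g.bd q
  refine ⟨σ, r, .inl ⟨r.p0.ir, k ▸ (m _ _).1⟩, ?_⟩
  rintro ⟨_, ⟨⟩, -, p⟩
  exact ⟨r.p0.ir, k ▸ (m _ _).2 p⟩

theorem exE (H : Lf) (W : W4) (h : CompactSpace W.M) (d η) (q : QM mk.ex1 W d η) (p : W.Ps d η) :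
    ∃ σ, 𝓔.Rep none none σ (clP W h) d η ∧ (KC mk).ex1 σ := by
  obtain ⟨τ, β, c, e, n, cl, fo, m⟩ := q
  have k : ∀ p : Option τ.N, p.map τ.nb = none := by
    rintro (_ | i)
    exacts [rfl, isEmptyElim i]
  have g : Gd mk c.toMM β.wl := ⟨isEmptyElim, isEmptyElim, 0, isEmptyElim⟩
  obtain ⟨C, ro⟩ := g.ro0 H cl fun _ => fo ▸ (two_half (X := m4 W) η).symm ▸ p
  obtain ⟨σ, r, k⟩ := rep_of (𝓔 := 𝓔) (a := none) (b := none) (T := clP W h)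
    ⟨⟨k _, k _, k _⟩, n, fun j => (j.cast n).elim0⟩ ro cl fo g.bd isEmptyElim
  exact ⟨σ, r, r.p0.ir, k ▸ m _ _⟩

theorem lab_iff {cap} : ∀ {a : Option Q3} {s c}, 𝓔.Lab a s c → (𝓔.pre cap).Lab a s c
  | none, _, _, h => h
  | some _, _, _, h => h

/-- **the engine** -/
theorem eng (H : Lf) (L : Lvs) (M : Marks mk) (P : PenStmt mk) (𝓔 : Ends mk) :
    ∃ E : Eng (KC mk) (QM mk.ex1), E.ob = 𝓔.ob :=
  let ⟨cap, pen⟩ := P 𝓔
  ⟨{ 𝓔.pre cap with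
    qhs := qhs
    psc := fun A s => ⟨_, rfl, (𝓔.q A).kd, (𝓔.q A).psc s⟩
    sph := fun A s _ _ => ⟨⟨_, rfl, .inr ⟨(𝓔.q A).kd, (𝓔.q A).psc ⟨s⟩, (𝓔.q A).lab.symm.subsingleton⟩⟩,
      by rintro ⟨_, ⟨⟩, e⟩; exact nomatch e.symm.trans (𝓔.q A).kd⟩
    pt := fun h => h.p0.pt
    hs := fun h c k => lab_iff (h.s c k)
    ht := fun h c k => lab_iff (h.t c k)
    ex := ex H
    ex3 := fun A B x T d _ => ex3 H A B x T d
    uq := fun h h' φ hp hs => (h.itv H h' φ hp hs).elim fun I => I.htp (en_q _)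
    cm := fun h h₁ h₂ g l r p =>
      let ⟨_, _, k1, k2, ⟨W⟩⟩ := cm H h₁ h₂ g l r fun e => ⟨(p e).1, (p e).2.2⟩
      (W.cmp (en_q _)).congr ((h.itv' H k1 fun e => k2 e ▸ (p e).2.2.seg).elim fun I => I.htp (en_q _))
        (.refl h₁.p0.pt) (.refl h₂.p0.pt)
    ci := ci H
    tp := fun h => h.tp M
    hi1 := fun h => h.hi1 H M
    hi0 := fun h _ ⟨_, he, p⟩ => h.hi0 H he p
    U := exU H L M
    ex1 := fun W h d η _ => exE H W h d η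
    pen := pen }, rfl⟩

end Ends

open Top0 in
/-- **the engine statement** -/
theorem engStmt (H : Lf) (M : ∀ e₀, Marks (mk0 e₀)) (P : ∀ e₀, PenStmt (mk0 e₀))
    (q : ∀ e₀, EnqStmt (mk0 e₀)) (r : ∀ e₀, EnrStmt (mk0 e₀)) (e₁ : En3 κ0 L0 ν0) (L : Lvs)
    (an : ∀ e₀ : En3 κ0 L0 ν0, AnStmt (mk0 e₀)) : EngStmt.{1} (QM Rad94.Ex1) := fun A s hs => by
  let 𝓔 : Ends (mk0 e₁) := ⟨fun A => (q e₁ A).some, fun G => (r e₁ G.R G.c0 G.tor G.uq).some⟩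
  have := L.s3 A s hs
  have := (𝓔.q A).lab.symm.subsingleton
  obtain ⟨e₀, h⟩ : ∃ e₀, (mk0 e₀).sph ⟨_, (𝓔.q A).ec⟩ := by
    cases isEmpty_or_nonempty (𝓔.q A).ec.L with
    | inl _ => exact ⟨e₁, (𝓔.q A).psc ⟨s⟩, isEmptyElim⟩
    | inr c => exact ⟨_, sph_self ((𝓔.q A).psc ⟨s⟩) c.some⟩
  obtain ⟨E, e⟩ := Ends.eng H L (M e₀) (P e₀) (reE e₀ 𝓔)
  exact ⟨KA (mk0 e₀), E, e ▸ ⟨_, rfl, (𝓔.q A).kd, h, this⟩, KA.cnt, an e₀⟩

end Crest.Agent.X212.Sw87.Mo
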