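import Crest.Agent.X212.Geo28.As6
import Crest.Agent.X212.Enr44.Bas
import Crest.Agent.X212.Gnk23.Fr

/-!
# Row 212, GEO engine (helper28): the engine statement without a base point
-/

set_option autoImplicit false
noncomputable section

namespace Crest.Agent.X212.Sw87.Mo
open Sw Flo2 Geo28 Top0

theorem en_of (A : Bor5.T.Q3) : Nonempty (En3 κ0 L0 ν0) :=
  let ⟨e, he, _⟩ := Gnk23.psQ A
  ⟨Enr44.e0 ⟨A.toO3, Enr44.yd A.toO3 e he, 0⟩ ⟨0, 0, 0⟩ 0⟩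

/-- **the engine statement** -/
theorem engStmt' (H : Lf) (M : ∀ e₀, Marks (mk0 e₀)) (P : ∀ e₀, PenStmt (mk0 e₀))
    (q : ∀ e₀, EnqStmt (mk0 e₀)) (r : ∀ e₀, EnrStmt (mk0 e₀)) (L : Lvs)
    (an : ∀ e₀ : En3 κ0 L0 ν0, AnStmt (mk0 e₀)) : EngStmt.{1} (QM Rad94.Ex1) := fun A =>
  engStmt H M P q r (en_of A).some L an A

end Crest.Agent.X212.Sw87.Mo
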