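import Crest.Agent.X212.Geo28.TrB
import Crest.Agent.X212.Eqv71.Grp
import Crest.Agent.X212.Eqv71.Dg

/-!
# Row 212, GEO engine (helper28): the identity is an isomorphism of pieces
-/

set_option autoImplicit false
set_option linter.unusedSectionVars false
noncomputable section
open scoped Manifold ContDiff Topology InnerProductSpace
open MeasureTheory Set Function

namespace Crest.Agent.X212
open An Cyf70 M

variable {κ lam ν : Type} [Fintype κ] [Fintype lam] [Fintype ν] [DecidableEq ν] {X : Mf 4} {nc : ℕ}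

namespace Sw.Bg.OK
variable {b : Bg X.I X.M κ lam ν nc} (h : b.OK) (x : X.M)
include h

theorem p_vol : b.m.p x * b.vol x = b.vol x := by
  simp only [vol, mul_smul_comm, Finset.mul_sum, ← mul_assoc, (h.m.cl x trivial).pl]

theorem vol_p : b.vol x * b.m.p x = b.vol x := by
  simp only [vol, smul_mul_assoc, Finset.sum_mul, mul_assoc, (h.m.cl x trivial).pr]

theorem p_pp : b.m.p x * b.pp x = b.pp x := by
  rw [pp, mul_smul_comm, mul_sub, h.p_vol, h.m.pidem x trivial]

theorem pp_p : b.pp x * b.m.p x = b.pp x := by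
  rw [pp, smul_mul_assoc, sub_mul, h.vol_p, h.m.pidem x trivial]

theorem p_pm : b.m.p x * b.pm x = b.pm x := by
  rw [pm, mul_smul_comm, mul_add, h.p_vol, h.m.pidem x trivial]

theorem iso : b.Iso b (.refl _) (fun x j a => b.B.P j a x) b.m.p 0 where
  g := ⟨_, Eqv71.geq_refl h.B h.G⟩
  su x _ := (h.cc.sp x).contMDiffWithinAt
  sα _ := contMDiffOn_const
  pα _ _ _ := by simp
  uu x _ := by rw [Wz78.Sym.trn (h.m.psym x trivial)]; exact h.m.pidem x trivial
  uu' x _ := by rw [Wz78.Sym.trn (h.m.psym x trivial)]; exact h.m.pidem x trivial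
  J x _ := (h.m.Jp x trivial).symm
  ρ x _ j := by
    rw [(h.m.cl x trivial).proj, (h.m.cl x trivial).pl]
    exact (h.m.cl x trivial).pr j
  A x _ a := by
    have := h.cc.par a x
    rw [add_sub] at this
    simp only [Pi.zero_apply, zero_smul, add_zero, (h.B.pr x).symm _ a]
    exact (congrArg (fun y => _ + y * _ - _) (h.cc.proj a x)).trans this
  ms x _ := by
    show b.ms x * _ = _
    rw [← h.msp x, mul_assoc, h.pp_p, ← mul_assoc, ← mul_assoc, h.p_pm]
  om x _ s := by
    show b.om x s = _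
    have e : ∀ s, b.om x s = ∑ t, b.B.sd x s t * b.om x t := fun s => by
      conv_lhs => rw [← h.omp x]
      simp [p2]
    rw [← Fintype.sum_prod_type' fun a a' => b.B.P s.1 a x * b.B.P s.2 a' x * b.om x (a, a'), e]
    simp only [← Eqv71.P2_sd h.B x s, Finset.sum_mul, mul_assoc]
    rw [Finset.sum_comm]
    exact Finset.sum_congr rfl fun r _ => by rw [← Finset.mul_sum, ← e, Eqv71.sq2, mul_assoc]
  w := rfl

end Sw.Bg.OK

namespace Sw

theorem BIso.refl {N : Type} {𝓔 : Type*} [Fintype N] {en : 𝓔 → En3 κ lam ν} {ty : N → 𝓔}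
    {P : Pz X nc fun i => en (ty i)} (h : P.bg.OK) :
    BIso P P (.refl _) Eq (fun _ _ => 1) (fun x j a => P.bg.B.P j a x) P.bg.m.p 0 where
  src := rfl
  tgt := rfl
  iso := h.iso
  Ξ _ _ := rfl
  ρ _ := rfl
  η j y := by
    have e : P.bg.ta j ⟨0, 0⟩ = 0 := funext fun _ => by ext; simp [Bg.ta, PiLp.inner_apply]
    have := (h.ct j).η.pos y
    simp only [e, Kop92.K, cs, Pi.zero_apply, zero_apply, mul_zero, integral_zero,
      neg_zero, Complex.ofReal_zero, zero_mul, Complex.exp_zero, Complex.one_re, Complex.one_im,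
      one_smul, zero_smul, add_zero]
    rw [← this]
    exact (DFunLike.congr_fun (h.p_pp _) _).symm
  nc i _ e := ⟨0, e ▸ by
    rcases k : P.nk i with _ | K
    · exact .inl ⟨fun _ h => (nomatch k.symm.trans h), fun _ h => nomatch k.symm.trans h⟩
    · exact .inr ⟨rfl, K, k, K, k, by simp, by simp, fun x _ => ⟨trivial, by simp⟩⟩⟩
  inj _ _ _ _ e e' := e ▸ e' ▸ .rfl
  l i := .inr ⟨i, rfl⟩
  r' i := .inr ⟨i, rfl⟩
  gau _ := ⟨contMDiff_const, fun _ => norm_one⟩
  U _ _ _ _ _ _ _ _ := rfl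
  u _ _ _ _ _ _ _ := by simp [cs]

end Sw

namespace Flo2

theorem rel_refl {N : Type} (p : Option N) : Option.Rel Eq p p := by
  cases p
  exacts [.none, .some rfl]

theorem wl_refl {N : Type} {p q : Option N} (h : p = q) :
    (p = none ∧ q = none) ∨ ∃ i ∈ p, ∃ i' ∈ q, i = i' := by
  subst h
  cases p <;> simp

theorem Gc.gau_zero (g : Gc κ lam ν) (p i) : g.gau p (-0) i = fun _ => 1 :=
  funext fun _ => by simp [Gc.gau]

theorem Gc.OK.fc {g : Gc κ lam ν} (h : g.OK) (D) : g.Fc g D id (.refl _) 0 :=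
  ⟨injective_id, rfl, Eq, fun _ _ e => e ▸ rfl, fun _ => wl_refl rfl, rel_refl _,
    rel_refl _, rel_refl _, fun t _ => ⟨_, _, _, _, fun i _ => (g.gau_zero _ i).symm,
      .refl (h.fam.ok t (h.Q.ge trivial)).bg⟩⟩

end Flo2

end Crest.Agent.X212
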