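import Crest.Agent.X212.Geo28.Bas

/-!
# Row 212, layer GEO (helper28): the cells of an end, points of cobordisms and of caps
-/

set_option autoImplicit false
set_option linter.unusedSectionVars false

open Set Filter Topology Function Module
open scoped ContDiff Manifold
open Crest.Agent.R208 Crest.Agent.R208.F
open Crest.Agent.X212.Dr59 (Cs Cl Ex HZ Lat ip pm df psh)
open Crest.Agent.X212.Orx52 (Pos pr oR)
open Crest.Agent.X212.Rfl19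

noncomputable section

universe u

namespace Crest.Agent.X212.Geo28
open Bor5.T Flo2

/-- a cylinder, with ends that match eventually -/
def Pm.WCyl {A : O3} (T : Pm (some A) (some A) none) : Prop :=
  ∃ φ : (A.Y.M × ℝ) ≃ₘ^∞⟮IY A, T.X.I⟯ T.M, Pos (IY A) T.X.I φ univ (pr A.o oR) T.X.o ∧
    Ag atBot φ (Nc.k (A := A) T.ki) ∧ Ag atTop φ (Nc.k (A := A) T.ko)

theorem Pm.IsCyl.w {A : O3} {T : Pm (some A) (some A) none} (h : T.IsCyl) : T.WCyl :=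
  let ⟨φ, h1, h2, h3⟩ := h
  ⟨φ, h1, ⟨2, (eventually_lt_atBot (-2)).mono fun t ht y => by
    rw [← h2 y (t + 2) (by linarith), add_sub_cancel_right]⟩,
    ⟨-2, (eventually_gt_atTop 2).mono fun t ht y => by
      rw [← h3 y (t + -2) (by linarith), neg_add_cancel_right]⟩⟩

theorem Pm.WCyl.wk {A : O3} {T T' : Pm (some A) (some A) none} (h : T.WCyl) (h' : T'.WCyl)
    (n : T.nb = 0) (n' : T'.nb = 0) : Nonempty (T.Wk T') := by
  obtain ⟨φ, h1, h2, h3⟩ := h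
  obtain ⟨ψ, k1, k2, k3⟩ := h'
  have s : Pos T.X.I (IY A) φ.symm univ T.X.o (pr A.o oR) :=
    (Orx52.Pos.symm (φ := φ.toPartialDiffeomorph) h1 (subset_univ _)).mono
      fun y _ => ⟨φ.symm y, trivial, φ.apply_symm_apply y⟩
  have e : ∀ l : Filter ℝ, Ag l ((φ.symm.trans ψ) ∘ φ) ψ := fun l =>
    ag_of_eq (.of_forall fun _ _ => congrArg ψ (φ.symm_apply_apply _))
  exact ⟨Pm.wk0 ⟨φ.symm.trans ψ, k1.comp s (fun y _ => ψ.isLocalDiffeomorph y)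
    (fun y _ => φ.symm.isLocalDiffeomorph y) (mapsTo_univ _ _)⟩
    (ag_trans nd_bot (ag_trans nd_bot (ag_symm nd_bot (ag_comp h2 _)) (e _)) k2)
    (ag_trans nd_top (ag_trans nd_top (ag_symm nd_top (ag_comp h3 _)) (e _)) k3) n n'⟩

theorem ClsStmt.ki (h : ClsStmt) {A : O3} {b x} (T : Pm (some A) b x) (d : T.L) : ∃! s, T.ki.Cl d s :=
  h.nk A _ _ T.ki isOpen_Iio ordConnected_Iio nonempty_Iio d

theorem ClsStmt.ko (h : ClsStmt) {B : O3} {a x} (T : Pm a (some B) x) (d : T.L) : ∃! s, T.ko.Cl d s :=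
  h.nk B _ _ T.ko isOpen_Ioi ordConnected_Ioi nonempty_Ioi d

theorem PinStmt.pos (h : PinStmt) {a b x} (T : Pm a b x) {e : T.Fm} (he : Cs T.X.I 2 univ e)
    (hp : 0 < T.X.ip e e) : ∃ e, T.Fo e ∧ 0 < T.X.ip e e :=
  let ⟨e', h1, _, h2⟩ := h _ _ _ T e he
  ⟨e', h1, by rwa [h2 e' h1.cl, M4.ip, Dr59.ip_comm h1.cl.dg, ← M4.ip, h2 e he.cl]⟩

theorem M4.Dif.ps_pm {X X' : M4} (φ : X.Dif X') {d : X.L} {d' : X'.L} (hd : Pb φ.φ univ d' d)
    {η : X'.Fm} (hη : Cs X'.I 2 univ η) (h : X.Ps d (pm X.I X'.I φ.φ η)) : X'.Ps d' η := by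
  have e : pm X.I X'.I φ.φ η = φ.symm.ps η := (φ.symm.ps_eq η).symm
  have := φ.ps_ps hd (e ▸ (φ.symm.cs hη).mono (subset_univ _)) h
  rwa [φ.ps_eq, e, show pm X'.I X.I φ.φ.symm (φ.symm.ps η) = η from φ.symm.pm_ps η] at this

variable {K : Sk.{u}} {Q : Prd} (E : Eng K Q) (H : Lvs)

/-- the idempotent points and the `U`-cells of an end -/
structure Ob (A : Q3) : Type u where
  e : K.ED (E.ob A)
  u : K.UD (E.ob A)
  re : ∀ s, ∃ (C : Pm (some A.toO3) (some A.toO3) none) (d : C.L), C.IsCyl ∧ C.nb = 0 ∧ C.ki.Cl d s ∧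
    E.Rep (some A) (some A) (e.e (E.lab A s)) C d 0
  ru : ∀ s, ∃ (C : Pm (some A.toO3) (some A.toO3) none) (d : C.L), C.IsCyl ∧ C.nb = 1 ∧ C.Bxs ∧
    C.ki.Cl d s ∧ E.Rep (some A) (some A) (u.U (E.lab A s)) C d 0

namespace Eng

/-- `σ` is a point of the cobordism `C` -/
def RC {A B : Q3} (C : Cob A B) (σ : K.F (E.ob A) (E.ob B)) (d : C.L) : Prop :=
  ∃ e η, OnC C e ∧ E.Rep (some A) (some B) σ e.pm d η

/-- `σ` is a point of the cap `C` -/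
def RP {B : Q3} (C : Cp B) (σ : K.F K.one (E.ob B)) (d : C.L) : Prop :=
  ∃ e, OnP C e ∧ E.Rep none (some B) σ e.pm d C.η

include H

theorem ob_ne (A : Q3) : Nonempty (Ob E A) := by
  obtain ⟨C, c1, c2, -⟩ := H.cyl.ex A.toO3 0
  obtain ⟨C', k1, k2, k3⟩ := H.cyl.ex A.toO3 1
  choose d hd using fun s => ((H.cyl.cl _ C c1).1 s).exists
  choose d' hd' using fun s => ((H.cyl.cl _ C' k1).1 s).exists
  choose e he using fun s => E.ex1' (some A) (some A) C (d s) 0 C.zr_zero.fo nofun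
  choose v hv h1 h2 using fun s => E.U A C' k1 k2 (d' s)
  refine ⟨⟨⟨fun c => e ((E.lab A).symm c), fun c => E.pt (he _), fun c => ?_, fun c => ?_, fun c => ?_⟩,
    ⟨fun c => v ((E.lab A).symm c), fun c => E.pt (hv _), fun c => ?_, fun c => ?_, fun c => ?_,
      fun c => ⟨h1 _, h2 _⟩⟩, fun s => ⟨C, d s, c1, c2, hd s, ?_⟩, fun s => ⟨C', d' s, k1, k2, k3, hd' s, ?_⟩⟩⟩
  · exact (E.hs (he _) _ (hd _)).trans (Equiv.apply_symm_apply _ _)
  · exact (E.ht (he _) _ (((H.cyl.cl _ C c1).2 _ _).1 (hd _))).trans (Equiv.apply_symm_apply _ _)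
  · exact E.out H (he _) (he _) c1 c2 (c2.trans_le zero_le_one) (((H.cyl.cl _ C c1).2 _ _).1 (hd _))
      (hd _) nofun
  · exact (E.hs (hv _) _ (hd' _)).trans (Equiv.apply_symm_apply _ _)
  · exact (E.ht (hv _) _ (((H.cyl.cl _ C' k1).2 _ _).1 (hd' _))).trans (Equiv.apply_symm_apply _ _)
  · have := E.tp (hv ((E.lab A).symm c)) (H.cyl.top A C' k1).1 0 ((H.cyl.top A C' k1).2.2 _)
    rwa [k2, show (0 : ℚ) - 2 * (((1 : Fin 2) : ℕ) : ℚ) = -2 by norm_num] at this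
  · simpa only [Equiv.symm_apply_apply] using he s
  · simpa only [Equiv.symm_apply_apply] using hv s

variable {E}

/-- points of isomorphic cobordisms -/
theorem RC.nat {A B : Q3} {C C' : Cob A B} {σ σ' d d'} (h : E.RC C σ d) (h' : E.RC C' σ' d')
    (φ : W4.Dif C.toW4 C'.toW4) (hi : Ag atBot (φ.φ ∘ C.ki) C'.ki) (ho : Ag atTop (φ.φ ∘ C.ko) C'.ko)
    (hd : Pb φ.φ univ d' d) : K.Htp σ σ' :=
  let ⟨_, _, h1, h2⟩ := h
  let ⟨_, _, k1, k2⟩ := h'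
  E.htp_wk H h2 k2 (Pm.wk0 ⟨φ.φ, φ.pos⟩
    (ag_trans nd_bot (ag_trans nd_bot (ag_comp h1.1 _) hi) (ag_symm nd_bot k1.1))
    (ag_trans nd_top (ag_trans nd_top (ag_comp h1.2 _) ho) (ag_symm nd_top k1.2)) rfl rfl) hd nofun

theorem RC.htp {A B : Q3} {C : Cob A B} {σ σ' d} (h : E.RC C σ d) (h' : E.RC C σ' d) : K.Htp σ σ' :=
  h.nat H h' ⟨_, (M4.Dif.refl (m4 C.toW4)).pos⟩ ag_refl ag_refl pb_id

/-- points of isomorphic caps -/
theorem RP.nat {B : Q3} {C C' : Cp B} {σ σ' d d'} (h : E.RP C σ d) (h' : E.RP C' σ' d')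
    (φ : W4.Dif C.toW4 C'.toW4) (ho : Ag atTop (φ.φ ∘ C.ko) C'.ko) (hd : Pb φ.φ univ d' d)
    (hs : C.Seg d C.η (pm C.X.P.I C'.X.P.I φ.φ C'.η)) : K.Htp σ σ' :=
  let ⟨_, h1, h2⟩ := h
  let ⟨_, k1, k2⟩ := h'
  E.htp_wk H h2 k2 (Pm.wk0 ⟨φ.φ, φ.pos⟩ trivial
    (ag_trans nd_top (ag_trans nd_top (ag_comp h1.1 _) ho) (ag_symm nd_top k1.1)) rfl rfl) hd
    fun _ => ⟨h1.2, k1.2, hs⟩

theorem RP.htp {B : Q3} {C : Cp B} {σ σ' d} (h : E.RP C σ d) (h' : E.RP C σ' d) (hp : C.Ps d C.η) :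
    K.Htp σ σ' :=
  h.nat H h' ⟨_, (M4.Dif.refl (m4 C.toW4)).pos⟩ ag_refl pb_id
    (by
      show C.Seg d C.η (pm C.X.P.I C.X.P.I id C.η)
      rw [Dr59.pm_id]
      exact M4.Ps.seg (X := m4 C.toW4) hp)

end Eng

namespace Ob
variable {E}
include H

/-- every point absorbs the idempotent at the outgoing end -/
theorem out {a} {B : Q3} (o : Ob E B) {σ : K.F (E.en a) (E.ob B)} {T d η}
    (h : E.Rep a (some B) σ T d η) (h1 : T.nb ≤ 1)
    (hp : a = none → T.Zr η ∧ T.X.Ps d η) : o.e.Out σ := by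
  obtain ⟨s, hs, -⟩ := H.cls.ko T d
  obtain ⟨C, dC, c1, c2, c3, c4⟩ := o.re s
  rw [← show K.t σ = E.lab B s from E.ht h s hs] at c4
  exact E.out H h c4 c1 c2 h1 hs c3 hp

/-- every point absorbs the idempotent at the incoming end -/
theorem inn {A : Q3} {b} (o : Ob E A) {σ : K.F (E.ob A) (E.en b)} {T d η}
    (h : E.Rep (some A) b σ T d η) (h1 : T.nb = 0) : o.e.In σ := by
  obtain ⟨s, hs, -⟩ := H.cls.ki T d
  obtain ⟨C, dC, c1, c2, c3, c4⟩ := o.re s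
  rw [← show K.s σ = E.lab A s from E.hs h s hs] at c4
  exact E.inn H h c4 c1 c2 h1 hs c3

/-- every point commutes with `U` -/
theorem com {A B : Q3} (o : Ob E A) (o' : Ob E B) {σ : K.F (E.ob A) (E.ob B)} {T d η}
    (h : E.Rep (some A) (some B) σ T d η) (h1 : T.nb = 0) : ∃ τ, K.Cmp τ (o.u.U (K.s σ)) σ ∧ K.Cmp τ σ (o'.u.U (K.t σ)) := by
  obtain ⟨s, hs, -⟩ := H.cls.ki T d
  obtain ⟨t, ht, -⟩ := H.cls.ko T d
  obtain ⟨C, dC, c1, c2, c3, c4, c5⟩ := o.ru s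
  obtain ⟨C', dC', k1, k2, k3, k4, k5⟩ := o'.ru t
  rw [show K.s σ = E.lab A s from E.hs h s hs, show K.t σ = E.lab B t from E.ht h t ht]
  exact E.com H h c5 k5 c1 k1 c2 k2 c3 k3 h1 hs ht c4 k4

theorem eU {A : Q3} (o : Ob E A) (c : K.L (E.ob A)) : o.e.Out (o.u.U c) := by
  obtain ⟨s, rfl⟩ := (E.lab A).surjective c
  obtain ⟨C, d, -, c2, -, -, c5⟩ := o.ru s
  exact o.out H c5 c2.le nofun

/-- a point of a cylinder is the idempotent -/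
theorem cyl {A : Q3} (o : Ob E A) {σ : K.F (E.ob A) (E.ob A)} {T d η}
    (h : E.Rep (some A) (some A) σ T d η) (hT : T.WCyl) (h1 : T.nb = 0) : K.Htp σ (o.e.e (K.s σ)) := by
  obtain ⟨s, hs, -⟩ := H.cls.ki T d
  obtain ⟨C, dC, c1, c2, c3, c4⟩ := o.re s
  obtain ⟨φ⟩ := hT.wk c1.w h1 c2
  obtain ⟨d', hd⟩ := φ.toDif.exists_pb d
  obtain rfl : d' = dC := ((H.cyl.cl _ C c1).1 s).unique
    ((H.cls.agi _ T.ki C.ki φ.φ univ d d' s isOpen_univ ⟨0, fun _ _ => trivial⟩ φ.ki hd).1 hs) c3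
  rw [show K.s σ = E.lab A s from E.hs h s hs]
  exact E.htp_wk H h c4 φ hd nofun

end Ob

end Crest.Agent.X212.Geo28
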