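import Crest.Agent.X212.Geo28.Tp
import Crest.Agent.X212.Geo28.Re

/-!
# Row 212, layer GEO (helper28): the interface of the engine

`Eng K Q` : the skeleton `K` contains points for all pieces, intervals between them, neck families,
caps and pentagons, with their marks.
-/

set_option autoImplicit false
set_option linter.unusedSectionVars false

open Set Filter Topology Function Module
open scoped ContDiff Manifold
open Crest.Agent.R208 Crest.Agent.R208.F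
open Crest.Agent.X212.Dr59 (Cs Cl Ex HZ Lat ip pm)
open Crest.Agent.X212.Orx52 (Pos pr oR)

noncomputable section

universe u

namespace Crest.Agent.X212.Geo28

open Bor5.T Flo2

/-- the piece is a cylinder -/
def Pm.IsCyl {A : O3} (T : Pm (some A) (some A) none) : Prop :=
  ∃ φ : (A.Y.M × ℝ) ≃ₘ^∞⟮IY A, T.X.I⟯ T.M, Pos (IY A) T.X.I φ univ (pr A.o oR) T.X.o ∧
    (∀ y, ∀ t < (0 : ℝ), φ (y, t - 2) = Nc.k (A := A) T.ki (y, t)) ∧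
    ∀ y, ∀ t > (0 : ℝ), φ (y, t + 2) = Nc.k (A := A) T.ko (y, t)

/-- a closed manifold as a piece -/
def clP (W : W4) (h : CompactSpace W.M) : Pm none none none where
  X := m4 W
  ki := ()
  ko := ()
  k3 := ()
  io _ _ := le_rfl
  i3 _ _ := le_rfl
  o3 _ _ := le_rfl
  cpt T := IsClosed.isCompact (by simp only [Ec.tm, Pi.zero_apply]; exact isClosed_const)
  nb := 0
  bx := Fin.elim0
  src j := j.elim0
  core j := j.elim0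

/-- ends, points that represent pieces, caps -/
structure Pre (K : Sk.{u}) : Type (max u 1 + 1) where
  ob : Q3 → K.E
  lab : ∀ A, A.L ≃ K.L (ob A)
  Rep : ∀ a b : Option Q3, K.F (a.elim K.one ob) (b.elim K.one ob) →
    ∀ T : Pm (vo a) (vo b) none, T.L → T.Fm → Prop
  Rep3 : ∀ A B x : Q3, K.F3 (ob A) (ob B) (ob x) →
    ∀ T : Pm (some A.toO3) (some B.toO3) (some x.toO3), T.L → Prop
  cap : ∀ G : CG, Set G.N.L → K.Cap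

namespace Pre
variable {K : Sk.{u}} (E : Pre K)

/-- the end of a vertex -/
abbrev en (a : Option Q3) : K.E := a.elim K.one E.ob

/-- the label of a class -/
def Lab : ∀ a : Option Q3, LO (vo a) → K.L (E.en a) → Prop
  | none, _, _ => True
  | some A, s, c => c = E.lab A s

end Pre

/-- a wall is crossed once -/
def M4.Crs (X : M4) (d : X.L) (η η' : X.Fm) : Prop := ∃ c, Cs X.I 2 univ c ∧ Cur d c ∧
  0 < X.ip (η - c) (η - c) ∧ 0 < X.ip (η' - c) (η' - c) ∧ X.ip (η - c) (η' - c) < 0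

/-- the marks of a reflection path -/
structure Mrk {K : Sk.{u}} (E : Pre K) {G : CG} {a : Option Q3} {B C : Q3} (P : PG G a B C)
    (s : Bool) (k : P.X.L) (Γ : K.F (E.en a) (E.en a)) : Prop where
  s' : ∀ c, P.X.ki.Cl k c → E.Lab a c (K.s Γ)
  t' : ∀ c, P.X.ko.Cl k c → E.Lab a c (K.t Γ)
  tp : a ≠ none → HZ P.X.X.I 1 (univ : Set P.X.M) → ∀ x, P.X.X.Deg k x → K.tp Γ (x + 1)
  hi0 : a ≠ none → P.X.X.Seg k (P.η k) ((P.ρ s).fm P.η k) → K.hi0 Γ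
  hi1 : a ≠ none → HZ P.X.X.I 1 (univ : Set P.X.M) → P.X.X.Bp 1 → P.X.X.Crs k (P.η k) ((P.ρ s).fm P.η k) → K.hi1 Γ

/-- the cells of a pentagon -/
structure PO {K : Sk.{u}} (E : Pre K) {G : CG} {a : Option Q3} {B C : Q3} (P : PG G a B C)
    (T : P.I1 → P.I2 → P.I3 → Prop) : Type (max u 1) where
  f : P.I1 → K.F (E.en a) (E.ob B)
  g : P.I2 → K.F (E.ob B) (E.ob C)
  h : P.I3 → K.F (E.ob C) (E.en a)
  rf : ∀ d, E.Rep a (some B) (f d) P.X1 d (P.η1 d)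
  rg : ∀ d, E.Rep (some B) (some C) (g d) P.X2 d (P.η2 d)
  rh : ∀ d, E.Rep (some C) a (h d) P.X3 d (P.η3 d)
  pf : (∀ d, K.Pt (f d)) ∧ K.Prp f
  pg : (∀ d, K.Pt (g d)) ∧ K.Prp g
  ph : (∀ d, K.Pt (h d)) ∧ K.Prp h
  D0 : Sk.Dbl (S := K) ⟨_, f, pf.1, pf.2⟩ ⟨_, g, pg.1, pg.2⟩
  D1 : Sk.Dbl (S := K) ⟨_, g, pg.1, pg.2⟩ ⟨_, h, ph.1, ph.2⟩
  Pn : Sk.Pen D0 D1 (E.cap G P.IN) T
  m : Pn.M ≃ P.M
  i : Pn.I0 ≃ P.I0
  rι : ∀ j, E.Rep a a (Pn.ι j) P.X0 (i j) (P.η0 (i j))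
  r1 : ∀ k, (m (Pn.r1 k)).1 = (P.ρ false).r (m k)
  r2 : ∀ k, (m (Pn.r2 k)).1 = (P.ρ true).r (m k)
  h1 : ∀ k, D0.half (Pn.e0 k).1.1 ↔ (P.ρ false).half (m k)
  h2 : ∀ k, D1.half (Pn.e1 k).1.2 ↔ (P.ρ true).half (m k)
  dd1 : ∀ k c, K.dead (K.cp (Pn.R1 k) c).1 ↔ ¬P.Al (m k)
  dd2 : ∀ k c, K.dead (K.cp (Pn.R2 k) c).1 ↔ ¬P.Al (m k)
  k1 : ∀ k, Mrk E P false (m k) (Pn.Γ1 k)
  k2 : ∀ k, Mrk E P true (m k) (Pn.Γ2 k)
  ne : P.IL.Nonempty → Nonempty Pn.IL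

/-- **the engine** -/
structure Eng (K : Sk.{u}) (Q : Prd) : Type (max u 1 + 1) extends Pre K where
  qhs : ∀ A, K.qhs (ob A)
  psc : ∀ A : Q3, Nonempty (Sph A.toO3) → K.psc (ob A)
  sph : ∀ (A : Q3) (s : Sph A.toO3), Injective s.π → Subsingleton A.L →
    K.thin (ob A) ∧ ¬K.dead (ob A)
  pt : ∀ {a b σ T d η}, Rep a b σ T d η → K.Pt σ
  hs : ∀ {a b σ T d η}, Rep a b σ T d η → ∀ c, T.ki.Cl d c → toPre.Lab a c (K.s σ)
  ht : ∀ {a b σ T d η}, Rep a b σ T d η → ∀ c, T.ko.Cl d c → toPre.Lab b c (K.t σ)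
  /-- points over one base, with test forms -/
  ex : ∀ a b (T : Pm (vo a) (vo b) none) (I : Type) (d : I → T.L) (η : I → T.Fm),
    (∀ i, T.Fo (η i)) → (range η).Finite → (a = none → ∀ i, T.X.Ps (d i) (η i)) →
    ∃ σ : I → K.F (toPre.en a) (toPre.en b), (∀ i, Rep a b (σ i) T (d i) (η i)) ∧
      ∃ (β : K.B) (h : ∀ i, K.base (σ i) = β), ∀ e, T.Fo e → ∃ e' : K.T β, ∀ r : ℝ, ∃ R : ℝ,
        ∀ i c, Cur (d i) c → |K.prB (σ i) (h i) e'| ≤ r → |T.X.ip c e| ≤ R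
  ex3 : ∀ (A B x : Q3) (T : Pm (some A.toO3) (some B.toO3) (some x.toO3)) d, T.nb = 0 →
    ∃ σ, Rep3 A B x σ T d
  /-- uniqueness up to homotopy -/
  uq : ∀ {a b σ σ' T T' d d' η η'}, Rep a b σ T d η → Rep a b σ' T' d' η' → ∀ φ : T.Iso T',
    Pb φ.φ univ d' d → (a = none → T.X.Seg d η (pm T.X.I T'.X.I φ.φ η')) → K.Htp σ σ'
  /-- composition -/
  cm : ∀ {a c : Option Q3} {B : Q3} {σ σ₁ σ₂ T T₁ T₂ d d₁ d₂ η η₁ η₂}, Rep a c σ T d η →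
    Rep a (some B) σ₁ T₁ d₁ η₁ → Rep (some B) c σ₂ T₂ d₂ η₂ → ∀ g : Cm (B := B.toO3) T₁ T₂ T,
    g.Rl d d₁ → g.Rr d d₂ → (a = none → g.Fm η η₁ η₂ ∧ T₁.X.Ps d₁ η₁ ∧ T.X.Ps d η) → K.Cmp σ σ₁ σ₂
  /-- capping along a rational homology sphere -/
  ci : ∀ {A B x : Q3} {L σ₂ T₁ T₂ d₁ d₂ η₂} (T : Pm (some A.toO3) (some B.toO3) none) (d : T.L),
    Rep3 A B x L T₁ d₁ → Rep (some x) none σ₂ T₂ d₂ η₂ → ∀ g : Cp3 (A := x.toO3) T₁ T₂ T,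
    g.Rl d d₁ → g.Rr d d₂ → ∃ σ ρ η, K.CapI σ ρ L σ₂ ∧ Rep (some A) (some B) ρ T d η
  tp : ∀ {A B : Q3} {σ T d η}, Rep (some A) (some B) σ T d η → HZ T.X.I 1 (univ : Set T.M) →
    ∀ x, T.X.Deg d x → K.tp σ (x - 2 * T.nb)
  hi1 : ∀ {A B : Q3} {σ T d η}, Rep (some A) (some B) σ T d η → HZ T.X.I 1 (univ : Set T.M) → T.X.Bp 0 →
    T.nb = 0 → K.hi1 σ
  hi0 : ∀ {A B : Q3} {σ T d η}, Rep (some A) (some B) σ T d η → T.nb = 0 →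
    (∃ e, T.Fo e ∧ 0 < T.X.ip e e) → K.hi0 σ
  U : ∀ (A : Q3) (T : Pm (some A.toO3) (some A.toO3) none), T.IsCyl → T.nb = 1 → ∀ d,
    ∃ σ, Rep (some A) (some A) σ T d 0 ∧ K.hi1 σ ∧ (K.psc (ob A) → K.al1 σ)
  ex1 : ∀ (W : W4) (h : CompactSpace W.M) d η, Cs W.X.P.I 2 univ η → Q W d η → W.Ps d η →
    ∃ σ, Rep none none σ (clP W h) d η ∧ K.ex1 σ
  pen : ∀ (G : CG) (a : Option Q3) (B C : Q3) (P : PG G a B C) (T : P.I1 → P.I2 → P.I3 → Prop),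
    (∀ d₁ d₂ d₃, T d₁ d₂ d₃ ↔ P.T d₁ d₂ d₃) → Nonempty (PO toPre P T)

end Crest.Agent.X212.Geo28
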