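import Crest.Agent.X212.Geo28.Ch

/-!
# Row 212, layer GEO (helper28): the engine, the leaves and the pentagons realise every scene
-/

set_option autoImplicit false
set_option linter.unusedSectionVars false

open Set Filter Topology Function Module
open scoped ContDiff Manifold
open Crest.Agent.R208 Crest.Agent.R208.F
open Crest.Agent.X212.Dr59 (Cs Cl Ex HZ Lat ip pm df psh)
open Crest.Agent.X212.Orx52 (Pos pr oR)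
open Crest.Agent.X212.Rod53 (Z2 Loc)
open Crest.Agent.X212.Lab56 (Cls)
open Crest.Agent.X212.Rfl19

noncomputable section

universe u

namespace Crest.Agent.X212.Geo28
open Bor5.T Flo2

variable {K : Sk.{u}} {Q : Prd} (E : Eng K Q) (H : Lvs)

/-- PENT-T: the pentagons of a triad -/
def TriadStmt : Prop := ∀ {A B C : Q3} (c₁ : Cob A B) (c₂ : Cob B C) (c₃ : Cob C A) {τ : Tub}
  {a b e : Z2} (f : Fo τ A.toO3 a) (g : Fo τ B.toO3 b) (h : Fo τ C.toO3 e), T3 τ a b e →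
  Hnd c₁ f g → Hnd c₂ g h → Hnd c₃ h f → ∀ (o : Ob E B) (p₁ : c₁.L → K.F (E.ob A) (E.ob B))
  (p₂ : c₂.L → K.F (E.ob B) (E.ob C)), (∀ d, E.RC c₁ (p₁ d) d) → (∀ d, E.RC c₂ (p₂ d) d) →
  (∃ (X : K.Arr (E.ob A) (E.ob B)) (Y : K.Arr (E.ob B) (E.ob C)) (_ : Sk.Dbl X Y), X.Rp p₁ ∧ Y.Rp p₂) ∧
    ∃ (X : K.Arr (E.ob A) (E.ob B)) (Y : K.Arr (E.ob B) (E.ob C)) (Z : K.Arr (E.ob C) (E.ob A))
      (D1 : Sk.Dbl Y Z) (D2 : Sk.Dbl Z X) (N : K.Cap) (P : Sk.Pen D1 D2 N),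
      X.Rp p₁ ∧ Y.Rp p₂ ∧ N.Has2 ∧ P.Id2 o.e

/-- PENT-N: the pentagon of the non-vanishing statement -/
def NvStmt (R : ℝ) : Prop := ∀ (S : Scene) (P : Pent S Q R) (o : Ob E (S.ob P.j))
  (o₀ : Ob E (S.ob S.i0)), ∃ (A : K.Arr K.one (E.ob (S.ob P.i)))
  (B : K.Arr (E.ob (S.ob P.i)) (E.ob (S.ob P.j))) (C : K.Arr (E.ob (S.ob P.j)) K.one)
  (D0 : Sk.Dbl A B) (D1 : Sk.Dbl B C) (N : K.Cap) (T : A.I → B.I → C.I → Prop) (Pn : Sk.Pen D0 D1 N T),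
    N.Has2 ∧ (∀ i i' : Pn.I0, i = i') ∧ (∃ i τ, K.Htp (Pn.ι i) τ ∧ K.ex1 τ) ∧
      (∀ k, Sk.Kil2 o.u o₀.u (C.f k) ∧ o.e.In (C.f k)) ∧
      ∀ k, ∃ D, Pb P.l (P.W.X.τ ⁻¹' Iio P.β) D P.d ∧ (S.cap P.C).Ps D (S.cap P.C).η ∧
        ∀ σ, E.RP (S.cap P.C) σ D → K.Htp σ (A.f k)

namespace Eng
include H

/-- all classes on a cobordism -/
theorem exC {A B : Q3} (C : Cob A B) :
    ∃ p : C.L → K.F (E.ob A) (E.ob B), (∀ d, E.RC C (p d) d) ∧ K.Prp p := by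
  classical
  obtain ⟨e, he⟩ := H.cob.1 A B C
  obtain ⟨p, h1, β, h2, h3⟩ := E.ex (some A) (some B) e.pm C.L id 0 (fun _ => e.pm.zr_zero.fo)
    ((finite_singleton 0).subset (range_subset_iff.2 fun _ => rfl)) nofun
  obtain ⟨D, k1, k2⟩ := H.fin (some A) (some B) e.pm
  have : ∀ x : D, ∃ e' : K.T β, ∀ r : ℝ, ∃ R : ℝ, ∀ d c, Cur d c → |K.prB (p d) (h2 d) e'| ≤ r →
      |e.pm.X.ip c x| ≤ R := fun x => by
    obtain ⟨y, y1, -, y2⟩ := H.pin _ _ _ e.pm x (k1 _ x.2)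
    obtain ⟨e', k⟩ := h3 y y1
    exact ⟨e', fun r => (k r).imp fun R k d c hc hr => y2 c (Nvg56.cur_cl hc) ▸ k d c hc hr⟩
  choose t ht using this
  refine ⟨p, fun d => ⟨e, 0, he, h1 d⟩, β, h2, Finset.univ.image t, fun r => ?_⟩
  choose R hR using fun x => ht x r
  refine (k2 (∑ x, |R x|)).subset fun d hd => ?_
  obtain ⟨c, hc⟩ := Nvg56.exists_cur d
  exact ⟨trivial, c, hc, fun x hx => (hR ⟨x, hx⟩ d c hc (hd _ (Finset.mem_image_of_mem _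
    (Finset.mem_univ _)))).trans ((le_abs_self _).trans (Finset.single_le_sum (f := fun x => |R x|)
      (fun _ _ => abs_nonneg _) (Finset.mem_univ _)))⟩

/-- all good classes on a cap -/
theorem exP {B : Q3} (C : Cp B) : ∃ p : ∀ d, C.Ps d C.η → K.F K.one (E.ob B),
    (∀ d h, E.RP C (p d h) d) ∧ ∀ e, Cs C.X.P.I 2 univ e → ∃ (β : K.B) (hβ : ∀ d h, K.base (p d h) = β)
      (D : Finset (K.T β)), ∀ r : ℝ, ∃ R : ℝ, ∀ d h c₀, Cur d c₀ →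
        (∀ e' ∈ D, |K.prB (p d h) (hβ d h) e'| ≤ r) → |ip C.X.P.I C.o c₀ e| ≤ R := by
  obtain ⟨e, he⟩ := H.cob.2 B C
  obtain ⟨p, h1, β, h2, h3⟩ := E.ex none (some B) e.pm {d // C.Ps d C.η} Subtype.val (fun _ => C.η)
    (fun _ => he.2.fo) ((finite_singleton C.η).subset (range_subset_iff.2 fun _ => rfl)) fun _ d => d.2
  refine ⟨fun d h => p ⟨d, h⟩, fun d h => ⟨e, he, h1 ⟨d, h⟩⟩, fun x hx => ?_⟩
  obtain ⟨y, y1, -, y2⟩ := H.pin _ _ _ e.pm x hx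
  obtain ⟨e', k⟩ := h3 y y1
  refine ⟨β, fun d h => h2 ⟨d, h⟩, {e'}, fun r => ?_⟩
  obtain ⟨R, k⟩ := k r
  exact ⟨R, fun d h c hc hr => (congrArg abs (y2 c (Nvg56.cur_cl hc))).ge.trans
    (k ⟨d, h⟩ c hc (hr _ (Finset.mem_singleton_self _)))⟩

omit H in
theorem rc_of {A B : Q3} {X : M4} (e : En2 (some A.toO3) (some B.toO3) X) (d : X.L) :
    ∃ σ, E.Rep (some A) (some B) σ e.pm d 0 :=
  E.ex1' (some A) (some B) e.pm d 0 e.pm.zr_zero.fo nofun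

omit H in
theorem rp_of {B : Q3} {C : Cp B} {e} (h : OnP C e) {d : C.L} (hp : C.Ps d C.η) :
    ∃ σ, E.Rep none (some B) σ e.pm d C.η :=
  E.ex1' none (some B) e.pm d C.η h.2.fo fun _ => hp

theorem nz {S : Q3} {T : Pm (some S.toO3) none none} (h : T.Nz) {σ : K.F (E.ob S) K.one} {d η}
    (hσ : E.Rep (some S) none σ T d η) : K.Nz σ := by
  obtain ⟨A, B, L, T', g, d', h1, h2, h3⟩ := h d
  obtain ⟨l, hl, -⟩ := H.cls.l g.toGl3 d'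
  obtain ⟨x, hx⟩ := E.ex3 A B S L l g.nL
  obtain ⟨y, ρ, η', k1, k2⟩ := E.ci T' d' hx hσ g hl h1
  exact ⟨_, _, y, ρ, x, E.qhs A, E.qhs B, k1, E.hi1 k2 h2 h3 g.nT⟩

variable {E}

omit H in
theorem RC.pt {A B : Q3} {C : Cob A B} {σ d} (h : E.RC C σ d) : K.Pt σ :=
  let ⟨_, _, _, h⟩ := h
  E.pt h

theorem RC.comp {A B C : Q3} {c₁ : Cob A B} {c₂ : Cob B C} {c : Cob A C} {σ σ₁ σ₂ d d₁ d₂}
    (h : E.RC c σ d) (h₁ : E.RC c₁ σ₁ d₁) (h₂ : E.RC c₂ σ₂ d₂)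
    (g : Gl c₁.toW4 c₂.toW4 c.toW4 c₁.ko c₂.ki) (hi : Ag atBot (g.fl ∘ c₁.ki) c.ki)
    (ho : Ag atTop (g.fr ∘ c₂.ko) c.ko) (hd : g.Rs d d₁ d₂) : K.Cmp σ σ₁ σ₂ := by
  obtain ⟨e₁, e₂, e, g', k1, k2, k, k3⟩ := H.gln.c c₁ c₂ c g hi ho
  obtain ⟨τ₁, l1⟩ := E.rc_of e₁ d₁
  obtain ⟨τ₂, l2⟩ := E.rc_of e₂ d₂
  obtain ⟨τ, l⟩ := E.rc_of e d
  exact (E.cm l l1 l2 g' (k3 _ _ _ hd).1 (k3 _ _ _ hd).2 nofun).congr (h.htp H ⟨_, _, k, l⟩)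
    (h₁.htp H ⟨_, _, k1, l1⟩) (h₂.htp H ⟨_, _, k2, l2⟩)

theorem RP.comp {B C : Q3} {c₁ : Cp B} {c₂ : Cob B C} {c : Cp C} {σ σ₁ σ₂ d d₁ d₂}
    (h : E.RP c σ d) (h₁ : E.RP c₁ σ₁ d₁) (h₂ : E.RC c₂ σ₂ d₂)
    (g : Gl c₁.toW4 c₂.toW4 c.toW4 c₁.ko c₂.ki) (ho : Ag atTop (g.fr ∘ c₂.ko) c.ko)
    (hd : g.Rs d d₁ d₂) (he : g.Ext0 c.η c₁.η) (p₁ : c₁.Ps d₁ c₁.η) (p : c.Ps d c.η) :
    K.Cmp σ σ₁ σ₂ := by
  obtain ⟨e₁, e₂, e, g', k1, k2, k, k4, k3⟩ := H.gln.p c₁ c₂ c g ho he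
  obtain ⟨τ₁, l1⟩ := E.rp_of k1 p₁
  obtain ⟨τ₂, l2⟩ := E.rc_of e₂ d₂
  obtain ⟨τ, l⟩ := E.rp_of k p
  exact (E.cm l l1 l2 g' (k3 _ _ _ hd).1 (k3 _ _ _ hd).2 fun _ => ⟨k4, p₁, p⟩).congr
    (h.htp H ⟨_, k, l⟩ p) (h₁.htp H ⟨_, k1, l1⟩ p₁) (h₂.htp H ⟨_, _, k2, l2⟩)

omit H in
theorem RC.deg {A B : Q3} {C : Cob A B} {σ d} (h : E.RC C σ d) {n : Type} [Fintype n] [DecidableEq n]
    {e : n → C.Fm} {g : n → ℝ} {Z c₀} {x : ℚ} (hL : Lat C.X.P.I C.o univ Z e (Matrix.diagonal g))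
    (h1 : Cs C.X.P.I 2 univ c₀) (h2 : Cur d c₀) (h3 : 4 * (x : ℝ) = C.sq c₀ / (4 * Real.pi ^ 2) -
      2 * Fintype.card n - 3 * ∑ a, (SignType.sign (g a) : ℝ)) : K.tp σ x := by
  obtain ⟨w, η, -, h⟩ := h
  have s := (Fintype.equivFin n).symm
  have k := hL.reindex s
  rw [Matrix.submatrix_diagonal_equiv] at k
  simpa using E.tp h C.h1 x ⟨_, _, _, Z, c₀, k, h1, h2, h3.trans (by
    rw [← s.sum_comp fun a => (SignType.sign (g a) : ℝ)]; rfl)⟩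

omit H in
theorem RC.hi1 {A B : Q3} {C : Cob A B} {σ d} (h : E.RC C σ d) {n : Type} [Fintype n] [DecidableEq n]
    {e : n → C.Fm} {g : n → ℝ} {Z} (hL : Lat C.X.P.I C.o univ Z e (Matrix.diagonal g))
    (hg : ∀ a, g a < 0) : K.hi1 σ := by
  obtain ⟨w, η, -, h⟩ := h
  have s := (Fintype.equivFin n).symm
  have k := hL.reindex s
  rw [Matrix.submatrix_diagonal_equiv] at k
  exact E.hi1 h C.h1 ⟨_, _, _, Z, k, Nat.card_eq_zero.2 (.inl ⟨fun a => a.2.not_gt (hg _)⟩)⟩ rfl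

end Eng

include H in
/-- **the realisation** -/
theorem geo (hT : TriadStmt E) {R : ℝ} (hN : NvStmt E R) (S : Scene) (P : Pent S Q R)
    (hs : K.sph (E.ob (S.ob S.i0))) : ∃ r : Rl2 S K, r.NV P := by
  have o := fun i => (E.ob_ne H (S.ob i)).some
  choose p hp pp using fun i j (c : S.κ i j) => E.exC H (S.cob c)
  choose q hq qq using fun i (c : S.γ i) => E.exP H (S.cap c)
  have s0 := E.sph _ S.s0 S.inj (H.s3 _ S.s0 S.inj)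
  refine ⟨{
    ob i := E.ob (S.ob i)
    qhs i := E.qhs _
    lab i := E.lab _
    psc i := E.psc _
    sph := hs
    U i := (o i).u
    E i := (o i).e
    eU i := (o i).eU H
    pt := p _ _
    isPt c d := (hp _ _ c d).pt
    prp := pp _ _
    s c d s h := let ⟨e, _, h1, h2⟩ := hp _ _ c d; E.hs h2 s ((H.cls.inn _ e d s h1).1 h)
    t c d s h := let ⟨e, _, h1, h2⟩ := hp _ _ c d; E.ht h2 s ((H.cls.out _ e d s h1).1 h)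
    ept c d := let ⟨_, _, _, h⟩ := hp _ _ c d; ⟨(o _).inn H h rfl, (o _).out H h zero_le_one nofun⟩
    comU c d := let ⟨_, _, _, h⟩ := hp _ _ c d; (o _).com H (o _) h rfl
    nat c c' φ d d' := (hp _ _ c d).nat H (hp _ _ c' d') φ
    comp c₁ c₂ c g d d₁ d₂ := (hp _ _ c d).comp H (hp _ _ c₁ d₁) (hp _ _ c₂ d₂) g
    id c φ d s h1 h2 h3 h4 := ?_
    deg c d _ _ _ e g Z c₀ x h1 h2 h3 h4 := ⟨_, .refl (hp _ _ c d).pt, (hp _ _ c d).deg h1 h2 h3 h4⟩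
    tn c d _ _ _ e g Z h1 h2 := ⟨_, .refl (hp _ _ c d).pt, (hp _ _ c d).hi1 h1 h2, rfl⟩
    tp c d e h1 h2 := let ⟨w, _, _, h⟩ := hp _ _ c d
      ⟨_, .refl (E.pt h), E.hi0 h rfl (H.pin.pos w.pm h1 h2)⟩
    bu c c' _ _ _ _ _ _ _ _ _ hv hv' f g r r' d d' d₀ h1 h2 h3 h4 h5 h6 h7 := ?_
    triad c₁ c₂ c₃ _ _ _ _ f g h h1 h2 h3 h4 :=
      hT _ _ _ f g h h1 h2 h3 h4 (o _) _ _ (hp _ _ c₁) (hp _ _ c₂)
    cp := q _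
    ecp c d h := let ⟨_, h1, h2⟩ := hq _ c d h; (o _).out H h2 zero_le_one fun _ => ⟨h1.2, h⟩
    natc c c' φ d d' h1 h2 h3 := ?_
    compc c₁ c₂ c g d d₁ d₂ h1 h2 h3 h₁ h :=
      (hq _ c d h).comp H (hq _ c₁ d₁ h₁) (hp _ _ c₂ d₂) g h1 h2 h3 h₁ h
    bnd := qq _ }, ?_⟩
  · obtain ⟨e, η, k1, k2⟩ := hp _ _ c d
    have := (o _).cyl H k2 ⟨φ, h1, ag_trans nd_bot h2 (ag_symm nd_bot k1.1),
      ag_trans nd_top h3 (ag_symm nd_top k1.2)⟩ rfl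
    rwa [show K.s (p _ _ c d) = E.lab _ s from E.hs k2 s ((H.cls.inn _ e d s k1).1 h4)] at this
  · obtain ⟨L, T, T', w, w', k, k', a1, a2, a3, a4, a5⟩ :=
      H.bu _ S.s0 S.inj _ _ hv hv' f g r r' h1 h2 h3 h4 h5
    obtain ⟨l, l1, l2⟩ := a5 d d' d₀ h6 h7
    obtain ⟨x, hx⟩ := E.ex3 _ _ _ L l k.nL
    obtain ⟨d₂, m, -⟩ := H.cls.r k.toGl3 d
    obtain ⟨d₂', m', -⟩ := H.cls.r k'.toGl3 d'
    obtain ⟨y, hy⟩ := E.ex1' (some (S.ob S.i0)) none T d₂ 0 T.zr_zero.fo nofun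
    obtain ⟨y', hy'⟩ := E.ex1' (some (S.ob S.i0)) none T' d₂' 0 T'.zr_zero.fo nofun
    obtain ⟨σ, ρ, η, n1, n2⟩ := E.ci w.pm d hx hy k l1 m
    obtain ⟨σ', ρ', η', n1', n2'⟩ := E.ci w'.pm d' hx hy' k' l2 m'
    exact ⟨_, σ, σ', ρ, ρ', x, y, y', (hp _ _ c d).htp H ⟨_, _, a1, n2⟩,
      (hp _ _ c' d').htp H ⟨_, _, a2, n2'⟩, s0.1, s0.2, n1, n1', E.nz H a3 hy, E.nz H a4 hy'⟩
  · have a := h3 0 (by simp)
    have b := h3 1 (by simp)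
    simp only [sub_zero, one_smul, zero_smul, add_zero, sub_self, zero_add] at a b
    exact ⟨a, M4.Dif.ps_pm (X := m4 _) (X' := m4 _) ⟨φ.φ, φ.pos⟩ h2 (S.cap c').cs b,
      (hq _ c d _).nat H (hq _ c' d' _) φ h1 h2 h3⟩
  · obtain ⟨A, B, C, D0, D1, N, T, Pn, h1, h2, h3, h4, h5⟩ := hN S P (o _) (o _)
    exact ⟨A, B, C, D0, D1, N, T, Pn, h1, h2, h3, h4, fun k =>
      let ⟨D, k1, k2, k3⟩ := h5 k
      ⟨D, k2, k1, k3 _ (hq _ _ D k2)⟩⟩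

end Crest.Agent.X212.Geo28
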