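import Crest.Agent.X212.Bor5.Th

/-!
# Row 212, layer GEO (helper28): the topological data

`M4` : oriented four-manifolds, `Nc` : charts of necks, `Pm a b x` : pieces with an incoming end, an
outgoing end and a third end, `Iso` : isomorphisms, `Gl3` : gluings, `CG` : the caps of `S² × S¹`,
`PG` : pentagons.  All charts are normalised: `t < 0`, `0 < t`, `0 < t < 4`.
-/

set_option autoImplicit false
set_option linter.unusedSectionVars false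

open Set Filter Topology Function Module
open scoped ContDiff Manifold
open Crest.Agent.R208 Crest.Agent.R208.F
open Crest.Agent.X212.Dr59 (Cs Cl Ex HZ Lat ip pm)
open Crest.Agent.X212.Int54 (Ori)
open Crest.Agent.X212.Orx52 (Pos pr oR)
open Crest.Agent.X212.Rod53 (E4)
open Crest.Agent.X212.Lab56 (Cls)
open Crest.Agent.X212.M (Mf)

noncomputable section

namespace Crest.Agent.X212.Geo28

open Bor5.T

/-- a connected oriented four-manifold -/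
structure M4 : Type 1 where
  X : Mf 4
  [con : ConnectedSpace X.M]
  o : X.M → Ext X.E
  ori : Ori X.I o

attribute [instance] M4.con

namespace M4
variable (X : M4)

abbrev M : Type := X.X.M
abbrev I : ModelWithCorners ℝ X.X.E X.X.H := X.X.I
abbrev Fm : Type := X.M → Ext X.X.E
abbrev L : Type := Cls X.I (univ : Set X.M)

/-- the pairing of two forms -/
abbrev ip (c e : X.Fm) : ℝ := Dr59.ip X.I X.o c e

/-- no reducible solution, for any metric -/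
def Ps (d : X.L) (η : X.Fm) : Prop := ∃ c, Cs X.I 2 univ c ∧ Cur d c ∧ 0 < X.ip (η - c) (η - c)

/-- the same on a triangle -/
def Tri (d : X.L) (η₀ η₁ η₂ : X.Fm) : Prop := ∀ s₀ s₁ s₂ : ℝ, 0 ≤ s₀ → 0 ≤ s₁ → 0 ≤ s₂ →
  s₀ + s₁ + s₂ = 1 → X.Ps d (s₀ • η₀ + s₁ • η₁ + s₂ • η₂)

/-- the same on a segment -/
def Seg (d : X.L) (η η' : X.Fm) : Prop := ∀ s ∈ Icc (0 : ℝ) 1, X.Ps d ((1 - s) • η + s • η')

/-- finitely many test forms see the classes in `S` -/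
def Fin (S : Set X.L) : Prop := ∃ D : Finset X.Fm, (∀ e ∈ D, Cs X.I 2 univ e) ∧
  ∀ C : ℝ, {d | d ∈ S ∧ ∃ c, Cur d c ∧ ∀ e ∈ D, |X.ip c e| ≤ C}.Finite

/-- positive diffeomorphisms -/
structure Dif (X X' : M4) where
  φ : X.M ≃ₘ^∞⟮X.I, X'.I⟯ X'.M
  pos : Pos X.I X'.I φ univ X.o X'.o

/-- the degree of a point: `4 x = c² - 2 b₂ - 3 σ` -/
def Deg (d : X.L) (x : ℚ) : Prop := ∃ (n : ℕ) (e : _root_.Fin n → X.Fm) (g : _root_.Fin n → ℝ)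
  (Z : Set X.M) (c : X.Fm), Lat X.I X.o univ Z e (Matrix.diagonal g) ∧ Cs X.I 2 univ c ∧ Cur d c ∧
    4 * (x : ℝ) = X.ip c c / (4 * Real.pi ^ 2) - 2 * n - 3 * ∑ a, (SignType.sign (g a) : ℝ)

/-- `b⁺ = k` -/
def Bp (k : ℕ) : Prop := ∃ (n : ℕ) (e : _root_.Fin n → X.Fm) (g : _root_.Fin n → ℝ) (Z : Set X.M),
  Lat X.I X.o univ Z e (Matrix.diagonal g) ∧ Nat.card {a // 0 < g a} = k

end M4

/-- the manifold of a `W4` -/
abbrev m4 (W : W4) : M4 :=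
  ⟨Mf.of 4 W.X.P.I W.M (W.X.P.L.toLinearEquiv.finrank_eq.trans (by simp)), W.o, W.ori⟩

/-- the model of a cylinder -/
abbrev IY (A : O3) : ModelWithCorners ℝ (A.Y.E × ℝ) (ModelProd A.Y.H ℝ) := A.Y.I.prod 𝓘(ℝ, ℝ)

/-- a chart of a neck over the times `J` -/
structure Nc (A : O3) (X : M4) (J : Set ℝ) where
  k : PartialDiffeomorph (IY A) X.I (A.Y.M × ℝ) X.M ∞
  tm : X.M → ℝ
  cont : Continuous tm
  src : k.source = univ ×ˢ J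
  tgt : k.target = tm ⁻¹' J
  tmk : ∀ x ∈ k.source, tm (k x) = x.2
  pos : Pos (IY A) X.I k k.source (pr A.o oR) X.o

/-- the class on a neck -/
def Nc.Cl {A : O3} {X : M4} {J : Set ℝ} (k : Nc A X J) (d : X.L) (s : A.L) : Prop :=
  Pb (I' := IY A) (N := A.Y.M × ℝ) k.k (univ ×ˢ J) d (show Cls (IY A) (univ : Set (A.Y.M × ℝ)) from s)

/-- the classes of an end -/
def LO : Option O3 → Type
  | none => Unit
  | some A => A.L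

/-- an end or nothing -/
def Ec (a : Option O3) (X : M4) (J : Set ℝ) : Type :=
  match a with
  | none => Unit
  | some A => Nc A X J

namespace Ec
variable {X X' : M4} {J : Set ℝ}

/-- the time function -/
def tm : ∀ {a : Option O3}, Ec a X J → X.M → ℝ
  | none, _ => 0
  | some _, k => Nc.tm k

/-- the class on the end -/
def Cl : ∀ {a : Option O3}, Ec a X J → X.L → LO a → Prop
  | none, _, _, _ => True
  | some _, k, d, s => Nc.Cl k d s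

/-- `f` matches the ends beyond the depth `r` -/
def Mt (r : ℝ) (f : X.M → X'.M) : ∀ {a : Option O3}, Ec a X J → Ec a X' J → Prop
  | none, _, _ => True
  | some _, k, k' => ∀ y, ∀ t ∈ J, r < |t| → f (Nc.k k (y, t)) = Nc.k k' (y, t)

/-- `f` matches the ends up to a translation, eventually -/
def Ag (l : Filter ℝ) (f : X.M → X'.M) : ∀ {a : Option O3}, Ec a X J → Ec a X' J → Prop
  | none, _, _ => True
  | some _, k, k' => Bor5.T.Ag l (f ∘ Nc.k k) (Nc.k k')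

end Ec

/-- a piece: incoming end, outgoing end, third end, boxes -/
structure Pm (a b x : Option O3) : Type 1 where
  X : M4
  ki : Ec a X (Iio 0)
  ko : Ec b X (Ioi 0)
  k3 : Ec x X (Ioi 0)
  io : ∀ p, ki.tm p < 0 → ko.tm p ≤ 0
  i3 : ∀ p, ki.tm p < 0 → k3.tm p ≤ 0
  o3 : ∀ p, 0 < ko.tm p → k3.tm p ≤ 0
  cpt : ∀ T, IsCompact {p | -T ≤ ki.tm p ∧ ko.tm p ≤ T ∧ k3.tm p ≤ T}
  nb : ℕ
  bx : Fin nb → PartialDiffeomorph (𝓡 4) X.I E4 X.M ∞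
  src : ∀ j, (bx j).source = univ
  core : ∀ j y, 0 ≤ ki.tm (bx j y) ∧ ko.tm (bx j y) ≤ 0 ∧ k3.tm (bx j y) ≤ 0

namespace Pm
variable {a b c x : Option O3} (T : Pm a b x)

abbrev M : Type := T.X.M
abbrev L : Type := T.X.L
abbrev Fm : Type := T.X.Fm

/-- the complement of the ends -/
def Core : Set T.M := {p | 0 ≤ T.ki.tm p ∧ T.ko.tm p ≤ 0 ∧ T.k3.tm p ≤ 0}

/-- closed forms that vanish beyond depth one -/
def Fo (η : T.Fm) : Prop := Cs T.X.I 2 {p | -1 ≤ T.ki.tm p ∧ T.ko.tm p ≤ 1 ∧ T.k3.tm p ≤ 1} η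

/-- finitely many test forms see the classes in `S` -/
def Fin (S : Set T.L) : Prop := ∃ D : Finset T.Fm, (∀ e ∈ D, T.Fo e) ∧
  ∀ C : ℝ, {d | d ∈ S ∧ ∃ c, Cur d c ∧ ∀ e ∈ D, |T.X.ip c e| ≤ C}.Finite

/-- isomorphisms -/
structure Iso (T T' : Pm a b x) extends M4.Dif T.X T'.X where
  ki : Ec.Mt (1 / 2) φ T.ki T'.ki
  ko : Ec.Mt (1 / 2) φ T.ko T'.ko
  k3 : Ec.Mt (1 / 2) φ T.k3 T'.k3
  nb : T.nb = T'.nb
  bx : ∀ j y, φ (T.bx j y) = T'.bx (j.cast nb) y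

end Pm

/-- two ends on a given manifold -/
structure En2 (a b : Option O3) (X : M4) where
  ki : Ec a X (Iio 0)
  ko : Ec b X (Ioi 0)
  io : ∀ p, ki.tm p < 0 → ko.tm p ≤ 0
  cpt : ∀ T, IsCompact {p | -T ≤ ki.tm p ∧ ko.tm p ≤ T ∧ (0 : ℝ) ≤ T}

/-- the piece without boxes -/
abbrev En2.pm {a b : Option O3} {X : M4} (e : En2 a b X) : Pm a b none :=
  ⟨X, e.ki, e.ko, (), e.io, fun _ _ => le_rfl, fun _ _ => le_rfl, e.cpt, 0, Fin.elim0,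
    fun j => j.elim0, fun j => j.elim0⟩

/-- `X` is the union of `X₁` and `X₂` along the ends `k₁`, `k₂` -/
structure Gl3 {A : O3} {X₁ X₂ : M4} (k₁ : Nc A X₁ (Ioi 0)) (k₂ : Nc A X₂ (Iio 0)) (X : M4) where
  n : Nc A X (Ioo 0 4)
  l : PartialDiffeomorph X₁.I X.I X₁.M X.M ∞
  r : PartialDiffeomorph X₂.I X.I X₂.M X.M ∞
  ls : l.source = k₁.tm ⁻¹' Iio 4
  lt : l.target = n.tm ⁻¹' Iio 4
  rs : r.source = k₂.tm ⁻¹' Ioi (-4)
  rt : r.target = n.tm ⁻¹' Ioi 0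
  pl : Pos X₁.I X.I l l.source X₁.o X.o
  pr : Pos X₂.I X.I r r.source X₂.o X.o
  ol : ∀ y, ∀ t ∈ Ioo (0 : ℝ) 4, l (k₁.k (y, t)) = n.k (y, t)
  or : ∀ y, ∀ t ∈ Ioo (0 : ℝ) 4, r (k₂.k (y, t - 4)) = n.k (y, t)

namespace Gl3
variable {A : O3} {X₁ X₂ X : M4} {k₁ : Nc A X₁ (Ioi 0)} {k₂ : Nc A X₂ (Iio 0)} (g : Gl3 k₁ k₂ X)

/-- the class on the left piece -/
def Rl (d : X.L) (d₁ : X₁.L) : Prop := Pb g.l g.l.source d d₁

/-- the class on the right piece -/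
def Rr (d : X.L) (d₂ : X₂.L) : Prop := Pb g.r g.r.source d d₂

/-- the forms on the two pieces -/
def Fm (η : X.Fm) (η₁ : X₁.Fm) (η₂ : X₂.Fm) : Prop :=
  (∀ p, k₁.tm p < 3 → pm X₁.I X.I g.l η p = η₁ p) ∧ ∀ p, -3 < k₂.tm p → pm X₂.I X.I g.r η p = η₂ p

/-- `φ` is `φ₁` on the left and `φ₂` on the right -/
def Mp (φ : X.M → X.M) (φ₁ : X₁.M → X₁.M) (φ₂ : X₂.M → X₂.M) : Prop :=
  (∀ p ∈ g.l.source, φ (g.l p) = g.l (φ₁ p)) ∧ ∀ p ∈ g.r.source, φ (g.r p) = g.r (φ₂ p)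

end Gl3

/-- composition of two pieces -/
structure Cm {a c : Option O3} {B : O3} (T₁ : Pm a (some B) none) (T₂ : Pm (some B) c none)
    (T : Pm a c none) extends Gl3 (A := B) T₁.ko T₂.ki T.X where
  ki : Ec.Mt 0 l T₁.ki T.ki
  ko : Ec.Mt 0 r T₂.ko T.ko
  e : Fin T₁.nb ⊕ Fin T₂.nb ≃ Fin T.nb
  b₁ : ∀ j y, l (T₁.bx j y) = T.bx (e (.inl j)) y
  b₂ : ∀ j y, r (T₂.bx j y) = T.bx (e (.inr j)) y

/-- capping of the third end -/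
structure Cp3 {a b : Option O3} {A : O3} (L : Pm a b (some A)) (Q : Pm (some A) none none)
    (T : Pm a b none) extends Gl3 (A := A) L.k3 Q.ki T.X where
  ki : Ec.Mt 0 l L.ki T.ki
  ko : Ec.Mt 0 l L.ko T.ko
  nL : L.nb = 0
  nQ : Q.nb = 0
  nT : T.nb = 0

/-- a diffeomorphism that is the identity on the ends, with an involution of the classes -/
structure Rf {a b : Option O3} (T : Pm a b none) extends M4.Dif T.X T.X where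
  id : ∀ p ∉ T.Core, φ p = p
  r : T.L → T.L
  pb : ∀ d, Pb φ univ (r d) d
  rr : ∀ d, r (r d) = d
  half : T.L → Prop
  hr : ∀ d, half (r d) ↔ ¬half d

/-- the pull-back of the form of the reflected class -/
abbrev Rf.fm {a b : Option O3} {T : Pm a b none} (ρ : Rf T) (η : T.L → T.Fm) (d : T.L) : T.Fm :=
  pm T.X.I T.X.I ρ.φ (η (ρ.r d))

/-- `S² × S¹` -/
structure R3 : Type 1 extends O3 where
  φ : Y.M ≃ₘ^∞⟮Y.I, (𝓡 2).prod (𝓡 1)⟯ Metric.sphere (0 : EuclideanSpace ℝ (Fin 3)) 1 × Circle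

/-- torsion classes -/
def Tor {A : O3} (c : A.L) : Prop := ∃ f, Cur c f ∧ Ex A.cyl.P.I univ f

/-- a closed form that is not exact on the end `k` and vanishes on `Z` -/
def Ext2 {A : O3} {X : M4} {J : Set ℝ} (k : Nc A X J) (Z : Set X.M) : Prop :=
  ∃ e : X.Fm, Cl X.I 2 univ e ∧ (∀ p ∈ Z, e p = 0) ∧ ¬Ex (IY A) (univ ×ˢ J) (pm (IY A) X.I k.k e)

/-- the two caps of `S² × S¹`: the plumbing `N` with its reflections, and `B = B³ × S¹` -/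
structure CG : Type 1 where
  R : R3
  N : Pm (some R.toO3) none none
  B : Pm (some R.toO3) none none
  c0 : R.L
  tor : Tor c0
  uq : ∀ c : R.L, Tor c → c = c0
  dB : B.L
  clB : B.ki.Cl dB c0
  uB : ∀ d : B.L, d = dB
  ρ : Bool → Rf N
  fin : N.Fin {x | N.ki.Cl x c0}
  ext : Ext2 (A := R.toO3) N.ki ∅
  sur : ∀ v : R.Y.M → Circle, ContMDiff R.Y.I (𝓡 1) ∞ v → ∃ u : B.M → Circle,
    ContMDiff B.X.I (𝓡 1) ∞ u ∧ ∀ y, ∀ t < (0 : ℝ), u (Nc.k (A := R.toO3) B.ki (y, t)) = v y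

/-- the manifold of a vertex -/
abbrev vo (a : Option Q3) : Option O3 := a.map Q3.toO3

/-- the manifolds of a pentagon with the vertex `a` -/
structure PG0 (G : CG) (a : Option Q3) (B C : Q3) : Type 1 where
  X1 : Pm (vo a) (some B.toO3) none
  X2 : Pm (some B.toO3) (some C.toO3) none
  X3 : Pm (some C.toO3) (vo a) none
  X12 : Pm (vo a) (some C.toO3) none
  X23 : Pm (some B.toO3) (vo a) none
  X : Pm (vo a) (vo a) none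
  L : Pm (vo a) (vo a) (some G.R.toO3)
  X0 : Pm (vo a) (vo a) none
  g12 : Cm X1 X2 X12
  g23 : Cm X2 X3 X23
  gC : Cm X12 X3 X
  gB : Cm X1 X23 X
  as1 : ∀ p ∈ g12.l.source, gC.l (g12.l p) = gB.l p
  as2 : ∀ p ∈ g12.r.source, p ∈ g23.l.source → gC.l (g12.r p) = gB.r (g23.l p)
  as3 : ∀ p ∈ g23.r.source, gB.r (g23.r p) = gC.r p
  gN : Cp3 L G.N X
  g0 : Cp3 L G.B X0
  ext : Ext2 (A := G.R.toO3) L.k3 {p | L.ki.tm p < 0 ∨ 0 < L.ko.tm p}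
  ρ12 : Rf X12
  ρ23 : Rf X23
  ρ : Bool → Rf X
  mC : gC.Mp (ρ false).φ ρ12.φ id
  mB : gB.Mp (ρ true).φ id ρ23.φ
  mN : ∀ s, gN.Mp (ρ s).φ id (G.ρ s).φ
  hC : ∀ k j, gC.Rl k j → ((ρ false).half k ↔ ρ12.half j)
  hB : ∀ k j, gB.Rr k j → ((ρ true).half k ↔ ρ23.half j)
  hN : ∀ s k x, gN.Rr k x → ((ρ s).half k ↔ (G.ρ s).half x)

/-- the data of a pentagon with the vertex `a` -/
structure PG (G : CG) (a : Option Q3) (B C : Q3) : Type 1 extends PG0 G a B C where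
  /-- the classes -/
  I1 : Set X1.L
  I2 : Set X2.L
  I3 : Set X3.L
  T : X1.L → X2.L → X3.L → Prop
  M : Set X.L
  IL : Set L.L
  IN : Set G.N.L
  fL : IL.Finite
  r12 : ∀ j d₁ d₂, g12.Rl j d₁ → g12.Rr j d₂ → d₁ ∈ I1 → d₂ ∈ I2 →
    ∃ d₁ ∈ I1, ∃ d₂ ∈ I2, g12.Rl (ρ12.r j) d₁ ∧ g12.Rr (ρ12.r j) d₂
  r23 : ∀ j d₂ d₃, g23.Rl j d₂ → g23.Rr j d₃ → d₂ ∈ I2 → d₃ ∈ I3 →
    ∃ d₂ ∈ I2, ∃ d₃ ∈ I3, g23.Rl (ρ23.r j) d₂ ∧ g23.Rr (ρ23.r j) d₃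
  t12 : ∀ j d₁ d₂ d₁' d₂' d₃, g12.Rl j d₁ → g12.Rr j d₂ → g12.Rl (ρ12.r j) d₁' →
    g12.Rr (ρ12.r j) d₂' → T d₁ d₂ d₃ → T d₁' d₂' d₃
  t23 : ∀ j d₁ d₂ d₃ d₂' d₃', g23.Rl j d₂ → g23.Rr j d₃ → g23.Rl (ρ23.r j) d₂' →
    g23.Rr (ρ23.r j) d₃' → T d₁ d₂ d₃ → T d₁ d₂' d₃'
  hM : ∀ k, k ∈ M ↔ ∃ j, ∃ d₁ ∈ I1, ∃ d₂ ∈ I2, ∃ d₃ ∈ I3,
    gC.Rl k j ∧ gC.Rr k d₃ ∧ g12.Rl j d₁ ∧ g12.Rr j d₂ ∧ T d₁ d₂ d₃
  rM : ∀ s, ∀ k ∈ M, (ρ s).r k ∈ M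
  clL : ∀ l ∈ IL, L.k3.Cl l G.c0
  rN : ∀ s, ∀ x ∈ IN, (G.ρ s).r x ∈ IN
  sat : ∀ k l x, gN.Rl k l → gN.Rr k x → G.N.ki.Cl x G.c0 → (k ∈ M ↔ l ∈ IL ∧ x ∈ IN)
  f1 : X1.Fin I1
  f2 : X2.Fin I2
  f3 : X3.Fin I3
  /-- the forms -/
  η1 : X1.L → X1.Fm
  η2 : X2.L → X2.Fm
  η3 : X3.L → X3.Fm
  η12 : X12.L → X12.Fm
  η23 : X23.L → X23.Fm
  η : X.L → X.Fm
  ηL : L.L → L.Fm
  ηN : X.L → X.Fm
  η0 : X0.L → X0.Fm
  fo : (∀ d, X1.Fo (η1 d)) ∧ (∀ d, X2.Fo (η2 d)) ∧ (∀ d, X3.Fo (η3 d)) ∧ ∀ d, L.Fo (ηL d)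
  fin : (range η1).Finite ∧ (range η2).Finite ∧ (range η3).Finite ∧ (range ηL).Finite
  e12 : ∀ j d₁ d₂, g12.Rl j d₁ → g12.Rr j d₂ → g12.Fm (η12 j) (η1 d₁) (η2 d₂)
  e23 : ∀ j d₂ d₃, g23.Rl j d₂ → g23.Rr j d₃ → g23.Fm (η23 j) (η2 d₂) (η3 d₃)
  eC : ∀ k j d₃, gC.Rl k j → gC.Rr k d₃ → gC.Fm (η k) (η12 j) (η3 d₃)
  eN : ∀ k l, gN.Rl k l → gN.Fm (ηN k) (ηL l) 0
  e0 : ∀ i l, g0.Rl i l → g0.Fm (η0 i) (ηL l) 0
  /-- no reducibles at the empty vertex -/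
  al : a = none → ∀ k ∈ M, ∀ x, gN.Rr k x → G.N.ki.Cl x G.c0
  p1 : a = none → ∀ d ∈ I1, X1.X.Ps d (η1 d)
  p12 : a = none → ∀ j d₁ d₂, g12.Rl j d₁ → g12.Rr j d₂ → d₁ ∈ I1 → d₂ ∈ I2 →
    X12.X.Seg j (η12 j) (ρ12.fm η12 j)
  p : a = none → ∀ s, ∀ k ∈ M, X.X.Tri k (η k) ((ρ s).fm η k) (ηN k)
  pL : a = none → ∀ l ∈ IL, L.X.Ps l (ηL l)
  p0 : a = none → ∀ i, ∀ l ∈ IL, g0.Rl i l → X0.X.Ps i (η0 i)

namespace PG
variable {G : CG} {a : Option Q3} {B C : Q3} (P : PG G a B C)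

/-- the classes of the first double composite -/
def J0 : Set P.X12.L := {j | ∃ d₁ ∈ P.I1, ∃ d₂ ∈ P.I2, P.g12.Rl j d₁ ∧ P.g12.Rr j d₂}

/-- the classes of the second double composite -/
def J1 : Set P.X23.L := {j | ∃ d₂ ∈ P.I2, ∃ d₃ ∈ P.I3, P.g23.Rl j d₂ ∧ P.g23.Rr j d₃}

/-- the classes of the filled piece -/
def I0 : Set P.X0.L := {i | ∃ l ∈ P.IL, P.g0.Rl i l}

/-- alive classes -/
def Al (k : P.X.L) : Prop := ∃ x, P.gN.Rr k x ∧ G.N.ki.Cl x G.c0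

end PG

end Crest.Agent.X212.Geo28
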