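import Crest.Agent.X212.Flo2.Gm

/-!
# Row 212, GEO engine (helper28): trees from face data

`FD g` : the faces of `g` at one coordinate.  `FO`, `FN`, `FC` : an ordinary coordinate, a neck wall,
a cap wall.  The faces of a cell of `KA mk` are read off from these data.
-/

set_option autoImplicit false
set_option linter.unusedSectionVars false
noncomputable section
open Set Function

namespace Crest.Agent.X212.Flo2

variable {κ lam ν : Type} [Fintype κ] [Fintype lam] [Fintype ν] [DecidableEq ν] {mk : Mk κ lam ν}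

/-- embeddings -/
abbrev Em (g' g : Gc κ lam ν) : Type := OpenPartialHomeomorph g'.X.M g.X.M

variable (κ lam ν) in
/-- trees with their roots -/
abbrev TR : Type 1 := Σ g : Gc κ lam ν, Tr g

variable (mk) in
/-- the skeleton of the engine -/
abbrev KC : Sk.{1} := (KA mk).clo

theorem EE.ty_inj : ∀ {a a' : EE mk} {c : a.L} {c' : a'.L}, a.ty c = a'.ty c' →
    (⟨a, c⟩ : Σ a : EE mk, a.L) = ⟨a', c'⟩
  | none, none, _, _, _ => rfl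
  | none, some _, _, _, h => nomatch h
  | some _, none, _, _, h => nomatch h
  | some ⟨_, _⟩, some ⟨_, _⟩, _, _, h => by cases h; rfl

/-- empty, or a rational homology sphere -/
def EE.Q (a : EE mk) : Prop := ∀ e ∈ a, e.1.kd = .qhs

namespace C3
variable {a b x x' : EE mk}

/-- the tree -/
abbrev tr (σ : C3 a b x) : TR κ lam ν := ⟨σ.g, σ.τ⟩

/-- another lift -/
def lift (σ : C3 a b x) (n : ℤ) : C3 a b x := { σ with n := n }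

/-- points without reducible solutions -/
structure P0 (σ : C3 a b x) : Prop where
  k : σ.g.k = 0
  n : σ.n = 0
  ir : σ.τ.Irr

theorem ext' {σ σ' : C3 a b x} (h : σ.tr = σ'.tr) (hn : σ.n = σ'.n) : σ = σ' := by
  obtain ⟨g, τ, wf, s, t, u, n, hs, ht, hu⟩ := σ
  obtain ⟨g', τ', wf', s', t', u', n', hs', ht', hu'⟩ := σ'
  cases h
  cases hn
  cases EE.ty_inj (hs.symm.trans hs')
  cases EE.ty_inj (ht.symm.trans ht')
  cases EE.ty_inj (hu.symm.trans hu')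
  rfl

theorem lift_n (σ : C3 a b x) : σ.lift σ.n = σ := rfl

theorem ext_nk {σ₁ : C2 a x} {σ₂ : C2 x b} {ρ₁ : C2 a x'} {ρ₂ : C2 x' b} (h₁ : σ₁.tr = ρ₁.tr)
    (n₁ : σ₁.n = ρ₁.n) (h₂ : σ₂.tr = ρ₂.tr) (n₂ : σ₂.n = ρ₂.n) :
    (⟨x, σ₁, σ₂⟩ : Σ x, C2 a x × C2 x b) = ⟨x', ρ₁, ρ₂⟩ := by
  obtain rfl : x = x' := congrArg Sigma.fst (EE.ty_inj (σ₁.ht.symm.trans
    ((congrArg (fun p : TR κ lam ν => p.1.pout.map p.1.ty) h₁).trans ρ₁.ht)))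
  rw [ext' h₁ n₁, ext' h₂ n₂]

theorem ext_cp {σ₁ : C3 a b x} {σ₂ : C2 x none} {ρ₁ : C3 a b x'} {ρ₂ : C2 x' none} (h₁ : σ₁.tr = ρ₁.tr)
    (n₁ : σ₁.n = ρ₁.n) (h₂ : σ₂.tr = ρ₂.tr) (n₂ : σ₂.n = ρ₂.n) :
    (⟨x, σ₁, σ₂⟩ : Σ x, C3 a b x × C2 x none) = ⟨x', ρ₁, ρ₂⟩ := by
  obtain rfl : x = x' := congrArg Sigma.fst (EE.ty_inj (σ₁.hu.symm.trans
    ((congrArg (fun p : TR κ lam ν => p.1.p3.map p.1.ty) h₁).trans ρ₁.hu)))
  rw [ext' h₁ n₁, ext' h₂ n₂]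

theorem kp (σ : C3 a b x) (h : a.Q) : σ.g.Kp σ.g.pin .qhs := fun i hi => by
  have := σ.hs
  rw [show σ.g.pin = some i from hi] at this
  rcases a with _ | e
  · exact nomatch this
  · exact (congrArg (fun T : Ty κ lam ν => T.1.kd) (Option.some.inj this)).trans (h e rfl)

/-- a cell over its facet `σ` -/
def up (σ : C2 a b) {g : Gc κ lam ν} (τ : Tr g) (wf : τ.WF mk) {D ι φ n} (h : g.Fc σ.g D ι φ n) :
    C2 a b :=
  ⟨g, τ, wf, σ.s, σ.t, (), 0, h.ports.1.symm.trans σ.hs, h.ports.2.1.symm.trans σ.ht,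
    h.ports.2.2.symm.trans σ.hu⟩

/-- the facets at a coordinate -/
def fcL (σ : C2 a b) (c : Fin σ.g.k) : List (C2 a b) :=
  σ.f0 c :: if h : σ.g.wl c = none then [σ.f1 c h] else []

/-- the necks at a coordinate -/
def nkL (σ : C2 a b) (c : Fin σ.g.k) : List (Σ x, C2 a x × C2 x b) :=
  if h : (σ.g.wl c).isSome ∧ σ.τ.nd.cap c = false then
    [σ.nk c _ (Option.some_get h.1).symm h.2] else []

theorem fc_eq (σ : C2 a b) (h : a.Q) :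
    (KC mk).fc σ = (List.finRange σ.g.k).flatMap σ.fcL := if_pos (σ.kp h)

theorem nk_eq (σ : C2 a b) : (KC mk).nk σ = (List.finRange σ.g.k).flatMap σ.nkL := rfl

/-- the lift of a cap -/
def z (σ : C2 a b) (θ : (KC mk).C σ) : ℤ := Kd.toZ _ θ.2

theorem empty (σ : C2 a b) (h : ∀ c, σ.τ.nd.cap c = false) : IsEmpty ((KC mk).C σ) :=
  ⟨fun θ => nomatch (h _).symm.trans θ.1.2.2⟩

theorem P0.pt {σ : C2 a b} (h : σ.P0) : (KC mk).Pt σ := by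
  have : IsEmpty (Fin σ.g.k) := h.k ▸ Fin.isEmpty'
  have e : List.finRange σ.g.k = [] := List.eq_nil_iff_forall_not_mem.2 isEmptyElim
  refine ⟨?_, by rw [nk_eq, e]; rfl, σ.empty isEmptyElim⟩
  exact (@ite_eq_right_iff _ _ (Classical.propDecidable _) _ _).2 fun _ => by rw [e]; rfl

end C3

theorem finRange_one {k : ℕ} {c : Fin k} (h : ∀ c', c' = c) : List.finRange k = [c] :=
  List.perm_singleton.1 ((List.perm_ext_iff_of_nodup (List.nodup_finRange k) (by simp)).2 fun a => by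
    simp [h a])

theorem finRange_two {k : ℕ} {c c' : Fin k} (h : c ≠ c') (h' : ∀ d, d = c ∨ d = c') :
    (List.finRange k).Perm [c, c'] :=
  (List.perm_ext_iff_of_nodup (List.nodup_finRange k) (by simp [h])).2 fun a => by simp [h' a]

/-- the faces at one coordinate -/
structure FD (g : Gc κ lam ν) : Type 1 where
  p0 : TR κ lam ν
  ι0 : Fin p0.1.k → Fin g.k
  φ0 : Em p0.1 g
  n0 : ℤ
  p1 : TR κ lam ν
  ι1 : Fin p1.1.k → Fin g.k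
  l : ℝ → Em p1.1 g
  n1 : ℤ
  cap : Bool
  fx : Bool
  g2' : Gc κ lam ν
  ι2 : Fin g2'.k → Fin g.k
  r : ℝ → Em g2' g
  p2 : TR κ lam ν
  ι3 : Fin p2.1.k → Fin g2'.k
  φ2 : Em p2.1 g2'

variable {g : Gc κ lam ν}

namespace FD
variable (D : FD g) (c : Fin g.k)

structure OK : Prop where
  f0 : range D.ι0 = {c}ᶜ ∧ g.Fc D.p0.1 {t ∈ g.dom | t c = 0} D.ι0 D.φ0 D.n0
  f1 : g.wl c = none → range D.ι1 = {c}ᶜ ∧ (∀ v, D.l v = D.l 3) ∧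
    g.Fc D.p1.1 {t ∈ g.dom | t c = 1} D.ι1 (D.l 3) D.n1
  wl : ∀ i ∈ g.wl c, g.Wl D.p1.1 D.g2' c i D.cap D.ι1 D.ι2 D.l D.r ∧ D.g2'.OK ∧ Surjective D.ι3 ∧
    (D.g2'.Fc D.p2.1 D.g2'.dom D.ι3 D.φ2 D.n1 ∧
      (D.fx = true → ∀ n, D.g2'.Fc D.p2.1 D.g2'.dom D.ι3 D.φ2 n))
  lit : D.cap = false → ∃ h : D.g2' = D.p2.1, (∀ j, (D.ι3 j).1 = j.1) ∧
    D.φ2 = h ▸ OpenPartialHomeomorph.refl _
  cw : D.cap = true → ∀ c', D.g2'.wl c' = none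

variable (mk) in
structure Gd : Prop where
  w0 : D.p0.2.WF mk
  w1 : D.p1.2.WF mk
  w2 : D.p2.2.WF mk
  en : ∀ i, (D.g2'.en i).OK mk
  i0 : D.p0.2.Irr
  i1 : D.p1.2.Irr
  i2 : D.p2.2.Irr

/-- the pieces -/
def pcs : Bool → List (Pi g)
  | false => [⟨_, D.p0.2, D.ι0, fun _ => D.φ0⟩]
  | true => ⟨_, D.p1.2, D.ι1, fun t => D.l (t c)⟩ ::
      if g.wl c = none then [] else [⟨_, D.p2.2, D.ι2 ∘ D.ι3, fun t => D.φ2.trans (D.r (t c))⟩]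

end FD

variable (mk g) in
/-- good roots -/
structure Ro : Prop where
  ok : g.OK
  en : ∀ i, (g.en i).OK mk
  ir : g.Ir

/-- the pieces of a piece -/
def Pi.sub (p : Pi g) (s : Bool) : List (Pi g) :=
  if h : 0 < p.g'.k then (p.τ.pcs ⟨0, h⟩ s).map p.comp else [p]

theorem Pi.sub_pt (p : Pi g) (s : Bool) (h : p.g'.k = 0) : p.sub s = [p] := dif_neg h.not_gt

/-- two embeddings agree -/
def Same {A B : Type} [TopologicalSpace A] [TopologicalSpace B] (φ ψ : OpenPartialHomeomorph A B) :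
    Prop := ∀ x ∈ φ.source, x ∈ ψ.source → φ x = ψ x

theorem Pi.eq_of {g' : Gc κ lam ν} {τ : Tr g'} {ι ι'} {φ ψ : Tk g.k → Em g' g}
    (h : ∀ t, (∀ c, 3 ≤ t c) → Same (φ t) (ψ t)) : Pi.Eq ⟨g', τ, ι, φ⟩ ⟨g', τ, ι', ψ⟩ :=
  ⟨rfl, rfl, fun t ht x hx _ hx' e => by cases e; exact h t ht x hx hx'⟩

theorem Pi.Eq.symm {p q : Pi g} (h : p.Eq q) : q.Eq p := by
  obtain ⟨g₁, τ₁, ι₁, φ₁⟩ := p
  obtain ⟨g₂, τ₂, ι₂, φ₂⟩ := q
  obtain ⟨e, e', h⟩ := h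
  cases e
  cases e'
  exact ⟨rfl, rfl, fun t ht x hx x' hx' e => (h t ht x' hx' x hx e.symm).symm⟩

namespace Tr

/-- the tree with the faces `D` -/
def of (ok : g.OK) (D : Fin g.k → FD g) (h : ∀ c, (D c).OK c) : Tr g :=
  .mk ⟨ok, fun c => (D c).p0.1, fun c => (D c).ι0, fun c => (D c).φ0, fun c => (D c).n0,
    fun c => (D c).p1.1, fun c => (D c).ι1, fun c => (D c).l, fun c => (D c).n1, fun c => (D c).cap,
    fun c => (D c).fx, fun c => (D c).g2', fun c => (D c).ι2, fun c => (D c).r, fun c => (D c).p2.1,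
    fun c => (D c).ι3, fun c => (D c).φ2, fun c => (h c).f0, fun c => (h c).f1, fun c => (h c).wl,
    fun c => (h c).lit, fun c => (h c).cw⟩ (fun c => (D c).p0.2) (fun c => (D c).p1.2)
    fun c => (D c).p2.2

/-- the faces of a tree -/
def fd (τ : Tr g) (c : Fin g.k) : FD g :=
  ⟨⟨_, τ.f0 c⟩, τ.nd.ι0 c, τ.nd.φ0 c, τ.nd.n0 c, ⟨_, τ.f1 c⟩, τ.nd.ι1 c, τ.nd.l c, τ.nd.n1 c,
    τ.nd.cap c, τ.nd.fx c, τ.nd.g2' c, τ.nd.ι2 c, τ.nd.r c, ⟨_, τ.f2 c⟩, τ.nd.ι3 c, τ.nd.φ2 c⟩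

theorem pcs_eq (τ : Tr g) (c : Fin g.k) (s : Bool) : τ.pcs c s = (τ.fd c).pcs c s := by
  cases s <;> rfl

variable {ok : g.OK} {D : Fin g.k → FD g} {h : ∀ c, (D c).OK c}

theorem fd_of (c : Fin g.k) : (of ok D h).fd c = D c := rfl

theorem of_irr (hi : g.Ir) (hg : ∀ c, (D c).Gd mk) : (of ok D h).Irr :=
  ⟨hi, fun c => (hg c).i0, fun c => (hg c).i1, fun c _ => (hg c).i2⟩

theorem of_wf (ro : Ro mk g) (hc : (of ok D h).Coh) (hg : ∀ c, (D c).Gd mk) : (of ok D h).WF mk :=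
  ⟨ro.en, hc, fun c => (hg c).w0, fun c => (hg c).w1, fun c _ => (hg c).w2, .inl (of_irr (h := h) ro.ir hg),
    fun c _ => (hg c).en⟩

theorem coh_two (τ : Tr g) {c c' : Fin g.k} (h : ∀ d, d = c ∨ d = c') (H : ∀ s s', ∃ l,
    (((τ.fd c').pcs c' s').flatMap (·.sub s)).Perm l ∧
      List.Forall₂ Pi.Eq (((τ.fd c).pcs c s).flatMap (·.sub s')) l) : τ.Coh := by
  have k : ∀ s s', ∃ l, (τ.crn c' s' s).Perm l ∧ List.Forall₂ Pi.Eq (τ.crn c s s') l := by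
    simp only [← pcs_eq] at H
    exact H
  intro d d' hd s s'
  rcases h d with rfl | rfl <;> rcases h d' with rfl | rfl
  · exact (hd rfl).elim
  · exact k s s'
  · obtain ⟨l, h1, h2⟩ := k s' s
    obtain ⟨l', k1, k2⟩ := List.perm_comp_forall₂ h1 (h2.flip.imp fun _ _ => Pi.Eq.symm)
    exact ⟨l', k2.symm, k1⟩
  · exact (hd rfl).elim

end Tr

variable (g) (c : Fin g.k) (p0 p1 p2 : TR κ lam ν)

/-- the facet `t c = s` -/
structure Ft (s : ℝ) : Type where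
  ι : Fin p0.1.k → Fin g.k
  φ : Em p0.1 g
  n : ℤ
  rg : range ι = {c}ᶜ
  fc : g.Fc p0.1 {t ∈ g.dom | t c = s} ι φ n

/-- an ordinary coordinate -/
structure FO : Type where
  wl : g.wl c = none
  F0 : Ft g c p0 0
  F1 : Ft g c p1 1

/-- a wall at a neck that separates the ends -/
structure FN : Type where
  i : g.N
  wl : g.wl c = some i
  F0 : Ft g c p0 0
  ι1 : Fin p1.1.k → Fin g.k
  ι2 : Fin p2.1.k → Fin g.k
  l : ℝ → Em p1.1 g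
  r : ℝ → Em p2.1 g
  w : g.Wl p1.1 p2.1 c i false ι1 ι2 l r
  rf : p2.1.Fc p2.1 p2.1.dom id (.refl _) 0

variable (mk) in
/-- a wall at a neck that cuts off a cap -/
structure FC : Type 1 where
  i : g.N
  wl : g.wl c = some i
  F0 : Ft g c p0 0
  g2' : Gc κ lam ν
  ok : g2'.OK
  en : ∀ i, (g2'.en i).OK mk
  cw : ∀ c', g2'.wl c' = none
  ι1 : Fin p1.1.k → Fin g.k
  ι2 : Fin g2'.k → Fin g.k
  l : ℝ → Em p1.1 g
  r : ℝ → Em g2' g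
  w : g.Wl p1.1 g2' c i true ι1 ι2 l r
  ι3 : Fin p2.1.k → Fin g2'.k
  φ2 : Em p2.1 g2'
  n1 : ℤ
  fx : Bool
  sj : Surjective ι3
  f2 : g2'.Fc p2.1 g2'.dom ι3 φ2 n1
  hfx : fx = true → ∀ n, g2'.Fc p2.1 g2'.dom ι3 φ2 n

variable {g c p0 p1 p2}

theorem Ft.ne {s : ℝ} (F : Ft g c p0 s) (j : Fin p0.1.k) : F.ι j ≠ c := fun e =>
  (F.rg.le ⟨j, rfl⟩ :) e

/-- the faces -/
def FO.fd (F : FO g c p0 p1) : FD g :=
  ⟨p0, F.F0.ι, F.F0.φ, F.F0.n, p1, F.F1.ι, fun _ => F.F1.φ, F.F1.n, false, false, p1.1, F.F1.ι,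
    fun _ => F.F1.φ, p1, id, .refl _⟩

/-- the faces -/
def FN.fd (F : FN g c p0 p1 p2) : FD g :=
  ⟨p0, F.F0.ι, F.F0.φ, F.F0.n, p1, F.ι1, F.l, 0, false, false, p2.1, F.ι2, F.r, p2, id, .refl _⟩

/-- the faces -/
def FC.fd (F : FC mk g c p0 p1 p2) : FD g :=
  ⟨p0, F.F0.ι, F.F0.φ, F.F0.n, p1, F.ι1, F.l, F.n1, true, F.fx, F.g2', F.ι2, F.r, p2, F.ι3, F.φ2⟩

theorem FO.ok (F : FO g c p0 p1) : F.fd.OK c :=
  ⟨⟨F.F0.rg, F.F0.fc⟩, fun _ => ⟨F.F1.rg, fun _ => rfl, F.F1.fc⟩,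
    fun _ h => (nomatch F.wl.symm.trans h), fun _ => ⟨rfl, fun _ => rfl, rfl⟩, nofun⟩

theorem FN.ok (F : FN g c p0 p1 p2) : F.fd.OK c :=
  ⟨⟨F.F0.rg, F.F0.fc⟩, fun h => (nomatch F.wl.symm.trans h), fun i h => by
    cases F.wl.symm.trans h
    exact ⟨F.w, p2.2.nd.ok, surjective_id, F.rf, nofun⟩, fun _ => ⟨rfl, fun _ => rfl, rfl⟩, nofun⟩

theorem FC.ok' (F : FC mk g c p0 p1 p2) : F.fd.OK c :=
  ⟨⟨F.F0.rg, F.F0.fc⟩, fun h => (nomatch F.wl.symm.trans h), fun i h => by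
    cases F.wl.symm.trans h
    exact ⟨F.w, F.ok, F.sj, F.f2, F.hfx⟩, nofun, fun _ => F.cw⟩

theorem FO.pcs (F : FO g c p0 p1) : F.fd.pcs c true = [⟨_, p1.2, F.F1.ι, fun _ => F.F1.φ⟩] :=
  congrArg (List.cons _) (if_pos F.wl)

theorem FN.pcs (F : FN g c p0 p1 p2) : F.fd.pcs c true = [⟨_, p1.2, F.ι1, fun t => F.l (t c)⟩,
    ⟨_, p2.2, F.ι2, fun t => (OpenPartialHomeomorph.refl _).trans (F.r (t c))⟩] :=
  congrArg (List.cons _) (if_neg (F.wl ▸ nofun))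

theorem FC.pcs (F : FC mk g c p0 p1 p2) : F.fd.pcs c true = [⟨_, p1.2, F.ι1, fun t => F.l (t c)⟩,
    ⟨_, p2.2, F.ι2 ∘ F.ι3, fun t => F.φ2.trans (F.r (t c))⟩] :=
  congrArg (List.cons _) (if_neg (F.wl ▸ nofun))

namespace C3
variable {a b x : EE mk} {σ σ₀ σ₁ : C2 a b} {c : Fin σ.g.k}

theorem f0_eq {D : FD σ.g} (h : σ.τ.fd c = D) (e : D.p0 = σ₀.tr) (n : σ₀.n = 0) : σ.f0 c = σ₀ :=
  ext' ((congrArg FD.p0 h).trans e) n.symm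

theorem fo {F : FO σ.g c σ₀.tr σ₁.tr} (h : σ.τ.fd c = F.fd) (n₀ : σ₀.n = 0) (n₁ : σ₁.n = 0) :
    σ.fcL c = [σ₀, σ₁] ∧ σ.nkL c = [] ∧ σ.τ.nd.cap c = false :=
  ⟨by rw [fcL, dif_pos F.wl, f0_eq h rfl n₀, ext' (σ := σ.f1 c F.wl) (congrArg FD.p1 h) n₁.symm],
    dif_neg (by simp [F.wl]), congrArg FD.cap h⟩

theorem fn {ρ₁ : C2 a x} {ρ₂ : C2 x b} {F : FN σ.g c σ₀.tr ρ₁.tr ρ₂.tr} (h : σ.τ.fd c = F.fd)
    (n₀ : σ₀.n = 0) (n₁ : ρ₁.n = 0) (n₂ : ρ₂.n = 0) :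
    σ.fcL c = [σ₀] ∧ σ.nkL c = [⟨x, ρ₁, ρ₂⟩] ∧ σ.τ.nd.cap c = false :=
  have k : σ.τ.nd.cap c = false := congrArg FD.cap h
  ⟨by rw [fcL, dif_neg (F.wl ▸ nofun), f0_eq h rfl n₀], (dif_pos ⟨F.wl ▸ rfl, k⟩).trans
    (congrArg (fun y => [y]) (ext_nk (congrArg FD.p1 h) n₁.symm (congrArg FD.p2 h) n₂.symm)), k⟩

variable {L : C3 a b x} {Q : C2 x none} {F : FC mk σ.g c σ₀.tr L.tr Q.tr}

theorem fcp (h : σ.τ.fd c = F.fd) (n₀ : σ₀.n = 0) : σ.fcL c = [σ₀] ∧ σ.nkL c = [] :=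
  ⟨by rw [fcL, dif_neg (F.wl ▸ nofun), f0_eq h rfl n₀],
    dif_neg fun k => nomatch k.2.symm.trans (congrArg FD.cap h)⟩

theorem cp_eq (h : σ.τ.fd c = F.fd) (h' : ∀ c', c' = c ∨ σ.τ.nd.cap c' = false) (θ : (KC mk).C σ) :
    (KC mk).cp σ θ = ⟨x, L.lift (σ.z θ), Q.lift (bif F.fx then 0 else σ.z θ + F.n1)⟩ := by
  obtain ⟨⟨⟨c', i⟩, h1, h2⟩, n⟩ := θ
  obtain rfl : c' = c := (h' c').resolve_right fun k => nomatch k.symm.trans h2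
  exact ext_cp (congrArg FD.p1 h) rfl (congrArg FD.p2 h)
    (congrArg (fun D : FD σ.g => bif D.fx then 0 else Kd.toZ _ n + D.n1) h)

theorem x_eq (F : FC mk σ.g c σ₀.tr L.tr Q.tr) : x = σ.en F.i :=
  congrArg Sigma.fst (EE.ty_inj (a' := σ.en F.i) (c' := σ.g.cl F.i) (L.hu.symm.trans F.w.cap.2.2.1))

/-- the lifts -/
def zE (h : σ.τ.fd c = F.fd) (h' : ∀ c', c' = c ∨ σ.τ.nd.cap c' = false) :
    (σ.g.en F.i).kd.Z ≃ (KC mk).C σ :=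
  Equiv.ofBijective (fun n => ⟨⟨(c, F.i), F.wl, congrArg FD.cap h⟩, n⟩) ⟨fun _ _ e => by cases e; rfl, by
    rintro ⟨⟨⟨c', i⟩, h1, h2⟩, n⟩
    obtain rfl : c' = c := (h' c').resolve_right fun k => nomatch k.symm.trans h2
    cases F.wl.symm.trans h1
    exact ⟨n, rfl⟩⟩

theorem z_bij (h : σ.τ.fd c = F.fd) (h' : ∀ c', c' = c ∨ σ.τ.nd.cap c' = false)
    (k : EE.P (fun e => e.kd = .tor) x) : Bijective σ.z := by
  have e : ∀ k : Kd, k = .tor → Bijective (Kd.toZ k) := by rintro _ rfl; exact bijective_id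
  obtain ⟨y, h1, h2⟩ := k
  have := (x_eq F).symm.trans h1
  exact (Equiv.bijective_comp (zE h h') _).1 (e _ (by cases this; exact h2))

theorem z_one (h : σ.τ.fd c = F.fd) (h' : ∀ c', c' = c ∨ σ.τ.nd.cap c' = false)
    (k : EE.P (fun e => e.kd ≠ .tor) x) : ∃ θ, (∀ θ', θ' = θ) ∧ σ.z θ = 0 := by
  have e : ∀ k : Kd, k ≠ .tor → ∃ n : k.Z, (∀ n', n' = n) ∧ Kd.toZ k n = 0 := by
    rintro (_ | _ | _) h
    exacts [⟨(), fun _ => rfl, rfl⟩, (h rfl).elim, ⟨(), fun _ => rfl, rfl⟩]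
  obtain ⟨y, h1, h2⟩ := k
  have := (x_eq F).symm.trans h1
  obtain ⟨n, k1, k2⟩ := e (σ.g.en F.i).kd (by cases this; exact h2)
  exact ⟨zE h h' n, fun θ => by obtain ⟨m, rfl⟩ := (zE h h').surjective θ; rw [k1 m], k2⟩

end C3

end Crest.Agent.X212.Flo2
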